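import Vale.Agent.P066.Overlap2.Index

/-! The attachment of a clique to a symmetric generator, before cancellation. -/

open Finset

noncomputable section

namespace Vale.Agent.P066.Overlap2

open Vale.Agent.P066.Small

variable {K : Type*} [Field K] {N : ℕ} {q : K} {x : Fin N → K} {d e : Fin N} {k : ℕ}

/-- The one-row sum, expanded in elementary symmetric functions. -/
lemma II_eq (hde : d < e) (D : ℤ) :
    II q x d e D = ∑ i ∈ Ico 0 (D + 1), q ^ i * (ee x i * aa q x d e (D - i)) := by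
  rcases lt_or_ge D 0 with h | h
  · simp [II, Finset.Ico_eq_empty_of_le (show D + 1 ≤ 0 by omega)]
  lift D to ℕ using h
  have hprod : (∏ s, (1 + Polynomial.C (q * (cw q s d * x s)) * Polynomial.X)) *
      ∏ s, (1 + Polynomial.C (cw q s e * x s) * Polynomial.X) =
      (∏ s, (1 + Polynomial.C (q * x s) * Polynomial.X)) *
        ∏ s, (1 + Polynomial.C (al q d e s * x s) * Polynomial.X) := by
    rw [← prod_mul_distrib, ← prod_mul_distrib]
    refine prod_congr rfl fun s _ => ?_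
    rcases lt_trichotomy s d with h | rfl | h
    · simp only [al, cw_lt q h, cw_lt q (h.trans hde), map_mul]; ring
    · simp [al, cw_self, cw_lt q hde]
    · rcases lt_trichotomy s e with h' | rfl | h'
      · simp only [al, cw_gt q h, cw_lt q h', map_mul, map_one]; ring
      · simp [al, cw_self, cw_gt q hde]
      · simp only [al, cw_gt q h, cw_gt q h', map_mul, map_one]; ring
  have hc := congrArg (Polynomial.coeff · D) hprod
  simp only [Polynomial.coeff_mul, Nat.sum_antidiagonal_eq_sum_range_succ_mk] at hc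
  change ∑ l ∈ range (D + 1), es (fun s => q * (cw q s d * x s)) l *
      es (fun s => cw q s e * x s) (D - l) =
    ∑ l ∈ range (D + 1), es (fun s => q * x s) l * es (fun s => al q d e s * x s) (D - l) at hc
  simp only [es_smul] at hc
  have l1 : II q x d e D = ∑ l ∈ range (D + 1), q ^ l * es (fun s => cw q s d * x s) l *
      es (fun s => cw q s e * x s) (D - l) := by
    rw [II, show (D : ℤ) + 1 = ((D + 1 : ℕ) : ℤ) by omega, ← range_int]
    refine sum_congr rfl fun l hl => ?_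
    have := mem_range.1 hl
    rw [zpow_natCast, show (D : ℤ) - l = ((D - l : ℕ) : ℤ) by omega, pp, pp, esZ_natCast,
      esZ_natCast]
    ring
  rw [l1, hc, show (D : ℤ) + 1 = ((D + 1 : ℕ) : ℤ) by omega, ← range_int]
  refine sum_congr rfl fun l hl => ?_
  have := mem_range.1 hl
  rw [zpow_natCast, show (D : ℤ) - l = ((D - l : ℕ) : ℤ) by omega, ee, aa, esZ_natCast, esZ_natCast]
  ring

lemma UU_expand {h l : Fin N} (hq : Generic q) {A D L : ℤ} (hA : 0 ≤ A) (hL : 1 ≤ L) :
    Sy q x l h A D = ∑ j ∈ Ico (-L) A, uu q A j * UU q x h l (D + 1 - j) j := by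
  set g1 : ℤ → K := fun j => pp q x h (D - j) * pp q x l j with hg1
  set g2 : ℤ → K := fun j => pp q x h j * pp q x l (D - j) with hg2
  have z1 : g1 (-L - 1) = 0 := by simp [hg1, pp_neg (show -L - 1 < 0 by omega)]
  have z2 : g2 (-L - 1) = 0 := by simp [hg2, pp_neg (show -L - 1 < 0 by omega)]
  have e : ∀ j ∈ Ico (-L) A, uu q A j * UU q x h l (D + 1 - j) j =
      uu q A j * (1 * g1 j - q * g1 (j - 1)) + uu q A j * (q * g2 j - 1 * g2 (j - 1)) := by
    intro j _
    simp only [UU, hg1, hg2, show D + 1 - j - 1 = D - j by ring,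
      show D - (j - 1) = D + 1 - j by ring]
    ring
  rw [sum_congr rfl e, sum_add_distrib, tele_uu g1 1 q (by omega) z1,
    tele_uu g2 q 1 (by omega) z2, ← sum_add_distrib, Sy_eq_qz,
    sum_subset (Ico_subset_Ico_left (show -L ≤ 0 by omega))]
  · refine sum_congr rfl fun j hj => ?_
    have := (mem_Ico.1 hj).2
    simp only [one_mul, hg1, hg2, uu_sub_q hq this, q_uu_sub hq this]
    ring
  · intro j hj hj'
    simp only [mem_Ico] at hj hj'
    rw [pp_neg (n := j) (by omega), pp_neg (n := j) (by omega)]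
    ring

lemma Att_smul_sum {ι : Type*} (I : Finset ι) (c : ι → K) (f : ι → Fin N → Fin N → K) :
    Att q x d e k (fun h l => ∑ i ∈ I, c i * f i h l) =
      ∑ i ∈ I, c i * Att q x d e k (f i) := by
  simp only [Att, mul_sum]
  rw [sum_comm (s := I)]
  refine sum_congr rfl fun l _ => ?_
  rw [sum_comm (s := I)]
  refine sum_congr rfl fun h _ => ?_
  split_ifs
  · simp only [mul_sum, sum_mul]
    exact sum_congr rfl fun i _ => by ring
  · simp

variable (q x d e k)

/-- The index rectangle of the end terms. -/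
def rect (A : ℤ) : Finset (ℤ × ℤ) := Ico (0 : ℤ) (k + 1) ×ˢ Ico (-(k : ℤ) - 2) A

/-- Coefficient of a main term. -/
def cM (p : ℤ × ℤ) : K :=
  q ^ p.1 * qz q (p.1 + 1) * qz q (p.2 + 1) * q ^ (2 * ((k : ℤ) - p.1 - p.2))

/-- A main term. -/
def fM (A D : ℤ) (p : ℤ × ℤ) : K :=
  ee x ((k : ℤ) - p.1 - p.2) * Sy q x d e (A + 1 + p.2) (D + 2 + p.1 + p.2)

/-- Coefficient of a small end term. -/
def cS (A : ℤ) (p : ℤ × ℤ) : K :=
  q ^ (p.2 + 2 + 2 * p.1 + ((k : ℤ) - p.1)) * qz q (A - p.2) * qz q (A - 1 - ((k : ℤ) - p.1))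

/-- A small end term. -/
def fS (D : ℤ) (p : ℤ × ℤ) : K :=
  ee x (p.2 + 1 + p.1) * Sy q x d e ((k : ℤ) - p.1 + 1) (D - p.2 + 1 + ((k : ℤ) - p.1))

/-- Coefficient of a big end term. -/
def cB (A D : ℤ) (p : ℤ × ℤ) : K :=
  q ^ (A + 2 + 2 * p.1 + ((k : ℤ) - p.1)) * qz q (A - p.2) * qz q (D - A - 1 - ((k : ℤ) - p.1))

/-- A big end term. -/
def fB (D : ℤ) (p : ℤ × ℤ) : K :=
  ee x (D - p.2 + 1 + p.1) * Sy q x d e ((k : ℤ) - p.1 + 1) (p.2 + 1 + ((k : ℤ) - p.1))

/-- An atom of the one-row part, indexed by the excess and the smaller end. -/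
def ww' (D : ℤ) (bx : ℤ × ℤ) : K :=
  ee x (D + 2 + bx.1 - bx.2) * ee x bx.2 * aa q x d e ((k : ℤ) - bx.1)

/-- The doubly-ended part before regrouping. -/
def EEs (A D : ℤ) : K :=
  ∑ l ∈ Ico (-(k : ℤ) - 2) A, (q * (uu q A l - uu q A (l + 1)) * At q x d e k (D - l) l -
    qz q (A - l) * (q ^ l * Et q x d e k (D - l) l + q ^ A * Et q x d e k l (D - l)))

variable {q x d e k}

lemma Mt_eq (hq : Generic q) (a b : ℤ) : Mt q x d e k a b = ∑ p ∈ tri k, q * cM q k p *
    q ^ p.2 * (ee x ((k : ℤ) - p.1 - p.2) *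
      (pp q x e (a + 1 + p.1) * pp q x d (b + 1 + p.2))) := by
  rw [Mt, ← tri_sum k (fun r s => q * cM q k (r, s) * q ^ s * (ee x ((k : ℤ) - r - s) *
    (pp q x e (a + 1 + r) * pp q x d (b + 1 + s))))]
  refine sum_congr rfl fun r hr => sum_congr rfl fun s hs => ?_
  have := mem_range.1 hr; have := mem_range.1 hs
  rw [qn_eq_qz hq, qn_eq_qz hq, cM, show (k : ℤ) - r - s = ((k - r - s : ℕ) : ℤ) by omega, ee,
    esZ_natCast, show (2 : ℤ) * ((k - r - s : ℕ) : ℤ) = ((2 * (k - r - s) : ℕ) : ℤ) by omega]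
  simp only [zpow_natCast, pow_mul, sq, Nat.cast_add, Nat.cast_one]
  ring

lemma Bt_eq (hq : Generic q) (a b : ℤ) : Bt q x d e k a b = ∑ t ∈ Ico (0 : ℤ) (k + 1),
    q ^ (a + 1 + 2 * t) * (ee x (a + 1 + t) *
      Sy q x d e ((k : ℤ) - t + 1) (b + 1 + ((k : ℤ) - t))) := by
  rw [show ((k : ℤ) + 1) = ((k + 1 : ℕ) : ℤ) by omega, ← range_int, Bt]
  refine sum_congr rfl fun t ht => ?_
  have := mem_range.1 ht
  rw [show (k : ℤ) - t = ((k - t : ℕ) : ℤ) by omega,
    show q ^ (a + 1 + 2 * (t : ℤ)) = q ^ t * q ^ (a + 1 + (t : ℤ)) by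
      rw [← zpow_natCast q t, ← zpow_add₀ hq.ne]; congr 1; ring]
  ring

lemma Ct_eq (hq : Generic q) (a b : ℤ) : Ct q x d e k a b = ∑ t ∈ Ico (0 : ℤ) (k + 1),
    q ^ (2 + 2 * t + ((k : ℤ) - t)) * (ee x (b + 1 + t) *
      Sy q x d e ((k : ℤ) - t + 1) (a + 1 + ((k : ℤ) - t))) := by
  rw [show ((k : ℤ) + 1) = ((k + 1 : ℕ) : ℤ) by omega, ← range_int, Ct]
  refine sum_congr rfl fun t ht => ?_
  have := mem_range.1 ht
  rw [show (k : ℤ) - t = ((k - t : ℕ) : ℤ) by omega,
    show 2 + 2 * (t : ℤ) + ((k - t : ℕ) : ℤ) = ((2 + 2 * t + (k - t) : ℕ) : ℤ) by omega,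
    zpow_natCast, pow_add]
  ring

/-- The attachment of a clique to a symmetric generator. -/
theorem att_Sy (hq : Generic q) (hde : d < e) {A D : ℤ} (hA : 0 ≤ A) :
    (1 - q) ^ 2 * Att q x d e k (fun h l => Sy q x l h A D) =
      (1 - q) ^ 2 * (∑ p ∈ tri k, cM q k p * fM q x d e k A D p +
        ∑ p ∈ rect k A, (cS q k A p * fS q x d e k D p + cB q k A D p * fB q x d e k D p)) +
      EEs q x d e k A D := by
  set a : ℤ := -(k : ℤ) - 2 with ha
  have haA : a ≤ A := by omega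
  rw [show (fun h l => Sy q x l h A D) = fun h l => ∑ j ∈ Ico a A, uu q A j *
    UU q x h l (D + 1 - j) j from funext fun h => funext fun l => by
      rw [UU_expand hq hA (show (1 : ℤ) ≤ (k : ℤ) + 2 by omega), show -((k : ℤ) + 2) = a by omega],
    Att_smul_sum, mul_sum]
  have E := fun j : ℤ => extract (q := q) (x := x) (k := k) hq.ne_one hde (D + 1 - j) j
  have e0 : ∀ j ∈ Ico a A, (1 - q) ^ 2 * (uu q A j * Att q x d e k fun h l =>
      UU q x h l (D + 1 - j) j) =
      uu q A j * (q * At q x d e k (D - j) j - q * At q x d e k (D - (j - 1)) (j - 1)) -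
      uu q A j * (1 * Et q x d e k (D - j) j - q * Et q x d e k (D - (j - 1)) (j - 1)) -
      uu q A j * (q * Et q x d e k j (D - j) - 1 * Et q x d e k (j - 1) (D - (j - 1))) +
      (1 - q) * (uu q A j * (1 * (Ct q x d e k (D - j) j - Bt q x d e k (D - j) j) -
          q * (Ct q x d e k (D - (j - 1)) (j - 1) - Bt q x d e k (D - (j - 1)) (j - 1))) +
        uu q A j * (q * (Ct q x d e k j (D - j) - Bt q x d e k j (D - j)) -
          1 * (Ct q x d e k (j - 1) (D - (j - 1)) - Bt q x d e k (j - 1) (D - (j - 1))))) +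
      (1 - q) ^ 2 * (uu q A j * (1 * Mt q x d e k (D - j) j -
          q * Mt q x d e k (D - (j - 1)) (j - 1)) +
        uu q A j * (q * Mt q x d e k j (D - j) - 1 * Mt q x d e k (j - 1) (D - (j - 1)))) := by
    intro j _
    rw [mul_left_comm, E j, show D + 1 - j - 1 = D - j by ring,
      show D - (j - 1) = D + 1 - j by ring]
    ring
  rw [sum_congr rfl e0]
  simp only [sum_add_distrib, sum_sub_distrib, ← mul_sum]
  -- the boundary terms vanish
  have zA : At q x d e k (D - (a - 1)) (a - 1) = 0 := by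
    refine sum_eq_zero fun r hr => sum_eq_zero fun s hs => ?_
    have := mem_range.1 hs; have := mem_range.1 hr
    rw [ee_neg (n := a - 1 + 1 + s) (by omega)]; ring
  have zE1 : Et q x d e k (D - (a - 1)) (a - 1) = 0 := by
    refine sum_eq_zero fun r hr => sum_eq_zero fun s hs => ?_
    have := mem_range.1 hs; have := mem_range.1 hr
    rw [ee_neg (n := a - 1 + 1 + s) (by omega)]; ring
  have zE2 : Et q x d e k (a - 1) (D - (a - 1)) = 0 := by
    refine sum_eq_zero fun r hr => sum_eq_zero fun s hs => ?_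
    have := mem_range.1 hs; have := mem_range.1 hr
    rw [ee_neg (n := a - 1 + 1 + r) (by omega)]; ring
  have zC1 : Ct q x d e k (D - (a - 1)) (a - 1) - Bt q x d e k (D - (a - 1)) (a - 1) = 0 := by
    rw [Ct_eq hq, Bt_eq hq, ← sum_sub_distrib]
    refine sum_eq_zero fun t ht => ?_
    have := mem_Ico.1 ht
    rw [ee_neg (n := a - 1 + 1 + t) (by omega), Sy_neg (D := a - 1 + 1 + _) (by omega)]; ring
  have zC2 : Ct q x d e k (a - 1) (D - (a - 1)) - Bt q x d e k (a - 1) (D - (a - 1)) = 0 := by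
    rw [Ct_eq hq, Bt_eq hq, ← sum_sub_distrib]
    refine sum_eq_zero fun t ht => ?_
    have := mem_Ico.1 ht
    rw [ee_neg (n := a - 1 + 1 + t) (by omega), Sy_neg (D := a - 1 + 1 + _) (by omega)]; ring
  have zM1 : Mt q x d e k (D - (a - 1)) (a - 1) = 0 := by
    refine sum_eq_zero fun r hr => sum_eq_zero fun s hs => ?_
    have := mem_range.1 hs; have := mem_range.1 hr
    rw [pp_neg (n := a - 1 + 1 + s) (by omega)]; ring
  have zM2 : Mt q x d e k (a - 1) (D - (a - 1)) = 0 := by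
    refine sum_eq_zero fun r hr => sum_eq_zero fun s hs => ?_
    have := mem_range.1 hs; have := mem_range.1 hr
    rw [pp_neg (n := a - 1 + 1 + r) (by omega)]; ring
  rw [tele_uu (fun j => At q x d e k (D - j) j) q q haA zA,
    tele_uu (fun j => Et q x d e k (D - j) j) 1 q haA zE1,
    tele_uu (fun j => Et q x d e k j (D - j)) q 1 haA zE2,
    tele_uu (fun j => Ct q x d e k (D - j) j - Bt q x d e k (D - j) j) 1 q haA zC1,
    tele_uu (fun j => Ct q x d e k j (D - j) - Bt q x d e k j (D - j)) q 1 haA zC2,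
    tele_uu (fun j => Mt q x d e k (D - j) j) 1 q haA zM1,
    tele_uu (fun j => Mt q x d e k j (D - j)) q 1 haA zM2]
  have hl : ∀ l ∈ Ico a A, (1 * uu q A l - q * uu q A (l + 1) = q ^ l * qz q (A - l)) ∧
      (q * uu q A l - 1 * uu q A (l + 1) = q ^ A * qz q (A - l)) := by
    intro l hl
    rw [one_mul, one_mul]
    exact ⟨uu_sub_q hq (mem_Ico.1 hl).2, q_uu_sub hq (mem_Ico.1 hl).2⟩
  have hM : ∑ l ∈ Ico a A, (1 * uu q A l - q * uu q A (l + 1)) * Mt q x d e k (D - l) l +
      ∑ l ∈ Ico a A, (q * uu q A l - 1 * uu q A (l + 1)) * Mt q x d e k l (D - l) =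
      ∑ p ∈ tri k, cM q k p * fM q x d e k A D p := by
    have s2 : ∑ l ∈ Ico a A, q ^ A * qz q (A - l) * Mt q x d e k l (D - l) =
        ∑ l ∈ Ico a A, q ^ A * qz q (A - l) * ∑ p ∈ tri k, q * cM q k p * q ^ p.2 *
          (ee x ((k : ℤ) - p.1 - p.2) *
            (pp q x e (l + 1 + p.2) * pp q x d (D - l + 1 + p.1))) := by
      refine sum_congr rfl fun l _ => ?_
      rw [Mt_eq hq]
      congr 1
      rw [← tri_swap]
      refine sum_congr rfl fun p hp => ?_
      have hc : cM q k p.swap * q ^ p.swap.2 = cM q k p * q ^ p.2 := by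
        simp only [cM, Prod.fst_swap, Prod.snd_swap]
        rw [show (k : ℤ) - p.2 - p.1 = (k : ℤ) - p.1 - p.2 by ring]
        ring
      rw [Prod.snd_swap] at hc
      rw [Prod.fst_swap, Prod.snd_swap, show (k : ℤ) - p.2 - p.1 = (k : ℤ) - p.1 - p.2 by ring]
      linear_combination (q * (ee x ((k : ℤ) - p.1 - p.2) *
        (pp q x e (l + 1 + p.2) * pp q x d (D - l + 1 + p.1)))) * hc
    have s1 : ∑ l ∈ Ico a A, (1 * uu q A l - q * uu q A (l + 1)) * Mt q x d e k (D - l) l =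
        ∑ l ∈ Ico a A, q ^ l * qz q (A - l) * ∑ p ∈ tri k, q * cM q k p * q ^ p.2 *
          (ee x ((k : ℤ) - p.1 - p.2) *
            (pp q x e (D - l + 1 + p.1) * pp q x d (l + 1 + p.2))) :=
      sum_congr rfl fun l hl' => by rw [(hl l hl').1, Mt_eq hq]
    have s3 : ∑ l ∈ Ico a A, (q * uu q A l - 1 * uu q A (l + 1)) * Mt q x d e k l (D - l) =
        ∑ l ∈ Ico a A, q ^ A * qz q (A - l) * Mt q x d e k l (D - l) :=
      sum_congr rfl fun l hl' => by rw [(hl l hl').2]
    rw [s1, s3, s2]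
    simp only [mul_sum]
    rw [sum_comm, sum_comm (s := Ico a A) (t := tri k), ← sum_add_distrib]
    refine sum_congr rfl fun p hp => ?_
    have hp' := mem_tri.1 hp
    rw [fM, ← Sy_shift (A := A) (D := D + 2 + p.1 + p.2) (sh := 1 + p.2) (a := a) (by omega) |>.trans
      (by rw [add_assoc A 1 p.2] : Sy q x d e (A + (1 + p.2)) _ = Sy q x d e (A + 1 + p.2) _),
      mul_sum, mul_sum, ← sum_add_distrib]
    refine sum_congr rfl fun l _ => ?_
    rw [show D + 2 + p.1 + p.2 - (1 + p.2) - l = D - l + 1 + p.1 by ring,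
      show l + (1 + p.2) = l + 1 + p.2 by ring]
    simp only [zpow_add₀ hq.ne, zpow_one, cM]
    ring
  have hC : ∑ l ∈ Ico a A, (1 * uu q A l - q * uu q A (l + 1)) *
      (Ct q x d e k (D - l) l - Bt q x d e k (D - l) l) +
      ∑ l ∈ Ico a A, (q * uu q A l - 1 * uu q A (l + 1)) *
      (Ct q x d e k l (D - l) - Bt q x d e k l (D - l)) = (1 - q) *
      ∑ p ∈ rect k A, (cS q k A p * fS q x d e k D p + cB q k A D p * fB q x d e k D p) := by
    rw [rect, ← ha, sum_product, sum_comm, mul_sum, ← sum_add_distrib]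
    refine sum_congr rfl fun l hl' => ?_
    rw [(hl l hl').1, (hl l hl').2, Ct_eq hq, Bt_eq hq, Ct_eq hq, Bt_eq hq, ← sum_sub_distrib,
      ← sum_sub_distrib, mul_sum, mul_sum, mul_sum, ← sum_add_distrib]
    refine sum_congr rfl fun t _ => ?_
    simp only [cS, fS, cB, fB, qz]
    set K' := (k : ℤ) - t
    have h1 : (1 - q) * ((1 - q ^ (A - l)) / (1 - q)) * ((1 - q ^ (A - 1 - K')) / (1 - q)) =
        (1 - q ^ (A - l)) / (1 - q) * (1 - q ^ (A - 1 - K')) := by
      field_simp [hq.sub_ne]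
    have h2 : (1 - q) * ((1 - q ^ (A - l)) / (1 - q)) * ((1 - q ^ (D - A - 1 - K')) / (1 - q)) =
        (1 - q ^ (A - l)) / (1 - q) * (1 - q ^ (D - A - 1 - K')) := by
      field_simp [hq.sub_ne]
    have p1 : q ^ (l + 2 + 2 * t + K') * q ^ (A - 1 - K') = q ^ A * q ^ (l + 1 + 2 * t) := by
      rw [← zpow_add₀ hq.ne, ← zpow_add₀ hq.ne]; congr 1; ring
    have p2 : q ^ (A + 2 + 2 * t + K') * q ^ (D - A - 1 - K') =
        q ^ l * q ^ (D - l + 1 + 2 * t) := by
      rw [← zpow_add₀ hq.ne, ← zpow_add₀ hq.ne]; congr 1; ring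
    have p3 : q ^ (l + 2 + 2 * t + K') = q ^ l * q ^ (2 + 2 * t + K') := by
      rw [← zpow_add₀ hq.ne]; congr 1; ring
    have p4 : q ^ (A + 2 + 2 * t + K') = q ^ A * q ^ (2 + 2 * t + K') := by
      rw [← zpow_add₀ hq.ne]; congr 1; ring
    linear_combination
      -(q ^ (l + 2 + 2 * t + K') * (ee x (l + 1 + t) * Sy q x d e (K' + 1) (D - l + 1 + K'))) * h1 -
      (q ^ (A + 2 + 2 * t + K') * (ee x (D - l + 1 + t) * Sy q x d e (K' + 1) (l + 1 + K'))) * h2 +
      ((1 - q ^ (A - l)) / (1 - q) * (ee x (l + 1 + t) * Sy q x d e (K' + 1) (D - l + 1 + K'))) *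
        (p1 - p3) +
      ((1 - q ^ (A - l)) / (1 - q) * (ee x (D - l + 1 + t) * Sy q x d e (K' + 1) (l + 1 + K'))) *
        (p2 - p4)
  have hE : ∑ l ∈ Ico a A, (q * uu q A l - q * uu q A (l + 1)) * At q x d e k (D - l) l -
      ∑ l ∈ Ico a A, (1 * uu q A l - q * uu q A (l + 1)) * Et q x d e k (D - l) l -
      ∑ l ∈ Ico a A, (q * uu q A l - 1 * uu q A (l + 1)) * Et q x d e k l (D - l) =
      EEs q x d e k A D := by
    rw [EEs, ← ha, ← sum_sub_distrib, ← sum_sub_distrib]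
    refine sum_congr rfl fun l hl' => ?_
    rw [(hl l hl').1, (hl l hl').2]
    ring
  rw [sum_add_distrib] at hC
  linear_combination hE + (1 - q) * hC + (1 - q) ^ 2 * hM

end Vale.Agent.P066.Overlap2
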