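import Vale.Agent.P066.Overlap2.Transfer

/-! The cone of two-vertex states is preserved by attaching a clique to both marks. -/

open Finset Polynomial

noncomputable section

namespace Vale.Agent.P066.Overlap2

open Vale.Agent.P066.Small

variable {n d₀ : ℕ} {k : ℕ}

/-- A positive scalar times a family. -/
lemma EPositive.cmul' {P : ∀ N : ℕ, MvPolynomial (Fin N) ℤ[X]} (hP : EPositive d₀ P) {v : F0}
    (hv : IsPos q0 v) : ∃ P' : ∀ N : ℕ, MvPolynomial (Fin N) ℤ[X], EPositive d₀ P' ∧
      ∀ N, phi N (P' N) = iota N v * phi N (P N) := by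
  obtain ⟨p, hp⟩ := exists_cq hv
  exact ⟨fun N => cq N p * P N, EPositive.cmul p hP, fun N => by rw [map_mul, hp]⟩

/-- A symmetric generator with few left steps. -/
lemma half_attS {P : ∀ N : ℕ, MvPolynomial (Fin N) ℤ[X]} (hP : EPositive d₀ P) {A D : ℤ}
    (hA : 0 ≤ A) (hD : 2 * A ≤ D) (hn : (n : ℤ) = d₀ + D + k + 4) :
    Half n fun N d e =>
      phi N (P N) * Att (qK N) (xK N) d e k (fun h l => Sy (qK N) (xK N) l h A D) := by
  refine ((((Half.sum (mainSet k A) fun p hp => ?_).add (Half.sum (smallSet k A D) fun p hp => ?_)).add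
    (Half.sum (bigSet k A) fun p hp => ?_)).add (Half.sum (bigRefl k A D) fun p hp => ?_)).add
      (Half.sum (Box k D) fun p hp => ?_) |>.congr
    (H' := fun N d e =>
      ∑ p ∈ mainSet k A, phi N (P N) * gMain (qK N) (xK N) d e k A D p +
      ∑ p ∈ smallSet k A D,
        phi N (P N) * (cS (qK N) k A p * fS (qK N) (xK N) d e k D p) +
      ∑ p ∈ bigSet k A, phi N (P N) * (cB (qK N) k A D p * fB (qK N) (xK N) d e k D p) +
      ∑ p ∈ bigRefl k A D, phi N (P N) * gBig (qK N) (xK N) d e k A D p +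
      ∑ bx ∈ Box k D, phi N (P N) * (qK N ^ (D + 2 + bx.1 + bx.2) *
        Sc (qK N) (A - bx.2) ((k : ℤ) - bx.1 - bx.2) ((k : ℤ) - bx.1 + A - D) bx.1 *
          ww' (qK N) (xK N) d e k D bx))
    fun N d e hde => ?_
  rotate_left 5
  · rw [att_Sy_pos (generic_qK N) hde hA hD]
    simp only [mul_add, mul_sum]
  · obtain ⟨hp, hps⟩ := mem_filter.1 hp
    rw [mem_tri] at hp
    set r := p.1
    set s := p.2
    by_cases h : 2 * (A + 1 + s) ≤ D + 2 + r + s
    · refine (Half.termS (v := q0 ^ r * qz q0 (r + 1) * qz q0 (s + 1) *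
        q0 ^ (2 * ((k : ℤ) - r - s))) (i := (k : ℤ) - r - s) hP (A := A + 1 + s)
        (D := D + 2 + r + s) (fun hi => ?_) h (by omega)).congr fun N d e _ => ?_
      · exact (((IsPos.zpow hp.1).mul (IsPos.qz generic_q0 (by omega))).mul
          (IsPos.qz generic_q0 (by omega))).mul (IsPos.zpow (by omega))
      · simp only [gMain, cM, fM, r, s] at h ⊢
        simp only [if_pos h, map_mul, map_zpow₀, map_qz, iota_q0]
    · refine (Half.termS (v := q0 ^ r * qz q0 (r + 1) * qz q0 (s + 1) *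
        q0 ^ (2 * ((k : ℤ) - r - s)) * q0 ^ (2 * (A + 1 + s) - (D + 2 + r + s)))
        (i := (k : ℤ) - r - s) hP (A := D + 1 + r - A)
        (D := D + 2 + r + s) (fun hi => ?_) (by omega) (by omega)).congr fun N d e _ => ?_
      · exact ((((IsPos.zpow hp.1).mul (IsPos.qz generic_q0 (by omega))).mul
          (IsPos.qz generic_q0 (by omega))).mul (IsPos.zpow (by omega))).mul
          (IsPos.zpow (by omega))
      · simp only [gMain, cM, fM, r, s] at h ⊢
        simp only [if_neg h, map_mul, map_zpow₀, map_qz, iota_q0]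
  · obtain ⟨hp, hps⟩ := mem_filter.1 hp
    simp only [rect, mem_product, mem_Ico] at hp
    refine (Half.termS (v := q0 ^ (p.2 + 2 + 2 * p.1 + ((k : ℤ) - p.1)) * qz q0 (A - p.2) *
      qz q0 (A - 1 - ((k : ℤ) - p.1))) (i := p.2 + 1 + p.1) hP (A := (k : ℤ) - p.1 + 1)
      (D := D - p.2 + 1 + ((k : ℤ) - p.1)) (fun hi => ?_) (by omega) (by omega)).congr
      fun N d e _ => ?_
    · exact ((IsPos.zpow (by omega)).mul (IsPos.qz generic_q0 (by omega))).mul
        (IsPos.qz generic_q0 (by omega))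
    · simp only [cS, fS, map_mul, map_zpow₀, map_qz, iota_q0]
  · obtain ⟨hp, hps⟩ := mem_filter.1 hp
    simp only [rect, mem_product, mem_Ico] at hp
    refine (Half.termS (v := q0 ^ (A + 2 + 2 * p.1 + ((k : ℤ) - p.1)) * qz q0 (A - p.2) *
      qz q0 (D - A - 1 - ((k : ℤ) - p.1))) (i := D - p.2 + 1 + p.1) hP (A := (k : ℤ) - p.1 + 1)
      (D := p.2 + 1 + ((k : ℤ) - p.1)) (fun hi => ?_) (by omega) (by omega)).congr fun N d e _ => ?_
    · exact ((IsPos.zpow (by omega)).mul (IsPos.qz generic_q0 (by omega))).mul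
        (IsPos.qz generic_q0 (by omega))
    · simp only [cB, fB, map_mul, map_zpow₀, map_qz, iota_q0]
  · obtain ⟨hp, hps⟩ := mem_filter.1 hp
    simp only [rect, mem_product, mem_Ico] at hp
    refine (Half.termS (v := q0 ^ (A + 2 + 2 * p.1 + ((k : ℤ) - p.1)) * qz q0 (A - p.2) *
      qz q0 (D - A - 1 - ((k : ℤ) - p.1)) * q0 ^ ((k : ℤ) - p.1 + 1 - p.2))
      (i := D - p.2 + 1 + p.1) hP (A := p.2)
      (D := p.2 + 1 + ((k : ℤ) - p.1)) (fun hi => ?_) (by omega) (by omega)).congr fun N d e _ => ?_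
    · exact (((IsPos.zpow (by omega)).mul (IsPos.qz generic_q0 (by omega))).mul
        (IsPos.qz generic_q0 (by omega))).mul (IsPos.zpow (by omega))
    · simp only [gBig, cB, map_mul, map_zpow₀, map_qz, iota_q0]
  · simp only [Box, mem_product, mem_Ico] at hp
    refine (Half.termH (v := q0 ^ (D + 2 + p.1 + p.2) *
      Sc q0 (A - p.2) ((k : ℤ) - p.1 - p.2) ((k : ℤ) - p.1 + A - D) p.1)
      (i := D + 2 + p.1 - p.2) (j := p.2) (D := (k : ℤ) - p.1) hP (fun _ _ _ => ?_)
      (by omega)).congr fun N d e _ => ?_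
    · refine Sc_pos generic_q0 (by omega) (by omega) (by omega) ?_ ?_ ?_ <;>
        intros <;> simp only [okF, okE] at * <;> omega
    · simp only [ww', map_mul, map_zpow₀, map_Sc, iota_q0]

/-- A one-row generator. -/
lemma half_attA {P : ∀ N : ℕ, MvPolynomial (Fin N) ℤ[X]} (hP : EPositive d₀ P) {D : ℤ}
    (hD : 0 ≤ D) (hn : (n : ℤ) = d₀ + D + k + 4) :
    Half n fun N d e =>
      phi N (P N) * Att (qK N) (xK N) d e k (fun h l => aa (qK N) (xK N) l h D) := by
  refine (Half.sum (Ico 0 (D + 2 + k + 1)) fun b hb => ?_).add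
    (Half.sum ((Ico (0 : ℤ) (k + 1)).filter fun p => (k : ℤ) - D < p) fun p hp => ?_) |>.congr
    (H' := fun N d e =>
      ∑ b ∈ Ico 0 (D + 2 + k + 1), phi N (P N) * (Rh (qK N) k D b *
        (ee (xK N) b * aa (qK N) (xK N) d e (D + 2 + k - b))) +
      ∑ p ∈ (Ico (0 : ℤ) (k + 1)).filter (fun p => (k : ℤ) - D < p), phi N (P N) *
        (qK N ^ ((k : ℤ) + 1) * qz (qK N) (D + 2 * p - k) *
          Sy (qK N) (xK N) d e ((k : ℤ) - p + 1) (D + 2 + k)))
    fun N d e hde => ?_
  rotate_left 2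
  · rw [att_aa (generic_qK N) hde hD]
    simp only [mul_add, mul_sum]
  · simp only [mem_Ico] at hb
    refine (Half.termH (v := Rh q0 k D b) (i := b) (j := 0) (D := D + 2 + k - b) hP
      (fun hi _ _ => IsPos.Rh generic_q0 hD hi) (by omega)).congr fun N d e _ => ?_
    simp only [map_Rh, iota_q0, show ee (xK N) (0 : ℤ) = 1 by simp [ee, esZ, es_zero]]
    ring
  · simp only [mem_filter, mem_Ico] at hp
    refine (Half.termS (v := q0 ^ ((k : ℤ) + 1) * qz q0 (D + 2 * p - k)) (i := 0)
      (A := (k : ℤ) - p + 1) (D := D + 2 + k) hP (fun _ => ?_) (by omega) (by omega)).congr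
      fun N d e _ => ?_
    · exact (IsPos.zpow (by omega)).mul (IsPos.qz generic_q0 (by omega))
    · simp only [map_mul, map_zpow₀, map_qz, iota_q0,
        show ee (xK N) (0 : ℤ) = 1 by simp [ee, esZ, es_zero]]
      ring

/-- A symmetric generator, reflected if necessary. -/
lemma half_attS' {P : ∀ N : ℕ, MvPolynomial (Fin N) ℤ[X]} (hP : EPositive d₀ P) {A D : ℤ}
    (hA : 0 ≤ A) (hAD : A ≤ D) (hn : (n : ℤ) = d₀ + D + k + 4) :
    Half n fun N d e =>
      phi N (P N) * Att (qK N) (xK N) d e k (fun h l => Sy (qK N) (xK N) l h A D) := by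
  rcases le_or_gt (2 * A) D with h | h
  · exact half_attS hP hA h hn
  obtain ⟨P1, hP1, e1⟩ := EPositive.cmul' hP (v := q0 ^ (2 * A - D)) (IsPos.zpow (by omega))
  refine ((half_attS (n := n) (k := k) hP1 (show 0 ≤ D - A by omega) (show 2 * (D - A) ≤ D by omega)
    hn).add (Half.sum (Ico 0 (D + 1)) (H := fun i N d e =>
      phi N (P N) * (iota N (qz q0 (2 * A - D) * q0 ^ i) * ee (xK N) i *
        Att (qK N) (xK N) d e k (fun h l => aa (qK N) (xK N) l h (D - i)))) fun i hi => ?_)).congr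
      fun N d e hde => ?_
  · simp only [mem_Ico] at hi
    obtain ⟨P2, hP2, e2⟩ := EPositive.cmul' (hP.mulE (k := i.toNat) rfl)
      (v := qz q0 (2 * A - D) * q0 ^ i)
      ((IsPos.qz generic_q0 (by omega)).mul (IsPos.zpow hi.1))
    refine (half_attA (n := n) (k := k) hP2 (show 0 ≤ D - i by omega) (by omega)).congr
      fun N d e _ => ?_
    rw [e2, map_mul (phi N), phi_esymm, show ((i.toNat : ℕ) : ℤ) = i by omega]
    ring
  · rw [Att_congr (f' := fun h l => qK N ^ (2 * A - D) * Sy (qK N) (xK N) l h (D - A) D +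
      qz (qK N) (2 * A - D) * ∑ i ∈ Ico 0 (D + 1), qK N ^ i *
        (ee (xK N) i * aa (qK N) (xK N) l h (D - i))) fun a b hab => by
        rw [Sy_refl (generic_qK N), II_eq hab],
      Att_add, Att_smul, Att_smul]
    simp only [← mul_assoc]
    rw [Att_smul_sum]
    simp only [e1, map_mul, map_zpow₀, map_qz, iota_q0, mul_add, mul_sum]
    congr 1
    · ring
    · exact sum_congr rfl fun i _ => by ring

/-- The two marks of a clique attached to the two marks of a state. -/
def Att2 (k : ℕ) (F : ∀ N, Fin N → Fin N → MvPolynomial (Fin N) ℤ[X]) (N : ℕ) (d e : Fin N) :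
    MvPolynomial (Fin N) ℤ[X] :=
  cw (Q N) d e * (xx N d * xx N e * ∑ a, ∑ b, F N a b * (al (Q N) d e a * al (Q N) d e b *
    es (fun s => be (Q N) d e a b s * xx N s) k))

lemma phi_Att2 (F : ∀ N, Fin N → Fin N → MvPolynomial (Fin N) ℤ[X]) (N : ℕ) (d e : Fin N) :
    phi N (Att2 k F N d e) = cw (qK N) d e * (xK N d * xK N e * ∑ a, ∑ b, phi N (F N a b) *
      (al (qK N) d e a * al (qK N) d e b * es (fun s => be (qK N) d e a b s * xK N s) k)) := by
  simp [Att2, map_sum, map_es, al, be, phi_cw, xK]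

lemma Att_minmax {M M' : ℕ} (f : Fin M → Fin M → FK M') {q : FK M'} {x : Fin M → FK M'}
    (d e : Fin M) :
    Att q x (min d e) (max d e) k f = Att q x d e k f := by
  rcases le_total d e with h | h
  · rw [min_eq_left h, max_eq_right h]
  · rw [min_eq_right h, max_eq_left h, Att_swap]

/-- The transition. -/
theorem C2_attach {F : ∀ N, Fin N → Fin N → MvPolynomial (Fin N) ℤ[X]} (h : C2 n F) :
    C2 (n + k + 2) (Att2 k F) := by
  induction h with
  | @genG d A B D P hP hAB hA hAD hBD hd =>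
    obtain ⟨P1, hP1, e1⟩ := EPositive.cmul' hP (v := q0) (by simpa using IsPos.pow (q := q0) 1)
    obtain ⟨G, hG, hG'⟩ := ((half_attS' (n := n + k + 2) (k := k) hP (A := A) (D := D) (by omega)
      (by omega) (by omega)).add (half_attS' (n := n + k + 2) (k := k) hP1 (A := B) (D := D)
      (by omega) (by omega) (by omega)))
    refine hG.congr fun N a b => phi_inj N ?_
    rw [hG', phi_Att2]
    simp only [map_mul, phi_GG, e1, iota_q0, mul_assoc (phi N (P N)), ← mul_sum]
    rw [Att_eq _ (fun h l => Sy (qK N) (xK N) l h A D + qK N * Sy (qK N) (xK N) l h B D)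
      (fun a => by simp [GG, wo, wy, sel]) (fun h l hl => GG_sym (generic_qK N) hAB (by omega) hl),
      Att_add, Att_smul, Att_minmax, Att_minmax]
    ring
  | @genH d D P hP hd =>
    obtain ⟨P1, hP1, e1⟩ := EPositive.cmul' hP (v := 1 + q0)
      (IsPos.one.add (by simpa using IsPos.pow (q := q0) 1))
    obtain ⟨G, hG, hG'⟩ := half_attA (n := n + k + 2) (k := k) hP1 (D := D) (by omega) (by omega)
    refine hG.congr fun N a b => phi_inj N ?_
    rw [hG', phi_Att2]
    simp only [map_mul, phi_HH, e1, map_add, map_one, iota_q0, mul_assoc (phi N (P N)), ← mul_sum]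
    rw [Att_eq _ (fun h l => (1 + qK N) * aa (qK N) (xK N) l h D)
      (fun a => by simp [HH, cw_self]) (fun h l hl => HH_sym D hl), Att_smul, Att_minmax]
    ring
  | zero => exact (C2.zero _).congr fun N a b => by simp [Att2]
  | add _ _ ih₁ ih₂ =>
    exact (C2.add ih₁ ih₂).congr fun N a b => by
      simp only [Att2, add_mul, sum_add_distrib]; ring

end Vale.Agent.P066.Overlap2
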