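import Vale.Agent.P066.Overlap2.Attach
import Vale.Agent.P066.Small.Main

/-! Elementary positivity for unit interval graphs whose consecutive maximal cliques share at most
two vertices. -/

open Finset Polynomial
open scoped Classical

noncomputable section

namespace Vale.Agent.P066.Overlap2

open Vale.Agent.P066.Small

variable {N : ℕ}

/-- Consecutive maximal cliques share at most two vertices. -/
def Overlap {n : ℕ} (h : Fin n → ℕ) : Prop := ∀ i j : Fin n, i < j → h i < h j → h i ≤ (j : ℕ) + 2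

/-- The `q`-factorial. -/
def qfac {R : Type*} [CommRing R] (q : R) (j : ℕ) : R := ∏ i ∈ range j, qn q (i + 1)

lemma C2_smul {n : ℕ} {F : ∀ N, Fin N → Fin N → MvPolynomial (Fin N) ℤ[X]} (p : ℕ[X])
    (h : C2 n F) : C2 n (fun N a b => cq N p * F N a b) := by
  induction h with
  | @genG d A B D P hP hAB hA hAD hBD hd =>
    exact (C2.genG A B D (EPositive.cmul p hP) hAB hA hAD hBD hd).congr fun N a b => by ring
  | @genH d D P hP hd => exact (C2.genH D (EPositive.cmul p hP) hd).congr fun N a b => by ring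
  | zero => exact (C2.zero _).congr fun N a b => mul_zero _
  | add _ _ ih₁ ih₂ => exact (C2.add ih₁ ih₂).congr fun N a b => mul_add _ _ _

/-- The product over the vertices from `t` on. -/
def tailProd {R : Type*} [CommMonoid R] {n : ℕ} (t : ℕ) (f : Fin n → R) : R :=
  ∏ i : Fin n, if t ≤ (i : ℕ) then f i else 1

lemma tailProd_two {R : Type*} [CommMonoid R] {n : ℕ} (s : ℕ) (hs : s + 1 < n) (f : Fin n → R) :
    tailProd s f = f ⟨s, by omega⟩ * f ⟨s + 1, hs⟩ * tailProd (s + 2) f := by
  have h : ∀ i : Fin n, (if s ≤ (i : ℕ) then f i else 1) =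
      (if i = ⟨s, by omega⟩ then f i else 1) * (if i = ⟨s + 1, hs⟩ then f i else 1) *
        (if s + 2 ≤ (i : ℕ) then f i else 1) := by
    intro i
    simp only [Fin.ext_iff]
    split_ifs <;> first | (exfalso; omega) | simp
  rw [tailProd, Fintype.prod_congr _ _ h, prod_mul_distrib, prod_mul_distrib,
    Fintype.prod_ite_eq', Fintype.prod_ite_eq', tailProd]

lemma wt_tail {n : ℕ} (h : Fin (n + 1) → ℕ) (s : ℕ)
    (hlow : ∀ i : Fin (n + 1), (i : ℕ) < s → h i ≤ n)
    (hhigh : ∀ i : Fin (n + 1), s ≤ (i : ℕ) → (i : ℕ) < n → n < h i)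
    (g : Fin n → Fin N) (b : Fin N) :
    wt h (Fin.snoc g b) =
      wt (fun i => h i.castSucc) g * xx N b * tailProd s (fun i => cw (Q N) (g i) b) := by
  rw [wt_snoc, tailProd]
  congr 1
  refine prod_congr rfl fun i _ => ?_
  by_cases hi : s ≤ (i : ℕ)
  · rw [if_pos hi, if_pos (hhigh i.castSucc hi i.isLt)]
  · rw [if_neg hi, if_neg (not_lt.2 (hlow i.castSucc (by simpa using hi)))]

/-- Summing the colours of a block of new vertices adjacent to two marks and to each other. -/
lemma sum_block (s : ℕ) : ∀ (j : ℕ) (h : Fin (s + 2 + j) → ℕ),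
    (∀ i : Fin (s + 2 + j), (i : ℕ) < s → h i ≤ s + 2) →
    (∀ i : Fin (s + 2 + j), s ≤ (i : ℕ) → s + 2 + j ≤ h i) →
    ∀ (ψ : Fin N → Fin N → MvPolynomial (Fin N) ℤ[X]) (u : Fin N → MvPolynomial (Fin N) ℤ[X]),
      ∑ g : Fin (s + 2 + j) → Fin N, wt h g * ψ (g ⟨s, by omega⟩) (g ⟨s + 1, by omega⟩) *
          tailProd (s + 2) (fun i => u (g i)) =
        qfac (Q N) j * ∑ g : Fin (s + 2) → Fin N, wt (fun i => h (Fin.castAdd j i)) g *
          ψ (g ⟨s, by omega⟩) (g ⟨s + 1, by omega⟩) *
          es (fun c => cw (Q N) (g ⟨s, by omega⟩) c * cw (Q N) (g ⟨s + 1, by omega⟩) c *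
            u c * xx N c) j := by
  intro j
  induction j with
  | zero =>
    intro h _ _ ψ u
    simp only [qfac, range_zero, prod_empty, one_mul, es_zero, mul_one]
    refine sum_congr rfl fun g _ => ?_
    have : tailProd (s + 2) (fun i => u (g i)) = 1 :=
      prod_eq_one fun i _ => if_neg (by have := i.isLt; omega)
    rw [this, mul_one]
    rfl
  | succ j ih =>
    intro h hlow hhigh ψ u
    set h' : Fin (s + 2 + j) → ℕ := fun i => h i.castSucc with hh'
    have IH := fun b => ih h' (fun i hi => hlow i.castSucc hi)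
      (fun i hi => le_trans (Nat.le_succ _) (hhigh i.castSucc hi))
      (fun a a' => ψ a a' * (cw (Q N) a b * cw (Q N) a' b * (xx N b * u b)))
      (fun c => u c * cw (Q N) c b)
    refine (sum_snoc (n := s + 2 + j) _).trans ?_
    have e : ∀ (b : Fin N) (g : Fin (s + 2 + j) → Fin N),
        wt h (Fin.snoc g b) *
          ψ ((Fin.snoc g b : Fin (s + 2 + j + 1) → Fin N) ⟨s, by omega⟩)
            ((Fin.snoc g b : Fin (s + 2 + j + 1) → Fin N) ⟨s + 1, by omega⟩) *
          tailProd (s + 2) (fun i => u ((Fin.snoc g b : Fin (s + 2 + j + 1) → Fin N) i)) =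
        wt h' g * (ψ (g ⟨s, by omega⟩) (g ⟨s + 1, by omega⟩) *
            (cw (Q N) (g ⟨s, by omega⟩) b * cw (Q N) (g ⟨s + 1, by omega⟩) b * (xx N b * u b))) *
          tailProd (s + 2) (fun i => u (g i) * cw (Q N) (g i) b) := by
      intro b g
      have a0 : (Fin.snoc g b : Fin (s + 2 + j + 1) → Fin N) ⟨s, by omega⟩ = g ⟨s, by omega⟩ :=
        Fin.snoc_castSucc (α := fun _ : Fin (s + 2 + j + 1) => Fin N) b g
          (⟨s, by omega⟩ : Fin (s + 2 + j))
      have a1 : (Fin.snoc g b : Fin (s + 2 + j + 1) → Fin N) ⟨s + 1, by omega⟩ =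
          g ⟨s + 1, by omega⟩ :=
        Fin.snoc_castSucc (α := fun _ : Fin (s + 2 + j + 1) => Fin N) b g
          (⟨s + 1, by omega⟩ : Fin (s + 2 + j))
      have a2 : tailProd (s + 2) (fun i => u ((Fin.snoc g b : Fin (s + 2 + j + 1) → Fin N) i)) =
          tailProd (s + 2) (fun i => u (g i)) * u b := by
        simp only [tailProd, Fin.prod_univ_castSucc (n := s + 2 + j), Fin.snoc_castSucc,
          Fin.snoc_last, Fin.val_castSucc, Fin.val_last, if_pos (Nat.le_add_right (s + 2) j)]
      have a3 : tailProd (s + 2) (fun i => u (g i) * cw (Q N) (g i) b) =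
          tailProd (s + 2) (fun i => u (g i)) * tailProd (s + 2) (fun i => cw (Q N) (g i) b) := by
        simp only [tailProd, ← prod_mul_distrib]
        refine prod_congr rfl fun i _ => ?_
        split_ifs <;> simp
      have hw := wt_tail (n := s + 2 + j) h s (fun i hi => le_trans (hlow i hi) (by omega))
        (fun i hi _ => hhigh i hi) g b
      rw [tailProd_two s (by omega)] at hw
      rw [a0, a1, a2, a3, hw]
      simp only [hh']
      ring
    refine (sum_congr rfl fun b _ => (sum_congr rfl fun g _ => e b g).trans (IH b)).trans ?_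
    rw [← mul_sum, sum_comm, qfac, qfac, prod_range_succ, mul_assoc]
    congr 1
    rw [mul_sum]
    refine sum_congr rfl fun g _ => ?_
    set y : Fin N → MvPolynomial (Fin N) ℤ[X] := fun c => cw (Q N) (g ⟨s, by omega⟩) c *
      cw (Q N) (g ⟨s + 1, by omega⟩) c * u c * xx N c with hy
    have hE := sum_E1 (Q N) y (Q_ne_one N) j
    have hb : ∀ b, wt (fun i => h' (Fin.castAdd j i)) g *
        (ψ (g ⟨s, by omega⟩) (g ⟨s + 1, by omega⟩) *
          (cw (Q N) (g ⟨s, by omega⟩) b * cw (Q N) (g ⟨s + 1, by omega⟩) b * (xx N b * u b))) *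
        es (fun c => cw (Q N) (g ⟨s, by omega⟩) c * cw (Q N) (g ⟨s + 1, by omega⟩) c *
          (u c * cw (Q N) c b) * xx N c) j =
        wt (fun i => h (Fin.castAdd (j + 1) i)) g *
          ψ (g ⟨s, by omega⟩) (g ⟨s + 1, by omega⟩) * E1 (Q N) y j b := by
      intro b
      have : (fun c => cw (Q N) (g ⟨s, by omega⟩) c * cw (Q N) (g ⟨s + 1, by omega⟩) c *
          (u c * cw (Q N) c b) * xx N c) = fun c => cw (Q N) c b * y c :=
        funext fun c => by simp only [hy]; ring
      rw [this, E1, p1]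
      simp only [hy]
      show wt (fun i => h (Fin.castAdd (j + 1) i)) g * _ * _ = _
      ring
    rw [sum_congr rfl fun b _ => hb b, ← mul_sum, hE]
    ring

/-- A block attached to the two marks of a state. -/
lemma V2_block (s k : ℕ) (h : Fin (s + 2 + k + 1 + 1) → ℕ)
    (hlow : ∀ i : Fin (s + 2 + k + 1 + 1), (i : ℕ) < s → h i ≤ s + 2)
    (hhigh : ∀ i : Fin (s + 2 + k + 1 + 1), s ≤ (i : ℕ) → s + 2 + k + 2 ≤ h i) (a b : Fin N) :
    V2 h N a b = qfac (Q N) k *
      Att2 k (V2 (n := s) fun i => h ⟨i, by omega⟩) N a b := by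
  set h2 : Fin (s + 2 + k) → ℕ := fun i => h i.castSucc.castSucc with hh2
  have e : ∀ g : Fin (s + 2 + k) → Fin N, wt h (Fin.snoc (Fin.snoc g a) b) =
      cw (Q N) a b * (xx N a * xx N b) * (wt h2 g *
        (cw (Q N) (g ⟨s, by omega⟩) a * cw (Q N) (g ⟨s, by omega⟩) b *
          (cw (Q N) (g ⟨s + 1, by omega⟩) a * cw (Q N) (g ⟨s + 1, by omega⟩) b)) *
        tailProd (s + 2) (fun i => cw (Q N) (g i) a * cw (Q N) (g i) b)) := by
    intro g
    rw [wt_tail (n := s + 2 + k + 1) h s (fun i hi => le_trans (hlow i hi) (by omega))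
        (fun i hi _ => by have := hhigh i hi; omega),
      wt_tail (n := s + 2 + k) (fun i => h i.castSucc) s
        (fun i hi => le_trans (hlow i.castSucc hi) (by omega))
        (fun i hi _ => by have := hhigh i.castSucc hi; omega)]
    have e1 : tailProd s (fun i => cw (Q N) ((Fin.snoc g a : Fin (s + 2 + k + 1) → Fin N) i) b) =
        tailProd s (fun i => cw (Q N) (g i) b) * cw (Q N) a b := by
      simp only [tailProd, Fin.prod_univ_castSucc (n := s + 2 + k), Fin.snoc_castSucc,
        Fin.snoc_last, Fin.val_castSucc, Fin.val_last, if_pos (show s ≤ s + 2 + k by omega)]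
    have e2 : tailProd (s + 2) (fun i => cw (Q N) (g i) a * cw (Q N) (g i) b) =
        tailProd (s + 2) (fun i => cw (Q N) (g i) a) *
          tailProd (s + 2) (fun i => cw (Q N) (g i) b) := by
      simp only [tailProd, ← prod_mul_distrib]
      refine prod_congr rfl fun i _ => ?_
      split_ifs <;> simp
    rw [e1, e2, tailProd_two s (by omega), tailProd_two s (by omega)]
    simp only [hh2]
    ring
  have H := sum_block (N := N) s k h2 (fun i hi => hlow i.castSucc.castSucc hi)
    (fun i hi => by have := hhigh i.castSucc.castSucc hi; simp only [hh2]; omega)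
    (fun c c' => cw (Q N) c a * cw (Q N) c b * (cw (Q N) c' a * cw (Q N) c' b))
    (fun c => cw (Q N) c a * cw (Q N) c b)
  rw [V2, sum_congr rfl fun g _ => e g, ← mul_sum, H, Att2]
  rw [sum_snoc (n := s + 1), sum_congr rfl fun b' _ => sum_snoc (n := s) _, sum_comm]
  simp only [mul_sum, V2, sum_mul]
  refine sum_congr rfl fun c _ => sum_congr rfl fun c' _ => sum_congr rfl fun g _ => ?_
  have a0 : (Fin.snoc (Fin.snoc g c) c' : Fin (s + 1 + 1) → Fin N) ⟨s, by omega⟩ = c :=
    (Fin.snoc_castSucc (α := fun _ : Fin (s + 1 + 1) => Fin N) c' _ (Fin.last s)).trans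
      (Fin.snoc_last (α := fun _ : Fin (s + 1) => Fin N) c g)
  have a1 : (Fin.snoc (Fin.snoc g c) c' : Fin (s + 1 + 1) → Fin N) ⟨s + 1, by omega⟩ = c' :=
    Fin.snoc_last (α := fun _ : Fin (s + 1 + 1) => Fin N) c' _
  have hu : (fun t => cw (Q N) c t * cw (Q N) c' t * (cw (Q N) t a * cw (Q N) t b) * xx N t) =
      fun t => be (Q N) a b c c' t * xx N t := funext fun t => by simp only [be, al]; ring
  rw [a0, a1, hu]
  simp only [al]
  show _ * (qfac (Q N) k * (wt (fun i : Fin (s + 1 + 1) => h ⟨i, _⟩) _ * _ * _)) = _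
  ring

theorem main : ∀ n (h : Fin (n + 1) → ℕ), Monotone h → Overlap h →
    C1 (n + 1) (V1 h) ∧ ∀ m (e : n = m + 1),
      m + 1 < h ⟨m, by omega⟩ → C2 (m + 2) (V2 (n := m) (fun i => h (Fin.cast (by omega) i))) := by
  intro n
  induction n using Nat.strong_induction_on with
  | _ n IH => ?_
  rcases n with _ | m
  · intro h _ _
    refine ⟨?_, fun m e => absurd e (by omega)⟩
    refine (C1.gen (n := 0 + 1) 0 EPositive.one' rfl).congr fun N b => ?_
    rw [V1, univ_unique, sum_singleton, wt_snoc]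
    simp [wt, E1, p1_zero]
  intro h hmono hov
  set h' : Fin (m + 1) → ℕ := fun i => h i.castSucc with hh'
  have hm' : Monotone h' := fun i j hij => hmono hij
  obtain ⟨ih1, -⟩ := IH m (Nat.lt_succ_self m) h' hm' fun i j hij hh => hov i.castSucc j.castSucc hij hh
  by_cases hE : m + 1 < h ⟨m, by omega⟩
  swap
  · refine ⟨?_, fun m' e he => absurd ?_ hE⟩
    · have hP : EPositive (m + 1) (fun N => chromQ (m + 1) h' N) :=
        (C1.epositive ih1).congr fun N => chromQ_eq_sum_V1 h'
      refine (C1.gen 0 hP rfl).congr fun N b => ?_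
      show V1 h N b = chromQ (m + 1) h' N * E1 (Q N) (xx N) 0 b
      rw [V1, chromQ_sum, sum_mul]
      refine sum_congr rfl fun g _ => ?_
      rw [wt_snoc]
      have h0 : ∀ i : Fin (m + 1), ¬ m + 1 < h i.castSucc := fun i hi => hE
        (lt_of_lt_of_le hi (hmono (Nat.lt_succ_iff.1 i.isLt)))
      simp only [if_neg (h0 _), prod_const_one, mul_one, E1, p1_zero]
      rfl
    · obtain rfl : m = m' := by omega
      exact he
  have hC : C2 (m + 1 + 1) (V2 h) := by
    by_cases hT : ∃ i, ∃ hi : i < m, m + 1 < h ⟨i, by omega⟩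
    · -- the first vertex adjacent to the last one
      obtain ⟨s, ⟨hs, hsE⟩, hmin⟩ : ∃ s, (∃ hi : s < m, m + 1 < h ⟨s, by omega⟩) ∧
          ∀ i, i < s → ¬ ∃ hi : i < m, m + 1 < h ⟨i, by omega⟩ :=
        ⟨Nat.find hT, Nat.find_spec hT, fun i hi => Nat.find_min hT hi⟩
      have hlow : ∀ i : Fin (m + 1 + 1), (i : ℕ) < s → h i ≤ s + 2 ∧ h i ≤ m + 1 := by
        intro i hi
        have h1 : h i ≤ m + 1 := not_lt.1 fun c => hmin i hi ⟨by omega, c⟩
        exact ⟨hov i ⟨s, by omega⟩ hi (lt_of_le_of_lt h1 hsE), h1⟩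
      have hhigh : ∀ i : Fin (m + 1 + 1), s ≤ (i : ℕ) → m + 2 ≤ h i :=
        fun i hi => lt_of_lt_of_le hsE (hmono (Fin.mk_le_of_le_val hi))
      set hp : Fin (s + 1 + 1) → ℕ := fun i => h ⟨i, by omega⟩ with hhp
      have hold : C2 (s + 2) (V2 hp) :=
        (IH (s + 1) (by omega) hp (fun i j hij => hmono hij)
          (fun i j hij hh => hov ⟨i, by omega⟩ ⟨j, by omega⟩ hij hh)).2 s rfl
          (by have := hhigh ⟨s, by omega⟩ le_rfl; simp only [hhp]; omega)
      by_cases hk : m = s + 1
      · subst hk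
        refine (C2.step hold).congr fun N b c => ?_
        rw [V2, sum_snoc]
        refine sum_congr rfl fun a _ => ?_
        rw [V2, sum_mul, sum_mul, sum_mul]
        refine sum_congr rfl fun g _ => ?_
        rw [wt_snoc, Fin.prod_univ_castSucc, Fin.prod_univ_castSucc]
        have h0 : ∀ i : Fin s, ¬ s + 1 + 1 < h i.castSucc.castSucc.castSucc := fun i =>
          not_lt.2 (hlow i.castSucc.castSucc.castSucc i.isLt).2
        have e1 : s + 1 + 1 < h (Fin.last s).castSucc.castSucc :=
          hhigh (Fin.last s).castSucc.castSucc le_rfl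
        have e2 : s + 1 + 1 < h (Fin.last (s + 1)).castSucc := hE
        simp only [if_neg (h0 _), prod_const_one, one_mul, if_pos e1, if_pos e2,
          Fin.snoc_castSucc, Fin.snoc_last]
        rw [show hp = fun i => h i.castSucc from rfl]
        ring
      · obtain ⟨k, rfl⟩ : ∃ k, m = s + 2 + k := ⟨m - (s + 2), by omega⟩
        have := C2_smul (∏ i ∈ range k, qnat (i + 1)) (C2_attach (k := k) hold)
        rw [show s + 2 + k + 1 + 1 = s + 2 + k + 2 by omega]
        refine this.congr fun N a b => ?_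
        rw [V2_block s k h (fun i hi => (hlow i hi).1) (fun i hi => hhigh i hi), map_prod, qfac]
        simp only [cq_qnat]
        rfl
    · refine (C1.dplus ih1).congr fun N a b => ?_
      rw [V2, V1, sum_mul, sum_mul]
      refine sum_congr rfl fun g _ => ?_
      rw [wt_snoc, Fin.prod_univ_castSucc]
      have h0 : ∀ i : Fin m, ¬ m + 1 < h i.castSucc.castSucc := fun i hi => hT ⟨i, i.isLt, hi⟩
      have e2 : m + 1 < h (Fin.last m).castSucc := hE
      simp only [if_neg (h0 _), prod_const_one, one_mul, if_pos e2, Fin.snoc_last]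
      ring
  refine ⟨(C2.sumOld hC).congr fun N b => V1_eq_sum_V2 h b, fun m' e _ => ?_⟩
  obtain rfl : m = m' := by omega
  exact hC

/-- Elementary positivity when consecutive maximal cliques share at most two vertices. -/
theorem chromQ_epositive (n : ℕ) (h : Fin n → ℕ) (hmono : Monotone h) (hov : Overlap h) :
    EPositive n (chromQ n h) := by
  rcases n with _ | n
  · refine EPositive.one'.congr fun N => ?_
    rw [chromQ_sum, univ_unique, sum_singleton]
    simp [wt]
  · exact (C1.epositive (main n h hmono hov).1).congr fun N => chromQ_eq_sum_V1 h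

end Vale.Agent.P066.Overlap2
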