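import Vale.Agent.P066.Overlap2.Apply

/-! The doubly-ended part, regrouped by the elementary symmetric functions. -/

open Finset

noncomputable section

namespace Vale.Agent.P066.Overlap2

open Vale.Agent.P066.Small

variable {K : Type*} [Field K] {N : ℕ} {q : K} {x : Fin N → K} {d e : Fin N} {k : ℕ}

/-- The index box of the atoms. -/
def Box (k : ℕ) (D : ℤ) : Finset (ℤ × ℤ) := Ico (-(D + 2)) (k + 1) ×ˢ Ico 0 (D + 3 + k)

lemma ww'_ne {D : ℤ} {bx : ℤ × ℤ} (h : ww' q x d e k D bx ≠ 0) :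
    bx ∈ Box k D ∧ bx.2 ≤ D + 2 + bx.1 := by
  simp only [ww', mul_ne_zero_iff] at h
  obtain ⟨⟨h1, h2⟩, h3⟩ := h
  have a1 : ¬ D + 2 + bx.1 - bx.2 < 0 := fun c => h1 (ee_neg c)
  have a2 : ¬ bx.2 < 0 := fun c => h2 (ee_neg c)
  have a3 : ¬ (k : ℤ) - bx.1 < 0 := fun c => h3 (aa_neg c)
  simp only [Box, mem_product, mem_Ico]
  omega

lemma regroup (A D : ℤ) (g : ℤ → ℤ × ℤ → K) :
    ∑ l ∈ Ico (-(k : ℤ) - 2) A, ∑ p ∈ tri k, g l p * ww' q x d e k D (p.1 + p.2, l + 1 + p.2) =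
      ∑ bx ∈ Box k D, (∑ s ∈ Ico 0 (bx.1 + 1),
        if bx.2 - 1 - s < A then g (bx.2 - 1 - s) (bx.1 - s, s) else 0) *
          ww' q x d e k D bx := by
  simp only [sum_mul]
  rw [← sum_product', sum_sigma']
  refine sum_bij_ne_zero (fun a _ _ => ⟨(a.2.1 + a.2.2, a.1 + 1 + a.2.2), a.2.2⟩) ?_ ?_ ?_ ?_
  · intro a ha hne
    obtain ⟨hl, hp⟩ := mem_product.1 ha
    rw [mem_tri] at hp
    have := (ww'_ne (right_ne_zero_of_mul hne)).1
    simp only [mem_sigma, mem_Ico]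
    exact ⟨this, by omega, by omega⟩
  · rintro ⟨l, r, s⟩ _ _ ⟨l', r', s'⟩ _ _ h
    simp only [Sigma.mk.injEq, Prod.mk.injEq, heq_eq_eq] at h
    obtain ⟨⟨h1, h2⟩, h3⟩ := h
    simp only [Prod.mk.injEq]
    omega
  · rintro ⟨⟨T, b⟩, s⟩ hm hne
    simp only [mem_sigma, mem_Ico] at hm
    simp only at hne
    split_ifs at hne with hb
    swap
    · exact absurd (zero_mul _) hne
    have hw := ww'_ne (right_ne_zero_of_mul hne)
    simp only [Box, mem_product, mem_Ico] at hw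
    refine ⟨(b - 1 - s, (T - s, s)), ?_, ?_, ?_⟩
    · simp only [mem_product, mem_Ico, mem_tri]; omega
    · dsimp only
      rw [sub_add_cancel, show b - 1 - s + 1 + s = b by ring]
      exact hne
    · simp; ring
  · rintro ⟨l, r, s⟩ ha hne
    simp only [mem_product, mem_Ico, mem_tri] at ha
    simp only [add_sub_cancel_right]
    rw [show l + 1 + s - 1 - s = l by ring, if_pos ha.1.2]

variable (q k)

/-- The summand of the doubly-ended part. -/
def gEE (A D l : ℤ) (p : ℤ × ℤ) : K :=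
  q * (uu q A l - uu q A (l + 1)) *
      (q ^ (4 + 2 * (k : ℤ) + (p.1 + p.2)) - q ^ (p.1 + p.2 + (D + 2 + (p.1 + p.2)))) -
    qz q (A - l) *
      (q ^ (l + p.1 + (D - l + 1 + p.1)) *
          (q ^ (2 + 2 * p.2 + ((k : ℤ) - (p.1 + p.2))) - q ^ (l + 1 + p.2)) +
        q ^ (A + p.2 + (l + 1 + p.2)) *
          (q ^ (2 + 2 * p.1 + ((k : ℤ) - (p.1 + p.2))) - q ^ (D - l + 1 + p.1)))

/-- The end part of the one-sided coefficient. -/
def P0 (c H N T : ℤ) : K :=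
  if 0 ≤ T then -(qz q (H + N + T + 2 - c) * (qz q (T + 1) * Cp q (c + 1))) -
      ∑ j ∈ (Ico (-T - 1) c).filter (fun j => j < 0), tF q c H N T j else 0

variable {q k}

lemma one_sub_mul_qz (hq : Generic q) (n : ℤ) : (1 - q) * qz q n = 1 - q ^ n := by
  rw [qz, mul_div_cancel₀ _ hq.sub_ne]

lemma gEE_step (hq : Generic q) (A D T b s : ℤ) :
    (if b - 1 - s < A then gEE q k A D (b - 1 - s) (T - s, s) else 0) +
      (1 - q) ^ 2 * q ^ (D + 2 + T + b) * (if b - 1 - s < A then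
        tF q (A - b) ((k : ℤ) - T - b) ((k : ℤ) - T + A - D) T (-1 - s) else 0) =
      (q * (q ^ (4 + 2 * (k : ℤ) + T) - q ^ (T + (D + 2 + T))) * uu q A (b - (s + 1)) +
        (1 - q) * q ^ (D + 2 + T + b) * qz q (2 * (k : ℤ) + 2 - T - D) *
          Cp q (A - b + 1 + (s + 1))) -
      (q * (q ^ (4 + 2 * (k : ℤ) + T) - q ^ (T + (D + 2 + T))) * uu q A (b - s) +
        (1 - q) * q ^ (D + 2 + T + b) * qz q (2 * (k : ℤ) + 2 - T - D) *
          Cp q (A - b + 1 + s)) := by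
  have hC := Cp_diff hq (A - b + 1 + s)
  rw [show A - b + 1 + (s + 1) = A - b + 1 + s + 1 by ring]
  rw [show b - 1 - s = b - (s + 1) by ring]
  split_ifs at hC ⊢ with h1 h2 h3 <;> try omega
  · have hu : uu q A (b - (s + 1) + 1) = uu q A (b - s) := by congr 1; ring
    have hT : T - s + s = T := by ring
    simp only [gEE, hu, hT, tF]
    set p' := A - b + 1 + s with hp'
    rw [show A - (b - (s + 1)) = p' by rw [hp']; ring, show A - b - (-1 - s) = p' by rw [hp']; ring]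
    have m1 := one_sub_mul_qz hq (-1 - s - ((k : ℤ) - T + A - D))
    have m2 := one_sub_mul_qz hq ((k : ℤ) - T - b - 2 * (-1 - s))
    have m3 := one_sub_mul_qz hq (2 * (k : ℤ) + 2 - T - D)
    set C := q ^ (D + 2 + T + b) with hCdef
    have z1 : q ^ (b - (s + 1) + (T - s) + (D - (b - (s + 1)) + 1 + (T - s))) *
        (q ^ (2 + 2 * s + ((k : ℤ) - T)) - q ^ (b - (s + 1) + 1 + s)) +
        q ^ (A + s + (b - (s + 1) + 1 + s)) *
        (q ^ (2 + 2 * (T - s) + ((k : ℤ) - T)) - q ^ (D - (b - (s + 1)) + 1 + (T - s))) =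
        C * q ^ ((k : ℤ) - T + A - D + T + 1 + (-1 - s)) *
          (1 - q ^ (-1 - s - ((k : ℤ) - T + A - D))) *
          (1 - q ^ ((k : ℤ) - T - b - 2 * (-1 - s))) -
        C * q ^ (p' - 1) * (1 - q ^ (2 * (k : ℤ) + 2 - T - D)) := by
      have hexp : ∀ a b c : ℤ, a + b = c → q ^ a * q ^ b = q ^ c := fun a b c h => by
        rw [← zpow_add₀ hq.ne, h]
      simp only [mul_sub, sub_mul, one_mul, mul_one, hCdef, ← zpow_add₀ hq.ne, hp']
      ring_nf
    linear_combination (-(qz q p')) * z1 +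
      (C * q ^ ((k : ℤ) - T + A - D + T + 1 + (-1 - s)) * qz q p' *
        (1 - q) * qz q (-1 - s - ((k : ℤ) - T + A - D))) * m2 +
      (C * q ^ ((k : ℤ) - T + A - D + T + 1 + (-1 - s)) * qz q p' *
        (1 - q ^ ((k : ℤ) - T - b - 2 * (-1 - s)))) * m1 -
      ((1 - q) * C * qz q (2 * (k : ℤ) + 2 - T - D)) * hC -
      (C * q ^ (p' - 1) * qz q p') * m3
  · rw [uu_of_le (show A ≤ b - (s + 1) by omega), uu_of_le (show A ≤ b - s by omega)]
    linear_combination (-((1 - q) * q ^ (D + 2 + T + b) * qz q (2 * (k : ℤ) + 2 - T - D))) * hC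

lemma gEE_sum (hq : Generic q) (A D T b : ℤ) :
    ∑ s ∈ Ico 0 (T + 1), (if b - 1 - s < A then gEE q k A D (b - 1 - s) (T - s, s) else 0) =
      (1 - q) ^ 2 * (q ^ (D + 2 + T + b) *
        P0 q (A - b) ((k : ℤ) - T - b) ((k : ℤ) - T + A - D) T) := by
  rw [P0]
  split_ifs with hT
  swap
  · simp [Finset.Ico_eq_empty_of_le (show T + 1 ≤ 0 by omega)]
  set F : ℤ → K := fun j => tF q (A - b) ((k : ℤ) - T - b) ((k : ℤ) - T + A - D) T j with hF
  have e1 : ∑ j ∈ (Ico (-T - 1) (A - b)).filter (fun j => j < 0), F j =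
      ∑ s ∈ Ico 0 (T + 1), (if b - 1 - s < A then F (-1 - s) else 0) := by
    rw [← sum_filter]
    refine sum_bij' (fun j _ => -1 - j) (fun s _ => -1 - s) ?_ ?_ ?_ ?_ ?_
    all_goals intro j hj; simp only [mem_filter, mem_Ico] at hj ⊢
    all_goals try omega
    rw [show -1 - (-1 - j) = j by ring]
  rw [e1]
  set Φ : ℤ → K := fun p =>
    q * (q ^ (4 + 2 * (k : ℤ) + T) - q ^ (T + (D + 2 + T))) * uu q A (b - p) +
      (1 - q) * q ^ (D + 2 + T + b) * qz q (2 * (k : ℤ) + 2 - T - D) * Cp q (A - b + 1 + p) with hΦ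
  have st : ∀ s ∈ Ico 0 (T + 1),
      (if b - 1 - s < A then gEE q k A D (b - 1 - s) (T - s, s) else 0) =
      Φ (s + 1) - Φ s - (1 - q) ^ 2 * q ^ (D + 2 + T + b) *
        (if b - 1 - s < A then F (-1 - s) else 0) := fun s _ => by
    simp only [hΦ, hF]
    linear_combination gEE_step (k := k) hq A D T b s
  rw [sum_congr rfl st, sum_sub_distrib, sum_sub_distrib, ← mul_sum]
  have tl := sum_pred (fun j => Φ (j + 1)) (a := 0) (b := T + 1) (by omega)
  simp only [sub_add_cancel, zero_sub, neg_add_cancel] at tl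
  have end' : Φ (T + 1) - Φ 0 = -((1 - q) ^ 2 * q ^ (D + 2 + T + b) *
      (qz q ((k : ℤ) - T - b + ((k : ℤ) - T + A - D) + T + 2 - (A - b)) *
        (qz q (T + 1) * Cp q (A - b + 1)))) := by
    simp only [hΦ, sub_zero, add_zero, uu,
      show (k : ℤ) - T - b + ((k : ℤ) - T + A - D) + T + 2 - (A - b) = 2 * (k : ℤ) + 2 - T - D by ring,
      show A + 1 - (b - (T + 1)) = A - b + 1 + (T + 1) by ring,
      show A + 1 - b = A - b + 1 by ring]
    set M := 2 * (k : ℤ) + 2 - T - D with hM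
    have m1 := one_sub_mul_qz hq (T + 1)
    have m2 := one_sub_mul_qz hq M
    have p1 : q * (q ^ (4 + 2 * (k : ℤ) + T) - q ^ (T + (D + 2 + T))) * q ^ (b - (T + 1)) =
        q ^ (D + 2 + T + b) * (q ^ M - 1) := by
      conv_lhs => rw [show q = q ^ (1 : ℤ) from (zpow_one q).symm]
      simp only [mul_sub, sub_mul, mul_one, hM, ← zpow_mul, one_mul, ← zpow_add₀ hq.ne]
      ring_nf
    have p2 : q * (q ^ (4 + 2 * (k : ℤ) + T) - q ^ (T + (D + 2 + T))) * q ^ b =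
        q ^ (D + 2 + T + b) * (q ^ M - 1) * q ^ (T + 1) := by
      rw [← p1, mul_assoc, mul_assoc, mul_assoc, ← zpow_add₀ hq.ne (b - (T + 1)),
        show b - (T + 1) + (T + 1) = b by ring]
    linear_combination Cp q (A - b + 1 + (T + 1)) * p1 - Cp q (A - b + 1) * p2 +
      (q ^ (D + 2 + T + b) * (Cp q (A - b + 1 + (T + 1)) - Cp q (A - b + 1))) * m2 +
      ((1 - q) * q ^ (D + 2 + T + b) * qz q M * Cp q (A - b + 1)) * m1 +
      (q ^ (D + 2 + T + b) * Cp q (A - b + 1) * (1 - q ^ (T + 1))) * m2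
  linear_combination end' - tl

/-- The doubly-ended part. -/
theorem EEs_eq (hq : Generic q) (A D : ℤ) :
    EEs q x d e k A D = (1 - q) ^ 2 * ∑ bx ∈ Box k D, q ^ (D + 2 + bx.1 + bx.2) *
      P0 q (A - bx.2) ((k : ℤ) - bx.1 - bx.2) ((k : ℤ) - bx.1 + A - D) bx.1 *
        ww' q x d e k D bx := by
  have h := regroup (q := q) (x := x) (d := d) (e := e) (k := k) A D (gEE q k A D)
  rw [mul_sum]
  refine Eq.trans ?_ (h.trans (sum_congr rfl fun bx _ => by rw [gEE_sum hq]; ring))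
  refine sum_congr rfl fun l _ => ?_
  have eA : At q x d e k (D - l) l = ∑ p ∈ tri k,
      (q ^ (4 + 2 * (k : ℤ) + (p.1 + p.2)) - q ^ (p.1 + p.2 + (D + 2 + (p.1 + p.2)))) *
        ww' q x d e k D (p.1 + p.2, l + 1 + p.2) := by
    rw [At, ← tri_sum k (fun r s => (q ^ (4 + 2 * (k : ℤ) + (r + s)) -
      q ^ (r + s + (D + 2 + (r + s)))) * ww' q x d e k D (r + s, l + 1 + s))]
    refine sum_congr rfl fun r hr => sum_congr rfl fun s hs => ?_
    have := mem_range.1 hr; have := mem_range.1 hs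
    rw [ww', show D + 2 + ((r : ℤ) + s) - (l + 1 + s) = D - l + 1 + r by ring,
      show (k : ℤ) - ((r : ℤ) + s) = ((k - r - s : ℕ) : ℤ) by omega, aa, esZ_natCast,
      show 4 + 2 * (k : ℤ) + ((r : ℤ) + s) = ((4 + 3 * r + 3 * s + 2 * (k - r - s) : ℕ) : ℤ) by
        omega,
      show (r : ℤ) + s + (D + 2 + (r + s)) = (r : ℤ) + (s + ((D - l + 1 + r) + (l + 1 + s))) by ring]
    simp only [zpow_add₀ hq.ne, zpow_natCast, pow_add, pow_mul]
    ring
  have eE : ∀ i j : ℤ, Et q x d e k i j = ∑ p ∈ tri k, q ^ (p.1 + (i + 1 + p.1)) *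
      (q ^ (2 + 2 * p.2 + ((k : ℤ) - (p.1 + p.2))) - q ^ (j + 1 + p.2)) *
        (ee x (i + 1 + p.1) * ee x (j + 1 + p.2) * aa q x d e ((k : ℤ) - (p.1 + p.2))) := by
    intro i j
    rw [Et, ← tri_sum k (fun r s => q ^ (r + (i + 1 + r)) *
      (q ^ (2 + 2 * s + ((k : ℤ) - (r + s))) - q ^ (j + 1 + s)) *
        (ee x (i + 1 + r) * ee x (j + 1 + s) * aa q x d e ((k : ℤ) - (r + s))))]
    refine sum_congr rfl fun r hr => sum_congr rfl fun s hs => ?_
    have := mem_range.1 hr; have := mem_range.1 hs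
    rw [show (k : ℤ) - ((r : ℤ) + s) = ((k - r - s : ℕ) : ℤ) by omega, aa, esZ_natCast,
      show 2 + 2 * (s : ℤ) + ((k - r - s : ℕ) : ℤ) = ((2 + 2 * s + (k - r - s) : ℕ) : ℤ) by omega,
      zpow_add₀ hq.ne (r : ℤ), zpow_natCast, zpow_natCast, pow_add, pow_add, pow_mul]
    ring
  have eE' : Et q x d e k l (D - l) = ∑ p ∈ tri k, q ^ (p.2 + (l + 1 + p.2)) *
      (q ^ (2 + 2 * p.1 + ((k : ℤ) - (p.1 + p.2))) - q ^ (D - l + 1 + p.1)) *
        (ee x (l + 1 + p.2) * ee x (D - l + 1 + p.1) * aa q x d e ((k : ℤ) - (p.1 + p.2))) := by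
    rw [eE, ← tri_swap]
    refine sum_congr rfl fun p _ => ?_
    simp only [Prod.fst_swap, Prod.snd_swap, add_comm p.2 p.1]
  rw [eA, eE (D - l) l, eE']
  simp only [mul_sum, mul_add, ← sum_add_distrib, ← sum_sub_distrib]
  refine sum_congr rfl fun p _ => ?_
  simp only [gEE, ww', show D + 2 + (p.1 + p.2) - (l + 1 + p.2) = D - l + 1 + p.1 by ring,
    add_assoc l p.1, add_assoc A p.2, zpow_add₀ hq.ne l, zpow_add₀ hq.ne A]
  ring

end Vale.Agent.P066.Overlap2
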