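import Vale.Agent.P066.Overlap2.Series

/-! The attachment of a clique to a two-row kernel, coefficient by coefficient. -/

open Finset

noncomputable section

namespace Vale.Agent.P066.Overlap2

open Vale.Agent.P066.Small

variable {K : Type*} [Field K] {N : ℕ} (q : K) (x : Fin N → K)

lemma cw_emb (a b : Fin N) : cw (emb q) a b = emb (cw q a b) := by
  simp only [cw]; split_ifs <;> simp

lemma al_emb (d e s : Fin N) : al (emb q) d e s = emb (al q d e s) := by
  simp [al, cw_emb]

/-- The row of colour `a` with integer index. -/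
def pp (a : Fin N) (n : ℤ) : K := esZ (fun s => cw q s a * x s) n

/-- The elementary symmetric function with integer index. -/
def ee (n : ℤ) : K := esZ x n

/-- The one-row function of two marks. -/
def aa (d e : Fin N) (n : ℤ) : K := esZ (fun s => al q d e s * x s) n

lemma esZ_natCast (u : Fin N → K) (n : ℕ) : esZ u (n : ℤ) = es u n := by simp [esZ]

lemma esZ_smul {q : K} (u : Fin N → K) (n : ℤ) :
    esZ (fun s => q * u s) n = q ^ n * esZ u n := by
  unfold esZ
  split_ifs with h
  · simp
  · rw [es_smul]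
    congr 1
    rw [← zpow_natCast]
    congr 1
    omega

lemma ext_plain (u v y : Fin N → K) (i j : ℤ) (k : ℕ) :
    ext i j k (WR y * (R1 u * R2 v)) = esZ u i * esZ v j * es y k := by
  unfold ext; simp only [AddMonoidHom.coe_mk, ZeroHom.coe_mk]
  rw [R1, R2, ← map_mul, PowerSeries.coeff_mul_C, WR, PowerSeries.coeff_mk, rows_coeff]
  simp only [sub_zero]
  ring

variable {q} {x} {d e : Fin N} {k : ℕ}

lemma pr_z1 (a : Fin N) (c : K) :
    pr (emb q) (fun s => emb (x s)) a (emb c * z1 K) = R1 fun s => c * (cw q s a * x s) := by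
  rw [pr, ← Pz_R1]; simp only [cw_emb]

lemma pr_z2 (a : Fin N) (c : K) :
    pr (emb q) (fun s => emb (x s)) a (emb c * z2 K) = R2 fun s => c * (cw q s a * x s) := by
  rw [pr, ← Pz_R2]; simp only [cw_emb]

lemma pr_ww (a : Fin N) (c : K) :
    pr (emb q) (fun s => emb (x s)) a (emb c * ww K) = WR fun s => c * (cw q s a * x s) := by
  rw [pr, ← Pz_WR]; simp only [cw_emb]

lemma pE_z1 (c : K) : pE (fun s => emb (x s)) (emb c * z1 K) = R1 fun s => c * x s := by
  rw [pE]; simpa using Pz_R1 x (fun _ => 1) c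

lemma pE_z2 (c : K) : pE (fun s => emb (x s)) (emb c * z2 K) = R2 fun s => c * x s := by
  rw [pE]; simpa using Pz_R2 x (fun _ => 1) c

lemma pE_ww (c : K) : pE (fun s => emb (x s)) (emb c * ww K) = WR fun s => c * x s := by
  rw [pE]; simpa using Pz_WR x (fun _ => 1) c

lemma al_ww (c : K) : Pz (fun s => emb (x s)) (al (emb q) d e) (emb c * ww K) =
    WR fun s => c * (al q d e s * x s) := by
  rw [← Pz_WR, show al (emb q) d e = fun s => emb (al q d e s) from funext (al_emb q d e)]

lemma i1_eq (c : K) : iv (z1 K) (emb c) = G1 fun r => c ^ r := by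
  simpa using iv_G1 (K := K) 1 c one_ne_zero

lemma i2_eq (c : K) : iv (z2 K) (emb c) = G2 fun r => c ^ r := by
  simpa using iv_G2 (K := K) 1 c one_ne_zero

lemma conv_geo (c : K) (r : ℕ) :
    ∑ p ∈ range (r + 1), c ^ p * (q * c) ^ (r - p) = c ^ r * qn q (r + 1) := by
  rw [qn, mul_sum, ← sum_range_reflect (fun p => c ^ r * q ^ p)]
  refine sum_congr rfl fun p hp => ?_
  have := mem_range.1 hp
  rw [show r + 1 - 1 - p = r - p by omega, mul_pow,
    show c ^ r = c ^ p * c ^ (r - p) by rw [← pow_add]; congr 1; omega]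
  ring

lemma pair1 (c : K) : z1 K * iv (z1 K) (emb c) * iv (z1 K) (emb (q * c)) =
    G1 fun r => c ^ r * qn q (r + 1) := by
  rw [i1_eq, i1_eq, mul_assoc, G1_mul, z1, ← mul_assoc, mon_mul]
  simp only [conv_geo, add_neg_cancel, add_zero]
  rw [show (mon 0 0 : SK K) = 1 by simp [mon, sg_one], one_mul]

lemma pair2 (c : K) : z2 K * iv (z2 K) (emb c) * iv (z2 K) (emb (q * c)) =
    G2 fun r => c ^ r * qn q (r + 1) := by
  rw [i2_eq, i2_eq, mul_assoc, G2_mul, z2, ← mul_assoc, mon_mul]
  simp only [conv_geo, add_neg_cancel, add_zero]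
  rw [show (mon 0 0 : SK K) = 1 by simp [mon, sg_one], one_mul]

variable (q x d e k)

/-- The symmetric two-row generator, for `d < e`. -/
def Sy (A D : ℤ) : K :=
  ∑ l ∈ Ico 0 A, (1 - q ^ (A - l)) / (1 - q) *
    (q ^ l * (pp q x e (D - l) * pp q x d l) + q ^ A * (pp q x e l * pp q x d (D - l)))

/-- The end of the larger colour against a jump of the smaller one. -/
def Bt (i j : ℤ) : K :=
  ∑ r ∈ range (k + 1), q ^ r * q ^ (i + 1 + r) * ee x (i + 1 + r) *
    Sy q x d e ((k - r : ℕ) + 1) (j + 1 + (k - r : ℕ))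

/-- A jump of the larger colour against the end of the smaller one. -/
def Ct (i j : ℤ) : K :=
  ∑ s ∈ range (k + 1), q ^ (2 + 2 * s) * ee x (j + 1 + s) * q ^ (k - s) *
    Sy q x d e ((k - s : ℕ) + 1) (i + 1 + (k - s : ℕ))

/-- Two jumps. -/
def Mt (i j : ℤ) : K :=
  ∑ r ∈ range (k + 1), ∑ s ∈ range (k - r + 1), q * (q ^ r * qn q (r + 1)) *
    (q ^ s * qn q (s + 1)) * (pp q x e (i + 1 + r) * pp q x d (j + 1 + s)) *
    ((q * q) ^ (k - r - s) * es x (k - r - s))

/-- Two ends. -/
def Et (i j : ℤ) : K :=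
  ∑ r ∈ range (k + 1), ∑ s ∈ range (k - r + 1), q ^ r * q ^ (i + 1 + r) *
    (q * q * (q * q) ^ s * q ^ (k - r - s) - q ^ (j + 1 + s)) *
    (ee x (i + 1 + r) * ee x (j + 1 + s) * es (fun t => al q d e t * x t) (k - r - s))

/-- Two ends on the diagonal. -/
def At (i j : ℤ) : K :=
  ∑ r ∈ range (k + 1), ∑ s ∈ range (k - r + 1),
    (q ^ 4 * (q * q * q) ^ r * (q * q * q) ^ s * (q * q) ^ (k - r - s) -
      q ^ r * q ^ s * (q ^ (i + 1 + r) * q ^ (j + 1 + s))) *
    (ee x (i + 1 + r) * ee x (j + 1 + s) * es (fun t => al q d e t * x t) (k - r - s))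

variable {q x d e k}

/-- The two rows of a clique end against one jump make a symmetric generator. -/
lemma Sy_of_jumps (n : ℤ) (m : ℕ) :
    ∑ s ∈ range (m + 1), qn q (s + 1) * q ^ (m - s) *
      (q ^ (s + 1) * (pp q x d (n + s) * pp q x e (m - s : ℕ)) +
        pp q x e (n + s) * pp q x d (m - s : ℕ)) = Sy q x d e ((m : ℤ) + 1) (n + m) ∨ q = 1 := by
  by_cases hq : q = 1
  · exact Or.inr hq
  left
  symm
  rw [Sy]
  refine sum_bij' (fun l _ => (m - l.toNat)) (fun s _ => ((m - s : ℕ) : ℤ)) ?_ ?_ ?_ ?_ ?_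
  · intro l hl; simp only [mem_Ico] at hl; simp
  · intro s hs; simp only [mem_range] at hs; simp only [mem_Ico]; omega
  · intro l hl; simp only [mem_Ico] at hl; omega
  · intro s hs; simp only [mem_range] at hs; omega
  · intro l hl
    simp only [mem_Ico] at hl
    obtain ⟨l, rfl⟩ := Int.eq_ofNat_of_zero_le hl.1
    have hl' : l ≤ m := by omega
    simp only [Int.toNat_natCast, show m - (m - l) = l by omega]
    rw [show ((m : ℤ) + 1 - (l : ℤ)) = ((m - l + 1 : ℕ) : ℤ) by omega,
      show (n + (m : ℤ) - (l : ℤ)) = n + ((m - l : ℕ) : ℤ) by omega,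
      show ((m : ℤ) + 1) = ((m + 1 : ℕ) : ℤ) by omega]
    simp only [zpow_natCast]
    have h1 : (1 - q ^ (m - l + 1)) / (1 - q) = qn q (m - l + 1) := by
      rw [← one_sub_mul_qn]; field_simp [sub_ne_zero.2 (Ne.symm hq)]
    rw [h1, show q ^ (m + 1) = q ^ l * q ^ (m - l + 1) by rw [← pow_add]; congr 1; omega]
    ring

/-- The coefficient of the kernel. -/
def UU (q : K) (x : Fin N → K) (h l : Fin N) (i j : ℤ) : K :=
  pp q x h (i - 1) * pp q x l j - q * (pp q x h i * pp q x l (j - 1)) +
    (q * (pp q x h j * pp q x l (i - 1)) - pp q x h (j - 1) * pp q x l i)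

/-- The sum over two marks with the privates already summed. -/
def Att (q : K) (x : Fin N → K) (d e : Fin N) (k : ℕ) (f : Fin N → Fin N → K) : K :=
  ∑ l, ∑ h, (if l < h then x h * x l * al q d e h * al q d e l * f h l *
    es (fun s => be q d e h l s * x s) k else 0)

theorem extract (hq : q ≠ 1) (hde : d < e) (i j : ℤ) :
    (1 - q) ^ 2 * Att q x d e k (fun h l => UU q x h l i j) =
      q * (At q x d e k (i - 1) j - At q x d e k i (j - 1)) -
      (Et q x d e k (i - 1) j - q * Et q x d e k i (j - 1)) -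
      (q * Et q x d e k j (i - 1) - Et q x d e k (j - 1) i) +
      (1 - q) * ((Ct q x d e k (i - 1) j - Bt q x d e k (i - 1) j) -
        q * (Ct q x d e k i (j - 1) - Bt q x d e k i (j - 1))) +
      (1 - q) * (q * (Ct q x d e k j (i - 1) - Bt q x d e k j (i - 1)) -
        (Ct q x d e k (j - 1) i - Bt q x d e k (j - 1) i)) +
      (1 - q) ^ 2 * ((Mt q x d e k (i - 1) j - q * Mt q x d e k i (j - 1)) +
        (q * Mt q x d e k j (i - 1) - Mt q x d e k (j - 1) i)) := by
  have M := master (q := emb q) (x := fun s => emb (x s)) (w := ww K) (d := d) (e := e)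
    (z1 := z1 K) (z2 := z2 K) (i1 := iv (z1 K)) (i2 := iv (z2 K))
    (iv_spec z1_unit) (iv_spec z2_unit) hde
  have E := congrArg (ext i j k) M
  have sh1 : ∀ f : SK K, ext i j k (z1 K * f) = ext (i - 1) j k f := fun f => by
    rw [z1, ext_mon, sub_zero]
  have sh2 : ∀ f : SK K, ext i j k (z2 K * f) = ext i (j - 1) k f := fun f => by
    rw [z2, ext_mon, sub_zero]
  have e0 : ∀ (c : K) (f : SK K), ext i j k (emb c * f) = c * ext i j k f := fun c f =>
    ext_emb c f i j k
  have hw : ww K = emb 1 * ww K := by simp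
  have hz1 : z1 K = emb 1 * z1 K := by simp
  have hz2 : z2 K = emb 1 * z2 K := by simp
  -- the left side
  have hL : ext i j k ((1 - emb q) ^ 2 * ∑ l, ∑ h, (if l < h then emb (x h) * emb (x l) *
      al (emb q) d e h * al (emb q) d e l * NN (emb q) (fun s => emb (x s)) (z1 K) (z2 K) h l *
      Pz (fun s => emb (x s)) (be (emb q) d e h l) (ww K) else 0)) =
      (1 - q) ^ 2 * Att q x d e k (fun h l => UU q x h l i j) := by
    rw [← map_one (emb (K := K)), ← map_sub, ← map_pow, e0, Att, map_sum]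
    congr 1
    refine sum_congr rfl fun l _ => ?_
    rw [map_sum]
    refine sum_congr rfl fun h _ => ?_
    split_ifs
    swap
    · simp
    have hb : be (emb q) d e h l = fun s => emb (be q d e h l s) := by
      funext s; simp [be, cw_emb, al_emb]
    rw [hb, hw, Pz_WR, NN]
    have p1 : ∀ a, pr (emb q) (fun s => emb (x s)) a (z1 K) = R1 fun s => cw q s a * x s :=
      fun a => by rw [hz1, pr_z1]; simp
    have p2 : ∀ a, pr (emb q) (fun s => emb (x s)) a (z2 K) = R2 fun s => cw q s a * x s :=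
      fun a => by rw [hz2, pr_z2]; simp
    simp only [p1, p2, al_emb, ← map_mul, one_mul]
    rw [mul_assoc, e0]
    have hd : ∀ f g W : SK K, ((z1 K - emb q * z2 K) * f + (emb q * z1 K - z2 K) * g) * W =
        z1 K * (f * W) - emb q * (z2 K * (f * W)) + (emb q * (z1 K * (g * W)) - z2 K * (g * W)) :=
      fun _ _ _ => by ring
    rw [hd, map_add, map_sub, map_sub, e0, e0, sh1, sh2, sh1, sh2,
      mul_comm (R1 _ * R2 _) (WR _), mul_comm (R2 _) (R1 _), mul_comm (R1 _ * R2 _) (WR _),
      ext_plain, ext_plain, ext_plain, ext_plain]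
    simp only [UU, pp]
    ring
  -- the right side
  have hA : ∀ a b : ℤ, ext a b k (emb (q ^ 4) * (G1 (fun r => (q * q * q) ^ r) *
      G2 (fun r => (q * q * q) ^ r) * WR (fun s => q * q * (al q d e s * x s)) *
      (R1 x * R2 x)) - G1 (fun r => q ^ r) * G2 (fun r => q ^ r) *
      WR (fun s => al q d e s * x s) * (R1 (fun s => q * x s) * R2 fun s => q * x s)) =
      At q x d e k a b := by
    intro a b
    rw [map_sub, ext_emb, ext_two, ext_two, mul_sum, ← sum_sub_distrib, At]
    refine sum_congr rfl fun r _ => ?_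
    rw [mul_sum, ← sum_sub_distrib]
    refine sum_congr rfl fun s _ => ?_
    rw [esZ_smul, esZ_smul, es_smul, ee, ee]
    ring
  have hE12 : ∀ a b : ℤ, ext a b k (emb (q * q) * (G1 (fun r => q ^ r) *
      G2 (fun r => (q * q) ^ r) * WR (fun s => q * (al q d e s * x s)) *
      (R1 (fun s => q * x s) * R2 x)) - G1 (fun r => q ^ r) * G2 (fun r => (1 : K) ^ r) *
      WR (fun s => al q d e s * x s) * (R1 (fun s => q * x s) * R2 fun s => q * x s)) =
      Et q x d e k a b := by
    intro a b
    rw [map_sub, ext_emb, ext_two, ext_two, mul_sum, ← sum_sub_distrib, Et]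
    refine sum_congr rfl fun r _ => ?_
    rw [mul_sum, ← sum_sub_distrib]
    refine sum_congr rfl fun s _ => ?_
    rw [esZ_smul, esZ_smul, es_smul, ee, ee]
    ring
  have hE21 : ∀ a b : ℤ, ext a b k (emb (q * q) * (G1 (fun r => (q * q) ^ r) *
      G2 (fun r => q ^ r) * WR (fun s => q * (al q d e s * x s)) *
      (R1 x * R2 fun s => q * x s)) - G1 (fun r => (1 : K) ^ r) * G2 (fun r => q ^ r) *
      WR (fun s => al q d e s * x s) * (R1 (fun s => q * x s) * R2 fun s => q * x s)) =
      Et q x d e k b a := by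
    intro a b
    rw [map_sub, ext_emb, ext_two, ext_two, mul_sum, ← sum_sub_distrib, Et,
      sum_comm' (t' := range (k + 1)) (s' := fun s => range (k - s + 1))]
    swap
    · intro r s; simp only [mem_range]; omega
    refine sum_congr rfl fun s _ => ?_
    rw [mul_sum, ← sum_sub_distrib]
    refine sum_congr rfl fun r _ => ?_
    rw [esZ_smul, esZ_smul, es_smul, ee, ee, show k - r - s = k - s - r by omega]
    ring
  have T1 : ∀ (n : ℤ) (m : ℕ), _ := fun n m =>
    (Sy_of_jumps (q := q) (x := x) (d := d) (e := e) n m).resolve_right hq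
  have hB12 : ∀ a b : ℤ, ext a b k (emb q * (G1 (fun r => q ^ r) *
      G2 (fun r => q ^ r * qn q (r + 1)) * WR (fun s => q * (cw q s e * x s)) *
      (R1 (fun s => q * x s) * R2 fun s => cw q s d * x s)) + G1 (fun r => q ^ r) *
      G2 (fun r => (1 : K) ^ r * qn q (r + 1)) * WR (fun s => q * (cw q s d * x s)) *
      (R1 (fun s => q * x s) * R2 fun s => cw q s e * x s)) = Bt q x d e k a b := by
    intro a b
    rw [map_add, ext_emb, ext_two, ext_two, mul_sum, ← sum_add_distrib, Bt]
    refine sum_congr rfl fun r _ => ?_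
    rw [mul_sum, ← sum_add_distrib, ← T1, mul_sum]
    refine sum_congr rfl fun s _ => ?_
    rw [esZ_smul, es_smul, es_smul, ← esZ_natCast, ← esZ_natCast]
    simp only [pp, ee, one_pow]
    ring
  have hB21 : ∀ a b : ℤ, ext a b k (emb q * (G1 (fun r => q ^ r * qn q (r + 1)) *
      G2 (fun r => q ^ r) * WR (fun s => q * (cw q s e * x s)) *
      (R1 (fun s => cw q s d * x s) * R2 fun s => q * x s)) +
      G1 (fun r => (1 : K) ^ r * qn q (r + 1)) * G2 (fun r => q ^ r) *
      WR (fun s => q * (cw q s d * x s)) *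
      (R1 (fun s => cw q s e * x s) * R2 fun s => q * x s)) = Bt q x d e k b a := by
    intro a b
    rw [map_add, ext_emb, ext_two, ext_two, mul_sum, ← sum_add_distrib, Bt]
    simp only [mul_sum, ← sum_add_distrib]
    rw [sum_comm' (t' := range (k + 1)) (s' := fun s => range (k - s + 1))]
    swap
    · intro r s; simp only [mem_range]; omega
    refine sum_congr rfl fun r _ => ?_
    rw [← T1, mul_sum]
    refine sum_congr rfl fun s _ => ?_
    rw [esZ_smul, es_smul, es_smul, ← esZ_natCast, ← esZ_natCast,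
      show k - s - r = k - r - s by omega]
    simp only [pp, ee, one_pow]
    ring
  have hC21 : ∀ a b : ℤ, ext a b k (emb (q * q) * (emb q * (G1 (fun r => (q * q) ^ r) *
      G2 (fun r => (q * q) ^ r * qn q (r + 1)) * WR (fun s => q * q * (cw q s e * x s)) *
      (R1 x * R2 fun s => cw q s d * x s)) + G1 (fun r => (q * q) ^ r) *
      G2 (fun r => q ^ r * qn q (r + 1)) * WR (fun s => q * q * (cw q s d * x s)) *
      (R1 x * R2 fun s => cw q s e * x s))) = Ct q x d e k b a := by
    intro a b
    rw [ext_emb, map_add, ext_emb, ext_two, ext_two, mul_sum, ← sum_add_distrib, mul_sum, Ct]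
    refine sum_congr rfl fun s _ => ?_
    rw [mul_sum, ← sum_add_distrib, mul_sum, ← T1, mul_sum]
    refine sum_congr rfl fun r hr => ?_
    have := mem_range.1 hr
    rw [es_smul, es_smul, ← esZ_natCast, ← esZ_natCast,
      show q ^ (k - s) = q ^ r * q ^ (k - s - r) by rw [← pow_add]; congr 1; omega]
    simp only [pp, ee]
    ring
  have hC12 : ∀ a b : ℤ, ext a b k (emb (q * q) * (emb q * (G1 (fun r => (q * q) ^ r *
      qn q (r + 1)) * G2 (fun r => (q * q) ^ r) * WR (fun s => q * q * (cw q s e * x s)) *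
      (R1 (fun s => cw q s d * x s) * R2 x)) + G1 (fun r => q ^ r * qn q (r + 1)) *
      G2 (fun r => (q * q) ^ r) * WR (fun s => q * q * (cw q s d * x s)) *
      (R1 (fun s => cw q s e * x s) * R2 x))) = Ct q x d e k a b := by
    intro a b
    rw [ext_emb, map_add, ext_emb, ext_two, ext_two, mul_sum, ← sum_add_distrib, mul_sum, Ct]
    simp only [mul_sum, ← sum_add_distrib]
    rw [sum_comm' (t' := range (k + 1)) (s' := fun r => range (k - r + 1))]
    swap
    · intro r s; simp only [mem_range]; omega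
    refine sum_congr rfl fun s _ => ?_
    rw [← T1, mul_sum]
    refine sum_congr rfl fun r hr => ?_
    have := mem_range.1 hr
    rw [es_smul, es_smul, ← esZ_natCast, ← esZ_natCast, show k - r - s = k - s - r by omega,
      show q ^ (k - s) = q ^ r * q ^ (k - s - r) by rw [← pow_add]; congr 1; omega]
    simp only [pp, ee]
    ring
  have hM12 : ∀ a b : ℤ, ext a b k (emb q * (G1 (fun r => q ^ r * qn q (r + 1)) *
      G2 (fun r => q ^ r * qn q (r + 1)) * WR (fun s => q * q * x s) *
      (R1 (fun s => cw q s e * x s) * R2 fun s => cw q s d * x s))) = Mt q x d e k a b := by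
    intro a b
    rw [ext_emb, ext_two, mul_sum, Mt]
    refine sum_congr rfl fun r _ => ?_
    rw [mul_sum]
    refine sum_congr rfl fun s _ => ?_
    rw [es_smul]
    simp only [pp]
    ring
  have hM21 : ∀ a b : ℤ, ext a b k (emb q * (G1 (fun r => q ^ r * qn q (r + 1)) *
      G2 (fun r => q ^ r * qn q (r + 1)) * WR (fun s => q * q * x s) *
      (R1 (fun s => cw q s d * x s) * R2 fun s => cw q s e * x s))) = Mt q x d e k b a := by
    intro a b
    rw [ext_emb, ext_two, mul_sum, Mt,
      sum_comm' (t' := range (k + 1)) (s' := fun s => range (k - s + 1))]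
    swap
    · intro r s; simp only [mem_range]; omega
    refine sum_congr rfl fun s _ => ?_
    rw [mul_sum]
    refine sum_congr rfl fun r _ => ?_
    rw [es_smul, show k - r - s = k - s - r by omega]
    simp only [pp]
    ring
  rw [hL] at E
  rw [E]
  -- normal form of the right side
  have q2 : emb q * emb q = emb (q * q) := (map_mul _ _ _).symm
  have q3 : emb (q * q) * emb q = emb (q * q * q) := (map_mul _ _ _).symm
  have q4 : emb q ^ 4 = emb (q ^ 4) := (map_pow _ _ _).symm
  have pa : z1 K * iv (z1 K) (emb q) * iv (z1 K) (emb (q * q)) =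
      G1 fun r => q ^ r * qn q (r + 1) := pair1 q
  have pb : z1 K * iv (z1 K) (emb (q * q)) * iv (z1 K) (emb (q * q * q)) =
      G1 fun r => (q * q) ^ r * qn q (r + 1) := by rw [mul_assoc q q q]; exact pair1 (q * q)
  have pc : z1 K * iv (z1 K) (emb 1) * iv (z1 K) (emb q) =
      G1 fun r => (1 : K) ^ r * qn q (r + 1) := by simpa using pair1 (q := q) (1 : K)
  have pa' : z2 K * iv (z2 K) (emb q) * iv (z2 K) (emb (q * q)) =
      G2 fun r => q ^ r * qn q (r + 1) := pair2 q
  have pb' : z2 K * iv (z2 K) (emb (q * q)) * iv (z2 K) (emb (q * q * q)) =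
      G2 fun r => (q * q) ^ r * qn q (r + 1) := by rw [mul_assoc q q q]; exact pair2 (q * q)
  have pc' : z2 K * iv (z2 K) (emb 1) * iv (z2 K) (emb q) =
      G2 fun r => (1 : K) ^ r * qn q (r + 1) := by simpa using pair2 (q := q) (1 : K)
  have e1 : pE (fun s => emb (x s)) (z1 K) = R1 x := by rw [hz1, pE_z1]; simp
  have e2 : pE (fun s => emb (x s)) (z2 K) = R2 x := by rw [hz2, pE_z2]; simp
  have a0 : Pz (fun s => emb (x s)) (al (emb q) d e) (ww K) = WR fun s => al q d e s * x s := by
    rw [hw, al_ww]; simp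
  have r1 : ∀ a, pr (emb q) (fun s => emb (x s)) a (z1 K) = R1 fun s => cw q s a * x s :=
    fun a => by rw [hz1, pr_z1]; simp
  have r2 : ∀ a, pr (emb q) (fun s => emb (x s)) a (z2 K) = R2 fun s => cw q s a * x s :=
    fun a => by rw [hz2, pr_z2]; simp
  simp only [Bj, Cj, Jv, q2, q3, q4, e1, e2, a0, r1, r2, pE_z1, pE_z2, pE_ww, al_ww, pr_ww]
  set A1 := emb (q ^ 4) * (G1 (fun r => (q * q * q) ^ r) * G2 (fun r => (q * q * q) ^ r) *
      WR (fun s => q * q * (al q d e s * x s)) * (R1 x * R2 x)) -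
      G1 (fun r => q ^ r) * G2 (fun r => q ^ r) * WR (fun s => al q d e s * x s) *
      (R1 (fun s => q * x s) * R2 fun s => q * x s) with hA1
  set E12 := emb (q * q) * (G1 (fun r => q ^ r) * G2 (fun r => (q * q) ^ r) *
      WR (fun s => q * (al q d e s * x s)) * (R1 (fun s => q * x s) * R2 x)) -
      G1 (fun r => q ^ r) * G2 (fun r => (1 : K) ^ r) * WR (fun s => al q d e s * x s) *
      (R1 (fun s => q * x s) * R2 fun s => q * x s) with hE1
  set E21 := emb (q * q) * (G1 (fun r => (q * q) ^ r) * G2 (fun r => q ^ r) *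
      WR (fun s => q * (al q d e s * x s)) * (R1 x * R2 fun s => q * x s)) -
      G1 (fun r => (1 : K) ^ r) * G2 (fun r => q ^ r) * WR (fun s => al q d e s * x s) *
      (R1 (fun s => q * x s) * R2 fun s => q * x s) with hE2
  set B12 := emb q * (G1 (fun r => q ^ r) *
      G2 (fun r => q ^ r * qn q (r + 1)) * WR (fun s => q * (cw q s e * x s)) *
      (R1 (fun s => q * x s) * R2 fun s => cw q s d * x s)) + G1 (fun r => q ^ r) *
      G2 (fun r => (1 : K) ^ r * qn q (r + 1)) * WR (fun s => q * (cw q s d * x s)) *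
      (R1 (fun s => q * x s) * R2 fun s => cw q s e * x s) with hB1
  set B21 := emb q * (G1 (fun r => q ^ r * qn q (r + 1)) *
      G2 (fun r => q ^ r) * WR (fun s => q * (cw q s e * x s)) *
      (R1 (fun s => cw q s d * x s) * R2 fun s => q * x s)) +
      G1 (fun r => (1 : K) ^ r * qn q (r + 1)) * G2 (fun r => q ^ r) *
      WR (fun s => q * (cw q s d * x s)) *
      (R1 (fun s => cw q s e * x s) * R2 fun s => q * x s) with hB2
  set C12 := emb (q * q) * (emb q * (G1 (fun r => (q * q) ^ r * qn q (r + 1)) *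
      G2 (fun r => (q * q) ^ r) * WR (fun s => q * q * (cw q s e * x s)) *
      (R1 (fun s => cw q s d * x s) * R2 x)) + G1 (fun r => q ^ r * qn q (r + 1)) *
      G2 (fun r => (q * q) ^ r) * WR (fun s => q * q * (cw q s d * x s)) *
      (R1 (fun s => cw q s e * x s) * R2 x)) with hC1
  set C21 := emb (q * q) * (emb q * (G1 (fun r => (q * q) ^ r) *
      G2 (fun r => (q * q) ^ r * qn q (r + 1)) * WR (fun s => q * q * (cw q s e * x s)) *
      (R1 x * R2 fun s => cw q s d * x s)) + G1 (fun r => (q * q) ^ r) *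
      G2 (fun r => q ^ r * qn q (r + 1)) * WR (fun s => q * q * (cw q s d * x s)) *
      (R1 x * R2 fun s => cw q s e * x s)) with hC2
  set M12 := emb q * (G1 (fun r => q ^ r * qn q (r + 1)) *
      G2 (fun r => q ^ r * qn q (r + 1)) * WR (fun s => q * q * x s) *
      (R1 (fun s => cw q s e * x s) * R2 fun s => cw q s d * x s)) with hM1
  set M21 := emb q * (G1 (fun r => q ^ r * qn q (r + 1)) *
      G2 (fun r => q ^ r * qn q (r + 1)) * WR (fun s => q * q * x s) *
      (R1 (fun s => cw q s d * x s) * R2 fun s => cw q s e * x s)) with hM2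
  have main : ∀ T : SK K, ext i j k T = ext i j k
      (emb q * (z1 K * A1) - emb q * (z2 K * A1) - (z1 K * E12 - emb q * (z2 K * E12)) -
        (emb q * (z1 K * E21) - z2 K * E21) +
        emb (1 - q) * ((z1 K * C12 - z1 K * B12) - (emb q * (z2 K * C12) - emb q * (z2 K * B12))) +
        emb (1 - q) * ((emb q * (z1 K * C21) - emb q * (z1 K * B21)) -
          (z2 K * C21 - z2 K * B21)) +
        emb ((1 - q) ^ 2) * ((z1 K * M12 - emb q * (z2 K * M12)) +
          (emb q * (z1 K * M21) - z2 K * M21))) →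
      ext i j k T = q * (At q x d e k (i - 1) j - At q x d e k i (j - 1)) -
      (Et q x d e k (i - 1) j - q * Et q x d e k i (j - 1)) -
      (q * Et q x d e k j (i - 1) - Et q x d e k (j - 1) i) +
      (1 - q) * ((Ct q x d e k (i - 1) j - Bt q x d e k (i - 1) j) -
        q * (Ct q x d e k i (j - 1) - Bt q x d e k i (j - 1))) +
      (1 - q) * (q * (Ct q x d e k j (i - 1) - Bt q x d e k j (i - 1)) -
        (Ct q x d e k (j - 1) i - Bt q x d e k (j - 1) i)) +
      (1 - q) ^ 2 * ((Mt q x d e k (i - 1) j - q * Mt q x d e k i (j - 1)) +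
        (q * Mt q x d e k j (i - 1) - Mt q x d e k (j - 1) i)) := by
    intro T hT
    rw [hT]
    have hm : ∀ f g : SK K, ext i j k (f - g) = ext i j k f - ext i j k g := map_sub _
    have ha : ∀ f g : SK K, ext i j k (f + g) = ext i j k f + ext i j k g := map_add _
    simp only [ha, hm, e0, sh1, sh2]
    simp only [hA, hE12, hE21, hB12, hB21, hC12, hC21, hM12, hM21]
    ring
  refine main _ (congrArg (ext i j k) ?_)
  simp only [A1, E12, E21, B12, B21, C12, C21, M12, M21, ← pa, ← pb, ← pc, ← pa', ← pb', ← pc',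
    ← i1_eq, ← i2_eq, map_sub, map_one, map_pow, map_mul]
  ring

end Vale.Agent.P066.Overlap2
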