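import Vale.Agent.P066.Overlap2.HState

/-! Positivity of the attachment to a one-row generator. -/

open Finset

noncomputable section

namespace Vale.Agent.P066.Overlap2

open Vale.Agent.P066.Small

variable {K : Type*} [Field K] {N : ℕ} {q : K} {x : Fin N → K} {d e : Fin N} {k : ℕ}

variable (q k) in
/-- The coefficient of `e_b` against a one-row generator. -/
def Rh (D b : ℤ) : K :=
  q ^ (2 * b) * Gq q ((k : ℤ) + 1 - b) - q ^ (b + D + 1) * Gq q ((k : ℤ) - D) +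
    (if D + 2 ≤ b then acoef q k D (b - D - 2).toNat else 0)

lemma acoef_eq (hq : Generic q) (D : ℤ) (t : ℕ) :
    acoef q k D t = q ^ (D + 2 + t + D + 1) * Fh q ((k : ℤ) - D) -
      q ^ (2 * (D + 2 + t)) * Fh q ((k : ℤ) + 1 - (D + 2 + t)) := by
  have h1 := hq.sub_ne
  have h2 := hq.one_sub_sq
  have h3 := hq.add_ne
  have lhs : acoef q k D t = ((1 - q ^ ((t : ℤ) + 1)) * (q ^ (4 + 2 * (k : ℤ)) -
      q ^ (2 * (D + 2 + t))) - (1 - q ^ 2) * ((t : K) + 1) * q ^ (D + 2 + t + k + 1) +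
      q ^ (2 * (D + 2 + t) - t - 1) * (1 - q ^ (2 * (t : ℤ) + 2))) /
      ((1 - q) ^ 2 * (1 - q ^ 2)) := by
    simp only [acoef, qz]
    field_simp
    ring
  rw [lhs]
  simp only [Fh, mul_div_assoc', div_sub_div_same]
  congr 1
  set b := D + 2 + (t : ℤ) with hb
  have a1 : q ^ (b + D + 1) * q ^ (2 * ((k : ℤ) - D) + 2) = q ^ (4 + 2 * (k : ℤ)) * q ^ ((t : ℤ) + 1) := by
    rw [← zpow_add₀ hq.ne, ← zpow_add₀ hq.ne]; congr 1; omega
  have a2 : q ^ (2 * b) * q ^ (2 * ((k : ℤ) + 1 - b) + 2) = q ^ (4 + 2 * (k : ℤ)) := by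
    rw [← zpow_add₀ hq.ne]; congr 1; omega
  have a3 : q ^ (b + D + 1) * q ^ ((k : ℤ) - D) = q ^ (b + (k : ℤ) + 1) := by
    rw [← zpow_add₀ hq.ne]; congr 1; omega
  have a4 : q ^ (2 * b) * q ^ ((k : ℤ) + 1 - b) = q ^ (b + (k : ℤ) + 1) := by
    rw [← zpow_add₀ hq.ne]; congr 1; omega
  have a5 : q ^ (2 * b - t - 1) = q ^ (b + D + 1) := by congr 1; omega
  have a6 : q ^ (b + D + 1) * q ^ (2 * (t : ℤ) + 2) = q ^ (2 * b) * q ^ ((t : ℤ) + 1) := by
    rw [← zpow_add₀ hq.ne, ← zpow_add₀ hq.ne]; congr 1; omega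
  have hcast : ((k : K) + 1 - (b : K)) = (k : K) - (D : K) - (t : K) - 1 := by
    rw [hb]; push_cast; ring
  push_cast
  linear_combination a1 - a2 + (((k : K) - (D : K) + 1) * (1 - q ^ 2)) * a3 -
    (((k : K) + 1 - (b : K) + 1) * (1 - q ^ 2)) * a4 + (1 - q ^ (2 * (t : ℤ) + 2)) * a5 - a6 -
    ((1 - q ^ 2) * q ^ (b + (k : ℤ) + 1)) * hcast

/-- The coefficient of `e_b` against a one-row generator is positive. -/
theorem IsPos.Rh (hq : Generic q) {D b : ℤ} (hD : 0 ≤ D) (hb : 0 ≤ b) :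
    IsPos q (Rh q k D b) := by
  unfold Overlap2.Rh
  split_ifs with h
  · obtain ⟨t, rfl⟩ : ∃ t : ℕ, b = D + 2 + t := ⟨(b - D - 2).toNat, by omega⟩
    rw [show (D + 2 + (t : ℤ) - D - 2).toNat = t by omega, acoef_eq hq, Fh_eq hq, Fh_eq hq]
    have e : q ^ (2 * (D + 2 + (t : ℤ))) * Gq q ((k : ℤ) + 1 - (D + 2 + t)) -
        q ^ (D + 2 + (t : ℤ) + D + 1) * Gq q ((k : ℤ) - D) +
        (q ^ (D + 2 + (t : ℤ) + D + 1) * (Gq q ((k : ℤ) - D) -
            q ^ (2 * ((k : ℤ) - D) + 2) * Gq q (-2 - ((k : ℤ) - D))) -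
          q ^ (2 * (D + 2 + (t : ℤ))) * (Gq q ((k : ℤ) + 1 - (D + 2 + t)) -
            q ^ (2 * ((k : ℤ) + 1 - (D + 2 + t)) + 2) *
              Gq q (-2 - ((k : ℤ) + 1 - (D + 2 + t))))) =
        q ^ (4 + 2 * (k : ℤ)) * (Gq q (-2 - ((k : ℤ) + 1 - (D + 2 + t))) -
          q ^ ((t : ℤ) + 1) * Gq q (-2 - ((k : ℤ) + 1 - (D + 2 + t)) - (t + 1))) := by
      rw [show -2 - ((k : ℤ) + 1 - (D + 2 + t)) - ((t : ℤ) + 1) = -2 - ((k : ℤ) - D) by ring]
      have a1 : q ^ (D + 2 + (t : ℤ) + D + 1) * q ^ (2 * ((k : ℤ) - D) + 2) =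
          q ^ (4 + 2 * (k : ℤ)) * q ^ ((t : ℤ) + 1) := by
        rw [← zpow_add₀ hq.ne, ← zpow_add₀ hq.ne]; congr 1; omega
      have a2 : q ^ (2 * (D + 2 + (t : ℤ))) * q ^ (2 * ((k : ℤ) + 1 - (D + 2 + t)) + 2) =
          q ^ (4 + 2 * (k : ℤ)) := by
        rw [← zpow_add₀ hq.ne]; congr 1; omega
      linear_combination (-(Gq q (-2 - ((k : ℤ) - D)))) * a1 +
        Gq q (-2 - ((k : ℤ) + 1 - (D + 2 + t))) * a2
    rw [e]
    exact (IsPos.zpow (by omega)).mul (IsPos.Gq_diff hq (by omega))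
  · rw [add_zero, show q ^ (b + D + 1) = q ^ (2 * b) * q ^ (D + 1 - b) by
      rw [← zpow_add₀ hq.ne]; congr 1; omega,
      show (k : ℤ) - D = (k : ℤ) + 1 - b - (D + 1 - b) by ring, mul_assoc, ← mul_sub]
    exact (IsPos.zpow (by omega)).mul (IsPos.Gq_diff hq (by omega))

/-- The attachment of a clique to a one-row generator, with all negative terms cancelled. -/
theorem att_aa (hq : Generic q) (hde : d < e) {D : ℤ} (hD : 0 ≤ D) :
    Att q x d e k (fun h l => aa q x l h D) =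
      ∑ b ∈ Ico 0 (D + 2 + k + 1), Rh q k D b * (ee x b * aa q x d e (D + 2 + k - b)) +
      ∑ p ∈ (Ico (0 : ℤ) (k + 1)).filter (fun p => (k : ℤ) - D < p),
        q ^ ((k : ℤ) + 1) * qz q (D + 2 * p - k) * Sy q x d e ((k : ℤ) - p + 1) (D + 2 + k) := by
  rw [att_aa0 hq hde]
  set S : ℤ → K := fun p => Sy q x d e ((k : ℤ) - p + 1) (D + 2 + k) with hS
  -- the two ends
  have e1 : ∑ r ∈ range (k + 1), acoef q k D r * (ee x (D + 2 + r) * aa q x d e ((k : ℤ) - r)) =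
      ∑ b ∈ Ico 0 (D + 2 + k + 1), (if D + 2 ≤ b then acoef q k D (b - D - 2).toNat else 0) *
        (ee x b * aa q x d e (D + 2 + k - b)) := by
    symm
    simp only [ite_mul, zero_mul]
    rw [← sum_filter]
    refine sum_bij' (fun b _ => (b - D - 2).toNat) (fun r _ => D + 2 + r) ?_ ?_ ?_ ?_ ?_
    all_goals intro b hb; simp only [mem_filter, mem_Ico, mem_range] at hb ⊢
    all_goals try omega
    rw [show D + 2 + (((b - D - 2).toNat : ℕ) : ℤ) = b by omega,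
      show (k : ℤ) - (((b - D - 2).toNat : ℕ) : ℤ) = D + 2 + k - b by omega]
  -- one end
  have e2 : ∑ r ∈ range (k + 1), q ^ (2 * (k - r)) * Gq q ((r : ℤ) + 1) *
      (ee x ((k : ℤ) - r) * aa q x d e (D + 2 + r)) =
      ∑ b ∈ Ico 0 (D + 2 + k + 1), q ^ (2 * b) * Gq q ((k : ℤ) + 1 - b) *
        (ee x b * aa q x d e (D + 2 + k - b)) := by
    rw [← sum_subset (show Ico (0 : ℤ) (k + 1) ⊆ Ico 0 (D + 2 + k + 1) from
      Ico_subset_Ico_right (by omega))]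
    swap
    · intro b hb hb'
      simp only [mem_Ico] at hb hb'
      rw [Gq_nonpos (show (k : ℤ) + 1 - b ≤ 0 by omega)]
      ring
    refine sum_bij' (fun r _ => (k : ℤ) - r) (fun b _ => ((k : ℤ) - b).toNat) ?_ ?_ ?_ ?_ ?_
    all_goals intro r hr; simp only [mem_Ico, mem_range] at hr ⊢
    all_goals try omega
    rw [show (k : ℤ) + 1 - ((k : ℤ) - r) = r + 1 by ring,
      show D + 2 + (k : ℤ) - ((k : ℤ) - r) = D + 2 + r by ring,
      show 2 * ((k : ℤ) - r) = ((2 * (k - r) : ℕ) : ℤ) by omega, zpow_natCast]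
  -- the negative generators
  have e3 : ∑ p ∈ Ico (0 : ℤ) (k + 1), q ^ ((k : ℤ) + 1) * qz q (D + 2 * p - k) * S p =
      ∑ p ∈ (Ico (0 : ℤ) (k + 1)).filter (fun p => (k : ℤ) - D < p),
        q ^ ((k : ℤ) + 1) * qz q (D + 2 * p - k) * S p -
      ∑ b ∈ Ico 0 (D + 2 + k + 1), q ^ (b + D + 1) * Gq q ((k : ℤ) - D) *
        (ee x b * aa q x d e (D + 2 + k - b)) := by
    set f : ℤ → K := fun p => q ^ ((k : ℤ) + 1) * qz q (D + 2 * p - k) * S p with hf
    rw [← sum_filter_add_sum_filter_not (Ico (0 : ℤ) (k + 1)) (fun p => (k : ℤ) - D < p) f,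
      sub_eq_add_neg (∑ p ∈ (Ico (0 : ℤ) (k + 1)).filter (fun p => (k : ℤ) - D < p), f p)]
    congr 1
    rw [← sum_filter_add_sum_filter_not ((Ico (0 : ℤ) (k + 1)).filter fun p => ¬ (k : ℤ) - D < p)
      (fun p => 2 * p < (k : ℤ) - D) f]
    simp only [filter_filter]
    have hneg : ∀ p : ℤ, f p = -(q ^ (D + 1 + 2 * p) * qz q ((k : ℤ) - D - 2 * p) * S p) := by
      intro p
      have hn := qz_neg hq ((k : ℤ) - D - 2 * p)
      rw [show -((k : ℤ) - D - 2 * p) = D + 2 * p - k by ring] at hn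
      have : q ^ ((k : ℤ) + 1) * q ^ (D + 2 * p - k) = q ^ (D + 1 + 2 * p) := by
        rw [← zpow_add₀ hq.ne]; congr 1; ring
      simp only [hf, hn]
      linear_combination (-(qz q ((k : ℤ) - D - 2 * p) * S p)) * this
    have hpair : ∑ p ∈ (Ico (0 : ℤ) (k + 1)).filter
          (fun p => ¬ (k : ℤ) - D < p ∧ ¬ 2 * p < (k : ℤ) - D), f p =
        ∑ p ∈ (Ico (0 : ℤ) (k + 1)).filter
          (fun p => ¬ (k : ℤ) - D < p ∧ 2 * p < (k : ℤ) - D), f ((k : ℤ) - D - p) := by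
      refine sum_bij_ne_zero (fun p _ _ => (k : ℤ) - D - p) ?_ ?_ ?_ ?_
      · intro p hp hne
        simp only [mem_filter, mem_Ico] at hp ⊢
        have : D + 2 * p - k ≠ 0 := fun c => hne (by simp [hf, c, qz_zero])
        omega
      · intro a _ _ b _ _ h; omega
      · intro p hp hne
        refine ⟨(k : ℤ) - D - p, ?_, hne, by ring⟩
        simp only [mem_filter, mem_Ico] at hp ⊢
        omega
      · intro p _ _
        rw [show (k : ℤ) - D - ((k : ℤ) - D - p) = p by ring]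
    rw [hpair, ← sum_add_distrib]
    have hset : (Ico (0 : ℤ) (k + 1)).filter (fun p => ¬ (k : ℤ) - D < p ∧ 2 * p < (k : ℤ) - D) =
        (Ico (0 : ℤ) ((k + 1 : ℕ) : ℤ)).filter (fun p => 2 * p < (k : ℤ) - D) := by
      ext p; simp only [mem_filter, mem_Ico, Nat.cast_add, Nat.cast_one]; omega
    have hsum : ∀ p : ℤ, f p + f ((k : ℤ) - D - p) =
        -(q ^ (D + 1) * (q ^ (2 * p) * qz q ((k : ℤ) - D - 2 * p) ^ 2) *
          II q x d e (D + 2 + k)) := by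
      intro p
      have hr := Sy_refl (q := q) (x := x) (d := d) (e := e) hq ((k : ℤ) - p + 1) (D + 2 + k)
      rw [show 2 * ((k : ℤ) - p + 1) - (D + 2 + k) = (k : ℤ) - D - 2 * p by ring,
        show D + 2 + (k : ℤ) - ((k : ℤ) - p + 1) = D + p + 1 by ring] at hr
      rw [hneg p]
      simp only [hf, hS]
      rw [show (k : ℤ) - ((k : ℤ) - D - p) + 1 = D + p + 1 by ring,
        show D + 2 * ((k : ℤ) - D - p) - k = (k : ℤ) - D - 2 * p by ring, hr,
        zpow_add₀ hq.ne (D + 1)]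
      have : q ^ (D + 1) * q ^ (2 * p) * q ^ ((k : ℤ) - D - 2 * p) = q ^ ((k : ℤ) + 1) := by
        rw [← zpow_add₀ hq.ne, ← zpow_add₀ hq.ne]; congr 1; ring
      linear_combination (-(qz q ((k : ℤ) - D - 2 * p) * Sy q x d e (D + p + 1) (D + 2 + k))) * this
    rw [sum_congr rfl fun p _ => hsum p, sum_neg_distrib, ← sum_mul, ← mul_sum, hset,
      Gq_sum hq (k + 1) ((k : ℤ) - D) (by omega), II_eq hde, mul_sum]
    congr 1
    refine sum_congr rfl fun b _ => ?_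
    rw [show b + D + 1 = D + 1 + b by ring, zpow_add₀ hq.ne (D + 1)]
    ring
  simp only [Rh, add_mul, sub_mul, sum_add_distrib, sum_sub_distrib]
  linear_combination e1 + e2 + e3

end Vale.Agent.P066.Overlap2
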