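import Vale.Agent.P066.Overlap2.Index

/-! Weighted sums of squares of `q`-integers of one parity. -/

open Finset

noncomputable section

namespace Vale.Agent.P066.Overlap2

variable {K : Type*} [Field K] (q : K)

/-- The closed form of `∑ q^(2p) [n-2p]^2`. -/
def Fh (n : ℤ) : K :=
  (1 - q ^ (2 * n + 2) - ((n : K) + 1) * q ^ n * (1 - q ^ 2)) / ((1 - q) ^ 2 * (1 - q ^ 2))

/-- `∑ q^(2p) [n-2p]^2` over `2p < n`. -/
def Gq (n : ℤ) : K := if n ≤ 0 then 0 else Fh q n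

variable {q}

lemma Generic.one_sub_sq (h : Generic q) : (1 - q ^ 2) ≠ 0 :=
  sub_ne_zero.2 (h.root 2 two_pos).symm

lemma Fh_rec (hq : Generic q) (n : ℤ) : Fh q n = qz q n ^ 2 + q ^ 2 * Fh q (n - 2) := by
  have h1 := hq.sub_ne
  have h2 := hq.one_sub_sq
  simp only [Fh, qz, show 2 * (n - 2) + 2 = 2 * n + 2 - 4 by ring, zpow_sub₀ hq.ne, Int.cast_sub,
    Int.cast_ofNat, show (2 : ℤ) * n = n + n by ring, zpow_add₀ hq.ne]
  field_simp [hq.ne]
  ring

lemma Fh_zero : Fh q 0 = 0 := by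
  simp [Fh]

lemma Fh_neg_one (hq : Generic q) : Fh q (-1) = 0 := by
  simp [Fh]

lemma Fh_refl (hq : Generic q) (n : ℤ) : q ^ (2 * n + 2) * Fh q (-2 - n) = -Fh q n := by
  have h1 := hq.sub_ne
  have h2 := hq.one_sub_sq
  have a1 : q ^ (2 * n + 2) * q ^ (2 * (-2 - n) + 2) = 1 := by
    rw [← zpow_add₀ hq.ne, show 2 * n + 2 + (2 * (-2 - n) + 2) = 0 by ring, zpow_zero]
  have a2 : q ^ (2 * n + 2) * q ^ (-2 - n) = q ^ n := by
    rw [← zpow_add₀ hq.ne]; congr 1; ring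
  simp only [Fh, mul_div_assoc', ← neg_div]
  congr 1
  push_cast
  linear_combination -a1 + ((n : K) + 1) * (1 - q ^ 2) * a2

lemma Gq_nonpos {n : ℤ} (h : n ≤ 0) : Gq q n = 0 := if_pos h

lemma Fh_eq (hq : Generic q) (n : ℤ) : Fh q n = Gq q n - q ^ (2 * n + 2) * Gq q (-2 - n) := by
  rcases lt_trichotomy n (-1) with h | rfl | h
  · rcases eq_or_lt_of_le (show n ≤ -2 by omega) with rfl | h'
    · rw [Gq_nonpos (by norm_num), Gq_nonpos (by norm_num), ← neg_neg (Fh q (-2)),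
        ← Fh_refl hq, show -2 - (-2 : ℤ) = 0 by ring, Fh_zero]
      ring
    · rw [Gq_nonpos (show n ≤ 0 by omega), Gq, if_neg (by omega), Fh_refl hq]; ring
  · rw [Fh_neg_one hq, Gq_nonpos (by norm_num), Gq_nonpos (by norm_num)]; ring
  · rw [Gq_nonpos (show -2 - n ≤ 0 by omega)]
    rcases eq_or_lt_of_le (show 0 ≤ n by omega) with rfl | h'
    · rw [Fh_zero, Gq_nonpos le_rfl]; ring
    · rw [Gq, if_neg (by omega)]; ring

lemma Gq_rec (hq : Generic q) {n : ℤ} (hn : 0 < n) :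
    Gq q n = qz q n ^ 2 + q ^ 2 * Gq q (n - 2) := by
  rw [Gq, if_neg (by omega), Fh_rec hq]
  congr 2
  by_cases h : n - 2 ≤ 0
  · rw [Gq_nonpos h]
    rcases eq_or_lt_of_le h with e | e
    · rw [e, Fh_zero]
    · rw [show n - 2 = -1 by omega, Fh_neg_one hq]
  · rw [Gq, if_neg h]

lemma Gq_sum (hq : Generic q) (M : ℕ) (n : ℤ) (h : n ≤ 2 * M) :
    ∑ p ∈ (Ico (0 : ℤ) M).filter (fun p => 2 * p < n), q ^ (2 * p) * qz q (n - 2 * p) ^ 2 =
      Gq q n := by
  induction M generalizing n with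
  | zero => simp [Gq_nonpos (show n ≤ 0 by simpa using h)]
  | succ M ih =>
    rw [sum_filter, ← range_int, sum_range_succ']
    have := ih (n - 2) (by omega)
    rw [sum_filter, ← range_int] at this
    by_cases hn : 0 < n
    · rw [Gq_rec hq hn, ← this, mul_sum, add_comm (qz q n ^ 2)]
      congr 1
      · refine sum_congr rfl fun r _ => ?_
        rw [show n - 2 * ((r + 1 : ℕ) : ℤ) = n - 2 - 2 * r by push_cast; ring,
          show 2 * ((r + 1 : ℕ) : ℤ) = 2 * r + 2 by push_cast; ring, zpow_add₀ hq.ne]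
        split_ifs <;> first | (exfalso; omega) | (simp only [zpow_ofNat]; ring) | simp
      · simp [hn]
    · rw [Gq_nonpos (by omega), Nat.cast_zero, if_neg (by omega), add_zero]
      exact sum_eq_zero fun r _ => if_neg (by omega)

lemma IsPos.Gq_diff (hq : Generic q) {n δ : ℤ} (hδ : 0 ≤ δ) :
    IsPos q (Gq q n - q ^ δ * Gq q (n - δ)) := by
  obtain ⟨M, hM⟩ : ∃ M : ℕ, n ≤ M := ⟨n.toNat, by omega⟩
  induction M using Nat.strong_induction_on generalizing n with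
  | _ M ih =>
    by_cases hn : n ≤ 0
    · rw [Gq_nonpos hn, Gq_nonpos (show n - δ ≤ 0 by omega), mul_zero, sub_zero]
      exact IsPos.zero
    have hrest : IsPos q (q ^ 2 * (Gq q (n - 2) - q ^ δ * Gq q (n - δ - 2))) := by
      refine (IsPos.pow 2).mul ?_
      rw [show n - δ - 2 = n - 2 - δ by ring]
      rcases le_or_gt (n - 2) 0 with h2 | h2
      · rw [Gq_nonpos h2, Gq_nonpos (show n - 2 - δ ≤ 0 by omega), mul_zero, sub_zero]
        exact IsPos.zero
      · exact ih (M - 2) (by omega) (by omega)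
    rcases le_or_gt (n - δ) 0 with hm | hm
    · rw [Gq_nonpos hm, mul_zero, sub_zero, Gq_rec hq (by omega)]
      rw [Gq_nonpos (show n - δ - 2 ≤ 0 by omega), mul_zero, sub_zero] at hrest
      exact (by rw [sq]; exact (IsPos.qz hq (by omega)).mul (IsPos.qz hq (by omega)) :
        IsPos q (Overlap2.qz q n ^ 2)).add hrest
    · rw [Gq_rec hq (by omega), Gq_rec hq hm]
      have e1 := qz_add hq δ (n - δ)
      have e2 := qz_add hq (n - δ) δ
      rw [show δ + (n - δ) = n by ring] at e1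
      rw [show n - δ + δ = n by ring] at e2
      have key : Overlap2.qz q n ^ 2 + q ^ 2 * Gq q (n - 2) -
          q ^ δ * (Overlap2.qz q (n - δ) ^ 2 + q ^ 2 * Gq q (n - δ - 2)) =
          Overlap2.qz q δ * (Overlap2.qz q n + q ^ n * Overlap2.qz q (n - δ)) +
            q ^ 2 * (Gq q (n - 2) - q ^ δ * Gq q (n - δ - 2)) := by
        rw [show q ^ n = q ^ δ * q ^ (n - δ) by rw [← zpow_add₀ hq.ne]; congr 1; ring]
        linear_combination Overlap2.qz q n * e1 + (q ^ δ * Overlap2.qz q (n - δ)) * e2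
      rw [key]
      exact ((IsPos.qz hq hδ).mul ((IsPos.qz hq (by omega)).add
        ((IsPos.zpow (by omega)).mul (IsPos.qz hq hm.le)))).add hrest

lemma WW_eq (hq : Generic q) (m : ℕ) :
    ∑ p ∈ range (m + 1), qz q ((p : ℤ) + 1) * (q ^ (m - p) * qz q (((m - p : ℕ) : ℤ) + 1)) =
      Gq q ((m : ℤ) + 1) := by
  rw [Gq, if_neg (by omega), Fh, eq_div_iff (mul_ne_zero (pow_ne_zero _ hq.sub_ne) hq.one_sub_sq),
    sum_mul]
  have e : ∀ p ∈ range (m + 1), qz q ((p : ℤ) + 1) *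
      (q ^ (m - p) * qz q (((m - p : ℕ) : ℤ) + 1)) * ((1 - q) ^ 2 * (1 - q ^ 2)) =
      (1 - q ^ 2) * (q ^ (m - p) * (1 + q ^ (m + 2)) - q ^ (m + 1) - q * (q ^ 2) ^ (m - p)) := by
    intro p hp
    have := mem_range.1 hp
    rw [show (p : ℤ) + 1 = ((p + 1 : ℕ) : ℤ) by omega,
      show ((m - p : ℕ) : ℤ) + 1 = ((m - p + 1 : ℕ) : ℤ) by omega]
    simp only [qz, zpow_natCast]
    have hp' : q ^ (p + 1) * q ^ (m - p) = q ^ (m + 1) := by rw [← pow_add]; congr 1; omega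
    have hm : q ^ (m + 2) = q ^ (m + 1) * q := pow_succ _ _
    field_simp [hq.sub_ne]
    linear_combination ((1 - q ^ 2) * (q * q ^ (m - p) - 1)) * hp' -
      ((1 - q ^ 2) * q ^ (m - p)) * hm
  rw [sum_congr rfl e, ← mul_sum, sum_sub_distrib, sum_sub_distrib, ← sum_mul, ← mul_sum, sum_const,
    card_range, nsmul_eq_mul]
  have r1 := sum_range_reflect (fun j => q ^ j) (m + 1)
  have r2 := sum_range_reflect (fun j => (q ^ 2) ^ j) (m + 1)
  simp only [Nat.add_sub_cancel] at r1 r2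
  rw [r1, r2, show 2 * ((m : ℤ) + 1) + 2 = ((2 * m + 4 : ℕ) : ℤ) by omega,
    show (m : ℤ) + 1 = ((m + 1 : ℕ) : ℤ) by omega]
  simp only [zpow_natCast, Int.cast_natCast]
  have g1 := mul_neg_geom_sum q (m + 1)
  have g2 := mul_neg_geom_sum (q ^ 2) (m + 1)
  rw [← pow_mul] at g2
  linear_combination ((1 + q) * (1 + q ^ (m + 2))) * g1 - q * g2

end Vale.Agent.P066.Overlap2
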