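import Vale.Agent.P066.Overlap2.Apply
import Vale.Agent.P066.Overlap2.Squares

/-! The attachment of a clique to a symmetric one-row generator. -/

open Finset

noncomputable section

namespace Vale.Agent.P066.Overlap2

open Vale.Agent.P066.Small

variable {K : Type*} [Field K] {N : ℕ} {q : K} {x : Fin N → K} {d e : Fin N} {k : ℕ}

lemma R2_zero : R2 (fun _ : Fin N => (0 : K)) = 1 := by
  rw [R2, sum_eq_single (∅ : Finset (Fin N))]
  · simp [sg_one]
  · intro t _ ht
    obtain ⟨a, ha⟩ := Finset.nonempty_iff_ne_empty.2 ht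
    rw [prod_eq_zero ha rfl]
    simp [sg]
  · simp

lemma ext_plain1 (u y : Fin N → K) (i : ℤ) (k : ℕ) :
    ext i 0 k (WR y * R1 u) = esZ u i * es y k := by
  have h := ext_plain u (fun _ => (0 : K)) y i 0 k
  rw [R2_zero, mul_one] at h
  rw [h]
  simp [esZ, es_zero]

lemma z_conv (a b : ℕ → K) :
    z1 K * G1 a * G1 b = G1 fun r => ∑ p ∈ range (r + 1), a p * b (r - p) := by
  rw [mul_assoc, G1_mul, z1, ← mul_assoc, mon_mul]
  rw [show (mon (1 + -1) (0 + 0) : SK K) = 1 by simp [mon, sg_one], one_mul]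

lemma emb_mul_G1 (c : K) (a : ℕ → K) : emb c * G1 a = G1 fun r => c * a r := by
  ext n : 1
  simp only [emb_eq, G1, PowerSeries.coeff_C_mul, PowerSeries.coeff_mk, sg_mul, zero_add]

lemma ext_conv (a b : ℕ → K) (u y : Fin N → K) (i : ℤ) (k : ℕ) :
    ext i 0 k (G1 a * G1 b * (WR y * R1 u)) =
      ∑ r ∈ range (k + 1), (∑ p ∈ range (r + 1), a p * b (r - p)) *
        (esZ u (i + 2 + r) * es y (k - r)) := by
  rw [G1_mul, mul_assoc, ext_mon, sub_zero, ← mul_assoc, ext_one]
  refine sum_congr rfl fun r _ => ?_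
  rw [show i - -1 + 1 + (r : ℤ) = i + 2 + r by ring]
  ring

/-- The sum of the jumps between a colour of the state and one of the clique. -/
lemma jumps_Sy (hq : Generic q) (n : ℤ) (m : ℕ) :
    ∑ s ∈ range (m + 1), qn q (s + 1) * q ^ (m - s) *
      (q ^ (s + 1) * (pp q x d (n + s) * pp q x e (m - s : ℕ)) +
        pp q x e (n + s) * pp q x d (m - s : ℕ)) = Sy q x d e ((m : ℤ) + 1) (n + m) :=
  (Sy_of_jumps (q := q) n m).resolve_right hq.ne_one

variable (q k)

/-- The coefficient of the two ends in the closed form. -/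
def acoef (D : ℤ) (r : ℕ) : K :=
  (qz q ((r : ℤ) + 1) * (q ^ (4 + 2 * (k : ℤ)) - q ^ (2 * (D + 2 + r))) -
      (1 + q) * (((r : K) + 1) * q ^ (D + 2 + r + k + 1) -
        q ^ (2 * (D + 2 + r) - r - 1) * ((1 - q ^ (2 * (r : ℤ) + 2)) / (1 - q ^ 2)))) /
    ((1 - q) ^ 2 * (1 + q))

variable {q k}

/-- The attachment to a one-row generator, before reflection. -/
theorem att_aa0 (hq : Generic q) (hde : d < e) (D : ℤ) :
    Att q x d e k (fun h l => aa q x l h D) =
      ∑ r ∈ range (k + 1), acoef q k D r * (ee x (D + 2 + r) * aa q x d e ((k : ℤ) - r)) +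
      ∑ p ∈ Ico (0 : ℤ) (k + 1),
        q ^ ((k : ℤ) + 1) * qz q (D + 2 * p - k) * Sy q x d e ((k : ℤ) - p + 1) (D + 2 + k) +
      ∑ r ∈ range (k + 1), q ^ (2 * (k - r)) * Gq q ((r : ℤ) + 1) *
        (ee x ((k : ℤ) - r) * aa q x d e (D + 2 + r)) := by
  have hden : (1 - q) ^ 2 * (1 + q) ≠ 0 := mul_ne_zero (pow_ne_zero _ hq.sub_ne) hq.add_ne
  apply mul_left_cancel₀ hden
  have hu : IsUnit (PowerSeries.constantCoeff (emb q * z1 K)) := by
    simpa [emb_eq, z1, mon, sg_mul] using unit_sg (K := K) 1 0 hq.ne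
  have M := masterH (q := emb q) (x := fun s => emb (x s)) (w := ww K) (d := d) (e := e)
    (z := z1 K) (i := iv (z1 K)) (j := iv (emb q * z1 K)) (iv_spec z1_unit) (iv_spec hu) hde
  have E := congrArg (ext D 0 k) M
  -- the left side
  have hw : ww K = emb 1 * ww K := by simp
  have hz1 : z1 K = emb 1 * z1 K := by simp
  have hL : ext D 0 k ((1 - emb q) ^ 2 * (1 + emb q) * ∑ l, ∑ h, (if l < h then
      emb (x h) * emb (x l) * al (emb q) d e h * al (emb q) d e l *
        Pz (fun s => emb (x s)) (fun s => cw (emb q) s h * cw (emb q) s l) (z1 K) *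
        Pz (fun s => emb (x s)) (be (emb q) d e h l) (ww K) else 0)) =
      (1 - q) ^ 2 * (1 + q) * Att q x d e k (fun h l => aa q x l h D) := by
    rw [← map_one (emb (K := K)), ← map_sub, ← map_pow, ← map_add, ← map_mul, ext_emb, Att,
      map_sum]
    congr 1
    refine sum_congr rfl fun l _ => ?_
    rw [map_sum]
    refine sum_congr rfl fun h _ => ?_
    split_ifs
    swap
    · simp
    have hb : be (emb q) d e h l = fun s => emb (be q d e h l s) := by
      funext s; simp [be, cw_emb, al_emb]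
    have hc : (fun s => cw (emb q) s h * cw (emb q) s l) = fun s => emb (al q l h s) := by
      funext s; simp [al, cw_emb, mul_comm]
    rw [hb, hc, hw, hz1, Pz_WR, Pz_R1]
    simp only [al_emb, ← map_mul, one_mul]
    rw [mul_assoc, ext_emb, mul_comm (R1 _), ext_plain1, aa]
    ring
  rw [hL] at E
  rw [E]
  -- the geometric series
  have hj : ∀ c : K, iv (emb q * z1 K) (emb c) = G1 fun r => c ^ r / q ^ (r + 1) :=
    fun c => iv_G1 q c hq.ne
  have q2 : emb q * emb q = emb (q * q) := (map_mul _ _ _).symm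
  have q3 : emb (q * q) * emb q = emb (q * q * q) := (map_mul _ _ _).symm
  have q4 : emb q ^ 4 = emb (q ^ 4) := (map_pow _ _ _).symm
  have j1 : iv (emb q * z1 K) 1 = G1 fun r => (1 : K) ^ r / q ^ (r + 1) := by
    rw [← hj, map_one]
  have i1' : iv (z1 K) 1 = G1 fun r => (1 : K) ^ r := by rw [← i1_eq, map_one]
  have e1 : pE (fun s => emb (x s)) (z1 K) = R1 x := by rw [hz1, pE_z1]; simp
  have a0 : Pz (fun s => emb (x s)) (al (emb q) d e) (ww K) = WR fun s => al q d e s * x s := by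
    rw [hw, al_ww]; simp
  have aw : ∀ c : K, Pz (fun s => emb (x s)) (al (emb q) d e) (emb c * ww K) =
      WR fun s => c * (al q d e s * x s) := al_ww
  have az : Pz (fun s => emb (x s)) (al (emb q) d e) (z1 K) = R1 fun s => al q d e s * x s := by
    rw [hz1, show al (emb q) d e = fun s => emb (al q d e s) from funext (al_emb q d e), Pz_R1]
    simp
  have r1 : ∀ a, pr (emb q) (fun s => emb (x s)) a (z1 K) = R1 fun s => cw q s a * x s :=
    fun a => by rw [hz1, pr_z1]; simp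
  have eq' : emb q * (emb q * z1 K) = emb (q * q) * z1 K := by rw [← mul_assoc, q2]
  simp only [Bj, Cj, Jv, q2, q3, q4, eq', hj, j1, i1', i1_eq, e1, a0, aw, az, r1, pE_z1, pE_ww,
    pr_z1, pr_ww]
  set u0 : ℕ → K := fun r => q ^ r with hu0
  -- the five parts
  have t1 : ∀ (c : K) (a b : ℕ → K) (u y : Fin N → K),
      ext D 0 k (emb c * G1 a * G1 b * (R1 u * WR y)) =
      c * ∑ r ∈ range (k + 1), (∑ p ∈ range (r + 1), a p * b (r - p)) *
        (esZ u (D + 2 + r) * es y (k - r)) := by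
    intro c a b u y
    rw [mul_assoc (emb c), mul_assoc (emb c), ext_emb, mul_comm (R1 u), ext_conv]
  set X1 := ext D 0 k (emb (q ^ 4) * G1 (fun r => (q * q * q) ^ r) * G1 (fun r => (q * q) ^ r) *
      (R1 x * WR fun s => q * q * (al q d e s * x s))) with hX1
  set X2 := ext D 0 k (emb 1 * G1 u0 * G1 (fun r => (1 : K) ^ r) *
      (R1 (fun s => q * q * x s) * WR fun s => al q d e s * x s)) with hX2
  set X3 := ext D 0 k (emb (q * q) * G1 u0 * G1 (fun r => (q * q) ^ r / q ^ (r + 1)) *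
      (R1 (fun s => q * x s) * WR fun s => q * (al q d e s * x s))) with hX3
  set X4 := ext D 0 k (emb 1 * G1 u0 * G1 (fun r => (1 : K) ^ r / q ^ (r + 1)) *
      (R1 (fun s => q * q * x s) * WR fun s => al q d e s * x s)) with hX4
  set X5 := ext D 0 k (emb (q * q) * G1 u0 *
        (z1 K * G1 (fun r => q ^ r / q ^ (r + 1)) * G1 (fun r => (q * q) ^ r / q ^ (r + 1))) *
      (R1 (fun s => q * (cw q s d * x s)) * WR fun s => q * (cw q s e * x s))) with hX5
  set X6 := ext D 0 k (emb q * G1 u0 *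
        (z1 K * G1 (fun r => (1 : K) ^ r / q ^ (r + 1)) * G1 (fun r => q ^ r / q ^ (r + 1))) *
      (R1 (fun s => q * (cw q s e * x s)) * WR fun s => q * (cw q s d * x s))) with hX6
  set X7 := ext D 0 k (emb (q * q) * G1 u0 *
        (z1 K * G1 (fun r => (q * q) ^ r) * G1 (fun r => (q * q * q) ^ r)) *
      (R1 (fun s => cw q s d * x s) * WR fun s => q * q * (cw q s e * x s))) with hX7
  set X8 := ext D 0 k (emb q * G1 u0 *
        (z1 K * G1 u0 * G1 (fun r => (q * q) ^ r)) *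
      (R1 (fun s => cw q s e * x s) * WR fun s => q * q * (cw q s d * x s))) with hX8
  set X9 := ext D 0 k (emb 1 * (z1 K * G1 u0 * G1 (fun r => (1 : K) ^ r)) *
        (z1 K * G1 u0 * G1 (fun r => (q * q) ^ r)) *
      (R1 (fun s => al q d e s * x s) * WR fun s => q * q * x s)) with hX9
  have split : ∀ T : SK K, T = emb (q ^ 4) * G1 (fun r => (q * q * q) ^ r) *
        G1 (fun r => (q * q) ^ r) * (R1 x * WR fun s => q * q * (al q d e s * x s)) -
      emb 1 * G1 u0 * G1 (fun r => (1 : K) ^ r) *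
        (R1 (fun s => q * q * x s) * WR fun s => al q d e s * x s) -
      emb (1 + q) * (emb (q * q) * G1 u0 * G1 (fun r => (q * q) ^ r / q ^ (r + 1)) *
          (R1 (fun s => q * x s) * WR fun s => q * (al q d e s * x s)) -
        emb 1 * G1 u0 * G1 (fun r => (1 : K) ^ r / q ^ (r + 1)) *
          (R1 (fun s => q * q * x s) * WR fun s => al q d e s * x s) +
        emb (1 - q) * (emb (q * q) * G1 u0 *
            (z1 K * G1 (fun r => q ^ r / q ^ (r + 1)) * G1 (fun r => (q * q) ^ r / q ^ (r + 1))) *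
            (R1 (fun s => q * (cw q s d * x s)) * WR fun s => q * (cw q s e * x s)) +
          emb q * G1 u0 *
            (z1 K * G1 (fun r => (1 : K) ^ r / q ^ (r + 1)) * G1 (fun r => q ^ r / q ^ (r + 1))) *
            (R1 (fun s => q * (cw q s e * x s)) * WR fun s => q * (cw q s d * x s)))) +
      emb ((1 - q) * (1 + q)) * (emb (q * q) * G1 u0 *
          (z1 K * G1 (fun r => (q * q) ^ r) * G1 (fun r => (q * q * q) ^ r)) *
          (R1 (fun s => cw q s d * x s) * WR fun s => q * q * (cw q s e * x s)) +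
        emb q * G1 u0 * (z1 K * G1 u0 * G1 (fun r => (q * q) ^ r)) *
          (R1 (fun s => cw q s e * x s) * WR fun s => q * q * (cw q s d * x s)) +
        emb (1 - q) * (emb 1 * (z1 K * G1 u0 * G1 (fun r => (1 : K) ^ r)) *
          (z1 K * G1 u0 * G1 (fun r => (q * q) ^ r)) *
          (R1 (fun s => al q d e s * x s) * WR fun s => q * q * x s))) →
      ext D 0 k T = X1 - X2 - (1 + q) * (X3 - X4 + (1 - q) * (X5 + X6)) +
        (1 - q) * (1 + q) * (X7 + X8 + (1 - q) * X9) := by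
    intro T hT
    rw [hT]
    have hm : ∀ f g : SK K, ext D 0 k (f - g) = ext D 0 k f - ext D 0 k g := map_sub _
    have ha : ∀ f g : SK K, ext D 0 k (f + g) = ext D 0 k f + ext D 0 k g := map_add _
    simp only [ha, hm, ext_emb]
    rfl
  rw [split _ (by
    simp only [hu0, map_sub, map_add, map_one, map_mul, map_pow]
    ring)]
  -- the convolutions
  have cz : ∀ c : K, ∀ r : ℕ, ∑ p ∈ range (r + 1), c ^ p * (q * c) ^ (r - p) =
      c ^ r * qz q ((r : ℤ) + 1) := fun c r => by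
    rw [conv_geo, qn_eq_qz hq]; push_cast; rfl
  have c12 : X1 - X2 = ∑ r ∈ range (k + 1), qz q ((r : ℤ) + 1) *
      (q ^ (4 + 2 * (k : ℤ)) - q ^ (2 * (D + 2 + r))) *
      (ee x (D + 2 + r) * aa q x d e ((k : ℤ) - r)) := by
    rw [hX1, hX2, t1, t1, mul_sum, mul_sum, ← sum_sub_distrib]
    refine sum_congr rfl fun r hr => ?_
    have := mem_range.1 hr
    have ca : ∑ p ∈ range (r + 1), (q * q * q) ^ p * (q * q) ^ (r - p) =
        (q * q) ^ r * qz q ((r : ℤ) + 1) := by
      rw [← cz (q * q), ← sum_range_reflect]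
      refine sum_congr rfl fun p hp => ?_
      have := mem_range.1 hp
      rw [show r + 1 - 1 - p = r - p by omega, show r - (r - p) = p by omega]
      ring
    have cb : ∑ p ∈ range (r + 1), u0 p * (1 : K) ^ (r - p) = qz q ((r : ℤ) + 1) := by
      rw [show (r : ℤ) + 1 = ((r + 1 : ℕ) : ℤ) by omega, ← qn_eq_qz hq, qn]
      simp [hu0]
    rw [ca, cb, esZ_smul, es_smul, ee, aa, show (k : ℤ) - r = ((k - r : ℕ) : ℤ) by omega,
      esZ_natCast, mul_zpow, show 4 + 2 * (k : ℤ) = ((4 + 2 * r + 2 * (k - r) : ℕ) : ℤ) by omega,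
      show 2 * (D + 2 + (r : ℤ)) = (D + 2 + r) + (D + 2 + r) by ring, zpow_add₀ hq.ne (D + 2 + r),
      zpow_natCast, pow_add, pow_add, pow_mul, pow_mul]
    ring
  have c34 : X3 - X4 = ∑ r ∈ range (k + 1), (((r : K) + 1) * q ^ (D + 2 + r + k + 1) -
      q ^ (2 * (D + 2 + r) - r - 1) * ((1 - q ^ (2 * (r : ℤ) + 2)) / (1 - q ^ 2))) *
      (ee x (D + 2 + r) * aa q x d e ((k : ℤ) - r)) := by
    rw [hX3, hX4, t1, t1, mul_sum, mul_sum, ← sum_sub_distrib]
    refine sum_congr rfl fun r hr => ?_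
    have := mem_range.1 hr
    have ca : q * q * ∑ p ∈ range (r + 1), u0 p * ((q * q) ^ (r - p) / q ^ (r - p + 1)) =
        ((r : K) + 1) * q ^ (r + 1) := by
      rw [mul_sum, sum_congr rfl (g := fun _ => q ^ (r + 1)), sum_const, card_range, nsmul_eq_mul]
      · push_cast; rfl
      intro p hp
      have := mem_range.1 hp
      simp only [hu0]
      rw [mul_div_assoc', mul_div_assoc', div_eq_iff (pow_ne_zero _ hq.ne), ← sq, ← pow_mul,
        ← pow_add, ← pow_add, ← pow_add]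
      congr 1; omega
    have cb : ∑ p ∈ range (r + 1), u0 p * ((1 : K) ^ (r - p) / q ^ (r - p + 1)) =
        (1 - q ^ (2 * (r : ℤ) + 2)) / (1 - q ^ 2) * q ^ (-((r : ℤ) + 1)) := by
      rw [show 2 * (r : ℤ) + 2 = ((2 * (r + 1) : ℕ) : ℤ) by omega, zpow_natCast, pow_mul,
        ← mul_neg_geom_sum, mul_div_cancel_left₀ _ hq.one_sub_sq, sum_mul]
      refine sum_congr rfl fun p hp => ?_
      have := mem_range.1 hp
      simp only [hu0, one_pow, zpow_neg]
      rw [show (r : ℤ) + 1 = ((r - p + 1 + p : ℕ) : ℤ) by omega, zpow_natCast, pow_add, ← pow_mul,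
        two_mul, pow_add]
      field_simp [hq.ne]
      ring
    rw [← mul_assoc, ca, cb, esZ_smul, esZ_smul, es_smul, ee, aa, one_mul,
      show (k : ℤ) - r = ((k - r : ℕ) : ℤ) by omega, esZ_natCast, mul_zpow,
      show D + 2 + (r : ℤ) + k + 1 = D + 2 + r + (((r + 1) + (k - r) : ℕ) : ℤ) by omega,
      show 2 * (D + 2 + (r : ℤ)) - r - 1 = (D + 2 + r) + ((D + 2 + r) + -((r : ℤ) + 1)) by ring]
    simp only [zpow_add₀ hq.ne, zpow_natCast, pow_add]
    ring
  have t2 : ∀ (c : K) (a b : ℕ → K) (u y : Fin N → K),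
      ext D 0 k (emb c * G1 a * G1 b * (R1 u * WR y)) =
      c * ∑ p ∈ range (k + 1), ∑ s ∈ range (k - p + 1), a p * b s *
        (esZ u (D + 2 + p + s) * es y (k - p - s)) := by
    intro c a b u y
    rw [t1]
    congr 1
    simp only [sum_mul]
    rw [sum_sigma', sum_sigma']
    refine sum_bij' (fun z _ => ⟨z.2, z.1 - z.2⟩) (fun z _ => ⟨z.1 + z.2, z.1⟩) ?_ ?_ ?_ ?_ ?_
    all_goals rintro ⟨u', v'⟩ hz; simp only [mem_sigma, mem_range] at hz ⊢
    · omega
    · omega
    · congr 1; omega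
    · congr 1; omega
    · rw [show D + 2 + (v' : ℤ) + ((u' - v' : ℕ) : ℤ) = D + 2 + u' by omega,
        show k - v' - (u' - v') = k - u' by omega]
  have c56 : X5 + X6 = ∑ p ∈ Ico (0 : ℤ) (k + 1), q ^ (D + 1 + 2 * p) *
      Sy q x d e ((k : ℤ) - p + 1) (D + 2 + k) := by
    rw [hX5, hX6, z_conv, z_conv, t2, t2, mul_sum, mul_sum, ← sum_add_distrib,
      show (k : ℤ) + 1 = ((k + 1 : ℕ) : ℤ) by omega, ← range_int]
    refine sum_congr rfl fun p hp => ?_
    have := mem_range.1 hp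
    rw [show (k : ℤ) - p + 1 = ((k - p : ℕ) : ℤ) + 1 by omega,
      show D + 2 + (k : ℤ) = D + 2 + p + ((k - p : ℕ) : ℤ) by omega, ← jumps_Sy hq, mul_sum, mul_sum,
      mul_sum, ← sum_add_distrib]
    refine sum_congr rfl fun s hs => ?_
    have := mem_range.1 hs
    have cq' : ∑ i ∈ range (s + 1), q ^ i / q ^ (i + 1) * ((q * q) ^ (s - i) / q ^ (s - i + 1)) =
        qn q (s + 1) / q ^ 2 := by
      rw [qn, ← sum_range_reflect (fun i => q ^ i), sum_div]
      refine sum_congr rfl fun i hi => ?_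
      have := mem_range.1 hi
      rw [show s + 1 - 1 - i = s - i by omega, mul_pow, pow_succ, pow_succ]
      field_simp [hq.ne]
    have cp' : ∑ i ∈ range (s + 1), (1 : K) ^ i / q ^ (i + 1) * (q ^ (s - i) / q ^ (s - i + 1)) =
        qn q (s + 1) / q ^ (s + 2) := by
      rw [qn, ← sum_range_reflect (fun i => q ^ i), sum_div]
      refine sum_congr rfl fun i hi => ?_
      have := mem_range.1 hi
      rw [show s + 1 - 1 - i = s - i by omega, show s + 2 = (i + 1) + (s - i + 1) by omega, pow_add,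
        one_pow]
      field_simp [hq.ne]
      ring
    rw [cq', cp', esZ_smul, esZ_smul, es_smul, es_smul, pp, pp, pp, pp,
      esZ_natCast, esZ_natCast, hu0,
      show D + 1 + 2 * (p : ℤ) = (p : ℤ) + (D + 2 + p + s) + (-((s : ℤ) + 1)) by ring,
      show -((s : ℤ) + 1) = -((s + 1 : ℕ) : ℤ) by omega]
    simp only [zpow_add₀ hq.ne, zpow_neg, zpow_natCast, pow_succ]
    field_simp [hq.ne]
  have c78 : X7 + X8 = ∑ p ∈ Ico (0 : ℤ) (k + 1), q ^ ((k : ℤ) + 1) *
      Sy q x d e ((k : ℤ) - p + 1) (D + 2 + k) := by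
    rw [hX7, hX8, z_conv, z_conv, t2, t2, mul_sum, mul_sum, ← sum_add_distrib,
      show (k : ℤ) + 1 = ((k + 1 : ℕ) : ℤ) by omega, ← range_int]
    refine sum_congr rfl fun p hp => ?_
    have := mem_range.1 hp
    rw [show ((k + 1 : ℕ) : ℤ) = (p : ℤ) + (((k - p : ℕ) : ℤ) + 1) by omega,
      show (k : ℤ) - p + 1 = ((k - p : ℕ) : ℤ) + 1 by omega,
      show D + 2 + (k : ℤ) = D + 2 + p + ((k - p : ℕ) : ℤ) by omega, ← jumps_Sy hq, mul_sum, mul_sum,
      mul_sum, ← sum_add_distrib]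
    refine sum_congr rfl fun s hs => ?_
    have := mem_range.1 hs
    have cq' : ∑ i ∈ range (s + 1), (q * q) ^ i * (q * q * q) ^ (s - i) =
        (q * q) ^ s * qn q (s + 1) := by rw [mul_comm (q * q) q]; exact conv_geo (q := q) _ _
    have cp' : ∑ i ∈ range (s + 1), u0 i * (q * q) ^ (s - i) = q ^ s * qn q (s + 1) :=
      conv_geo (q := q) _ _
    rw [cq', cp', es_smul, es_smul, pp, pp, pp, pp, esZ_natCast, esZ_natCast, hu0,
      show (p : ℤ) + (((k - p : ℕ) : ℤ) + 1) = ((p + (s + (k - p - s)) + 1 : ℕ) : ℤ) by omega,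
      zpow_natCast]
    simp only [pow_add, pow_one, mul_pow]
    ring
  have c9 : X9 = ∑ r ∈ range (k + 1), q ^ (2 * (k - r)) * Gq q ((r : ℤ) + 1) *
      (ee x ((k : ℤ) - r) * aa q x d e (D + 2 + r)) := by
    rw [hX9, z_conv, z_conv, t1, one_mul]
    refine sum_congr rfl fun r hr => ?_
    have := mem_range.1 hr
    rw [← WW_eq hq, show (k : ℤ) - r = ((k - r : ℕ) : ℤ) by omega, ee, esZ_natCast, es_smul, aa,
      pow_mul, ← sq, mul_sum, sum_mul, sum_mul]
    refine sum_congr rfl fun p hp => ?_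
    have := mem_range.1 hp
    have ca : ∑ i ∈ range (p + 1), u0 i * (1 : K) ^ (p - i) = qz q ((p : ℤ) + 1) := by
      rw [show (p : ℤ) + 1 = ((p + 1 : ℕ) : ℤ) by omega, ← qn_eq_qz hq, qn]
      simp [hu0]
    have cb : ∑ i ∈ range (r - p + 1), u0 i * (q ^ 2) ^ (r - p - i) =
        q ^ (r - p) * qz q (((r - p : ℕ) : ℤ) + 1) := by
      rw [sq]; exact cz q _
    rw [ca, cb]
    ring
  have fin : (1 - q) ^ 2 * (1 + q) * ∑ r ∈ range (k + 1), acoef q k D r *
      (ee x (D + 2 + r) * aa q x d e ((k : ℤ) - r)) = (X1 - X2) - (1 + q) * (X3 - X4) := by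
    rw [c12, c34, mul_sum, mul_sum, ← sum_sub_distrib]
    refine sum_congr rfl fun r _ => ?_
    rw [acoef, ← mul_assoc, mul_div_cancel₀ _ hden]
    ring
  have mid : (1 - q) ^ 2 * (1 + q) * ∑ p ∈ Ico (0 : ℤ) (k + 1),
      q ^ ((k : ℤ) + 1) * qz q (D + 2 * p - k) * Sy q x d e ((k : ℤ) - p + 1) (D + 2 + k) =
      (1 - q) * (1 + q) * ((X7 + X8) - (X5 + X6)) := by
    rw [c56, c78, ← sum_sub_distrib, mul_sum, mul_sum]
    refine sum_congr rfl fun p _ => ?_
    have hp : q ^ ((k : ℤ) + 1) * q ^ (D + 2 * p - k) = q ^ (D + 1 + 2 * p) := by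
      rw [← zpow_add₀ hq.ne]; congr 1; ring
    have m := one_sub_mul_qz' hq (D + 2 * p - k)
    linear_combination ((1 - q) * (1 + q) * Sy q x d e ((k : ℤ) - p + 1) (D + 2 + k)) *
      (q ^ ((k : ℤ) + 1) * m - hp)
  linear_combination -fin - mid + ((1 - q) ^ 2 * (1 + q)) * c9
where
  one_sub_mul_qz' {K : Type _} [Field K] {q : K} (hq : Generic q) (n : ℤ) :
      (1 - q) * qz q n = 1 - q ^ n := by rw [qz, mul_div_cancel₀ _ hq.sub_ne]

end Vale.Agent.P066.Overlap2
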