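import Mathlib

/-! The scalar identities and the positivity of the coefficients. -/

open Finset Polynomial

noncomputable section

namespace Vale.Agent.P066.Overlap2

variable {K : Type*} [Field K]

/-- The `q`-integer with integer index. -/
def qz (q : K) (n : ℤ) : K := (1 - q ^ n) / (1 - q)

/-- The binomial coefficient `[n, 2]`, zero for `n ≤ 1`. -/
def Cp (q : K) (n : ℤ) : K := if n ≤ 1 then 0 else qz q n * qz q (n - 1) / (1 + q)

/-- Values of polynomials in `q` with natural coefficients. -/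
def IsPos (q : K) (v : K) : Prop := ∃ p : ℕ[X], p.eval₂ (Nat.castRingHom K) q = v

/-- The parameter is not a root of unity and not zero. -/
structure Generic (q : K) : Prop where
  ne : q ≠ 0
  root : ∀ n : ℕ, 0 < n → q ^ n ≠ 1

variable {q : K}

lemma Generic.ne_one (h : Generic q) : q ≠ 1 := fun e => h.root 1 one_pos (by simp [e])

lemma Generic.sub_ne (h : Generic q) : (1 - q) ≠ 0 := sub_ne_zero.2 h.ne_one.symm

lemma Generic.add_ne (h : Generic q) : (1 + q) ≠ 0 := fun e =>
  h.root 2 two_pos (by linear_combination (q - 1) * e)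

namespace IsPos

lemma zero : IsPos q 0 := ⟨0, by simp⟩

lemma one : IsPos q 1 := ⟨1, by simp⟩

lemma add {a b : K} (ha : IsPos q a) (hb : IsPos q b) : IsPos q (a + b) := by
  obtain ⟨p, rfl⟩ := ha; obtain ⟨r, rfl⟩ := hb
  exact ⟨p + r, eval₂_add _ _⟩

lemma mul {a b : K} (ha : IsPos q a) (hb : IsPos q b) : IsPos q (a * b) := by
  obtain ⟨p, rfl⟩ := ha; obtain ⟨r, rfl⟩ := hb
  exact ⟨p * r, eval₂_mul _ _⟩

lemma sum {ι : Type*} (s : Finset ι) {f : ι → K} (h : ∀ i ∈ s, IsPos q (f i)) :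
    IsPos q (∑ i ∈ s, f i) := by
  classical
  induction s using Finset.induction_on with
  | empty => simpa using zero
  | insert i s hi ih =>
    rw [sum_insert hi]
    exact (h i (mem_insert_self i s)).add (ih fun j hj => h j (mem_insert_of_mem hj))

lemma pow (n : ℕ) : IsPos q (q ^ n) := ⟨X ^ n, by simp⟩

lemma zpow {n : ℤ} (h : 0 ≤ n) : IsPos q (q ^ n) := by
  lift n to ℕ using h
  simpa using pow n

lemma qz {n : ℤ} (hq : Generic q) (h : 0 ≤ n) : IsPos q (qz q n) := by
  lift n to ℕ using h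
  refine ⟨∑ i ∈ range n, X ^ i, ?_⟩
  rw [Overlap2.qz, zpow_natCast, eval₂_finsetSum, eq_div_iff hq.sub_ne]
  simpa [mul_comm] using mul_neg_geom_sum q n

end IsPos

lemma qz_add (hq : Generic q) (a b : ℤ) : qz q (a + b) = qz q a + q ^ a * qz q b := by
  simp only [qz, zpow_add₀ hq.ne]
  field_simp [hq.sub_ne]
  ring

lemma qz_neg (hq : Generic q) (n : ℤ) : qz q (-n) = -(q ^ (-n) * qz q n) := by
  have := qz_add hq (-n) n
  rw [neg_add_cancel] at this
  have h0 : qz q (0 : ℤ) = 0 := by simp [qz]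
  linear_combination h0 - this

lemma qz_zero : qz q (0 : ℤ) = 0 := by simp [qz]

lemma IsPos.neg_qz_mul (hq : Generic q) {n : ℤ} (h : n ≤ 0) {e : ℤ} (he : 0 ≤ e + n) :
    IsPos q (-(q ^ e * Overlap2.qz q n)) := by
  have h1 : -(q ^ e * Overlap2.qz q n) = q ^ (e + n) * Overlap2.qz q (-n) := by
    have := qz_neg hq (-n)
    rw [neg_neg] at this
    rw [this, zpow_add₀ hq.ne]
    ring
  rw [h1]
  exact (IsPos.zpow he).mul (IsPos.qz hq (by omega))

lemma Cp_succ (hq : Generic q) {n : ℤ} (hn : 1 ≤ n) :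
    Cp q (n + 1) = Cp q n + q ^ (n - 1) * qz q n := by
  have h1 := hq.sub_ne
  have h2 := hq.add_ne
  rcases eq_or_lt_of_le hn with rfl | hn
  · simp only [Cp, qz]
    norm_num
    field_simp
    ring
  simp only [Cp, qz, if_neg (show ¬ n + 1 ≤ 1 by omega), if_neg (show ¬ n ≤ 1 by omega),
    add_sub_cancel_right, zpow_add₀ hq.ne, zpow_sub₀ hq.ne, zpow_one]
  field_simp [hq.ne]
  ring

lemma IsPos.Cp (hq : Generic q) (n : ℤ) : IsPos q (Cp q n) := by
  by_cases h : n ≤ 1
  · rw [Overlap2.Cp, if_pos h]; exact IsPos.zero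
  refine Int.leInduction (m := 1) (motive := fun n _ => IsPos q (Overlap2.Cp q n)) ?_ ?_ n (by omega)
  · simp [Overlap2.Cp, IsPos.zero]
  · intro m hm ih
    rw [Cp_succ hq hm]
    exact ih.add ((IsPos.zpow (by omega)).mul (IsPos.qz hq (by omega)))

/-- The pairing identity. -/
lemma pair_sum (hq : Generic q) (T : ℤ) (c : ℕ) :
    ∑ j ∈ range c, q ^ ((c : ℤ) - 1 - j) * qz q ((c : ℤ) - j) * qz q (T + 2 - c + 3 * j) =
      qz q (T + 1) * Cp q ((c : ℤ) + 1) := by
  induction c generalizing T with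
  | zero => simp [Cp]
  | succ c ih =>
    rw [sum_range_succ']
    have := ih (T + 2)
    rw [show ((c + 1 : ℕ) : ℤ) + 1 = ((c : ℤ) + 1) + 1 by push_cast; ring,
      Cp_succ hq (by omega : (1 : ℤ) ≤ (c : ℤ) + 1)]
    have e : ∀ j ∈ range c, q ^ ((c + 1 : ℕ) - 1 - ((j + 1 : ℕ) : ℤ) : ℤ) *
        qz q ((c + 1 : ℕ) - ((j + 1 : ℕ) : ℤ)) *
        qz q (T + 2 - (c + 1 : ℕ) + 3 * ((j + 1 : ℕ) : ℤ)) =
        q ^ ((c : ℤ) - 1 - j) * qz q ((c : ℤ) - j) * qz q (T + 2 + 2 - c + 3 * j) := by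
      intro j _
      push_cast
      ring_nf
    rw [sum_congr rfl e, this]
    push_cast
    simp only [mul_zero, sub_zero, add_zero, add_sub_cancel_right]
    have h1 := hq.sub_ne
    have h2 := hq.add_ne
    simp only [Cp]
    split_ifs with h
    · have : c = 0 := by omega
      subst this
      simp only [qz, CharP.cast_eq_zero, zero_add, zpow_zero, zpow_one]
      field_simp
      ring_nf
    · simp only [qz, show T + 2 + 1 = T + 1 + 2 by ring, show T + 2 - ((c : ℤ) + 1) = T + 1 - c by ring,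
        add_sub_cancel_right, zpow_add₀ hq.ne, zpow_sub₀ hq.ne, zpow_one]
      field_simp [hq.ne]
      ring

variable (q)

/-- The reflected main term. -/
def tE (c H N T r : ℤ) : K :=
  q ^ r * qz q (r + 1) * qz q (H + T + 1 - r) * qz q (c + N + T - 2 * r)

/-- The reflected end term. -/
def tF (c H N T j : ℤ) : K :=
  q ^ (N + T + 1 + j) * qz q (c - j) * qz q (j - N) * qz q (H - 2 * j)

/-- Admissible indices of the main term. -/
def okE (H N T c r : ℤ) : Prop := r ≤ H + T ∧ 0 < c + N + T - 2 * r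

/-- Admissible indices of the end term. -/
def okF (H j : ℤ) : Prop := 0 < H - 2 * j

variable {q}

lemma pair_EF (hq : Generic q) (c H N T j : ℤ) :
    tE q c H N T (c - 1 - j) + tF q c H N T j =
      qz q (H + N + T + 2 - c) * (q ^ (c - 1 - j) * qz q (c - j) * qz q (T + 2 - c + 3 * j)) := by
  have h1 := hq.sub_ne
  have h0 := hq.ne
  simp only [tE, tF, qz]
  rw [show c - 1 - j + 1 = c - j by ring,
    show H + T + 1 - (c - 1 - j) = (H - 2 * j) + (T + 2 - c + 3 * j) by ring,
    show c + N + T - 2 * (c - 1 - j) = N + (T + 2 - c + 2 * j) by ring,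
    show N + T + 1 + j = (c - 1 - j) + (N + (T + 2 - c + 2 * j)) by ring,
    show H + N + T + 2 - c = (H - 2 * j) + (N + (T + 2 - c + 2 * j)) by ring,
    show j - N = (T + 2 - c + 3 * j) - (N + (T + 2 - c + 2 * j)) by ring]
  simp only [zpow_add₀ h0, zpow_sub₀ h0]
  field_simp
  ring

open scoped Classical in
/-- The one-sided coefficient after all cancellations. -/
def Sc (q : K) (c H N T : ℤ) : K :=
  (if 0 ≤ T then -(qz q (H + N + T + 2 - c) * (qz q (T + 1) * Cp q (c + 1))) -
      ∑ j ∈ (Ico (-T - 1) c).filter (fun j => j < 0), tF q c H N T j else 0) +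
    ∑ j ∈ (Ico (-T - 1) c).filter (okF H), tF q c H N T j +
    ∑ r ∈ (Ico 0 c).filter (okE H N T c), tE q c H N T r

lemma IsPos.tE' (hq : Generic q) {c H N T r e : ℤ} (hr : 0 ≤ r) (he : 0 ≤ e)
    (h : okE H N T c r) : IsPos q (q ^ e * tE q c H N T r) :=
  (IsPos.zpow he).mul ((((IsPos.zpow hr).mul (IsPos.qz hq (by omega))).mul
    (IsPos.qz hq (by have := h.1; omega))).mul (IsPos.qz hq h.2.le))

lemma IsPos.tF' (hq : Generic q) {c H N T j e : ℤ} (hj : j < c) (hN : N ≤ j) (h : okF H j)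
    (he : 0 ≤ e + (N + T + 1 + j)) : IsPos q (q ^ e * tF q c H N T j) := by
  rw [show q ^ e * Overlap2.tF q c H N T j = q ^ (e + (N + T + 1 + j)) *
    Overlap2.qz q (c - j) * Overlap2.qz q (j - N) * Overlap2.qz q (H - 2 * j) by
      rw [zpow_add₀ hq.ne]; unfold Overlap2.tF; ring]
  exact (((IsPos.zpow he).mul (IsPos.qz hq (by omega))).mul (IsPos.qz hq (by omega))).mul
    (IsPos.qz hq h.le)

lemma IsPos.neg_tF (hq : Generic q) {c H N T j e : ℤ} (hHN : N ≤ H - c) (hj : j < c)
    (h : ¬ okF H j) (he : 0 ≤ e + (N + T + 1 + H - j)) :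
    IsPos q (q ^ e * -(tF q c H N T j)) := by
  unfold okF at h
  have hN : N ≤ j := by omega
  rw [show q ^ e * -(Overlap2.tF q c H N T j) = Overlap2.qz q (c - j) * Overlap2.qz q (j - N) *
    -(q ^ (e + (N + T + 1 + j)) * Overlap2.qz q (H - 2 * j)) by
      rw [zpow_add₀ hq.ne]; unfold Overlap2.tF; ring]
  exact ((IsPos.qz hq (by omega)).mul (IsPos.qz hq (by omega))).mul
    (IsPos.neg_qz_mul hq (by omega) (by omega))

lemma IsPos.neg_tE (hq : Generic q) {c H N T r e : ℤ} (hr : 0 ≤ r) (h1 : r ≤ H + T + 1)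
    (h : ¬ okE H N T c r) (he : 0 ≤ e + (c + N + T - r)) :
    IsPos q (q ^ e * -(tE q c H N T r)) := by
  unfold okE at h
  rw [show q ^ e * -(Overlap2.tE q c H N T r) = Overlap2.qz q (r + 1) *
    (Overlap2.qz q (H + T + 1 - r) * -(q ^ (e + r) * Overlap2.qz q (c + N + T - 2 * r))) by
      rw [zpow_add₀ hq.ne]; unfold Overlap2.tE; ring]
  refine (IsPos.qz hq (by omega)).mul ?_
  rcases eq_or_lt_of_le h1 with e' | e'
  · rw [e', sub_self, qz_zero, zero_mul]; exact IsPos.zero
  · exact (IsPos.qz hq (by omega)).mul (IsPos.neg_qz_mul hq (by omega) (by omega))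

lemma sum_flip (f : ℤ → K) (T c : ℤ) :
    ∑ j ∈ Ico (-T - 1) c, f (c - 1 - j) = ∑ r ∈ Ico 0 (c + T + 1), f r := by
  refine sum_bij' (fun j _ => c - 1 - j) (fun r _ => c - 1 - r) ?_ ?_ ?_ ?_ ?_
  all_goals first | (intro a ha; simp only [mem_Ico] at ha ⊢; omega) | (intro a ha; rfl)

lemma pair_sum_Ico (hq : Generic q) (c H N T a : ℤ) (ha : a ≤ c) :
    ∑ j ∈ Ico a c, (tE q c H N T (c - 1 - j) + tF q c H N T j) =
      qz q (H + N + T + 2 - c) * (qz q (T + 1 + 2 * a) * Cp q (c - a + 1)) := by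
  obtain ⟨m, rfl⟩ : ∃ m : ℕ, c = a + m := ⟨(c - a).toNat, by omega⟩
  have : ∑ j ∈ Ico a (a + m), (tE q (a + m) H N T (a + m - 1 - j) + tF q (a + m) H N T j) =
      ∑ i ∈ range m, (tE q (a + m) H N T (a + m - 1 - (a + i)) + tF q (a + m) H N T (a + i)) := by
    refine sum_bij' (fun j _ => (j - a).toNat) (fun i _ => a + i) ?_ ?_ ?_ ?_ ?_
    all_goals intro x hx; simp only [mem_Ico, mem_range] at hx ⊢
    all_goals try omega
    rw [show a + ((x - a).toNat : ℤ) = x by omega]
  rw [this, sum_congr rfl fun i _ => pair_EF hq _ H N T _, ← mul_sum,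
    show T + 1 + 2 * a = T + 2 * a + 1 by ring, show a + (m : ℤ) - a + 1 = m + 1 by ring,
    ← pair_sum hq (T + 2 * a) m]
  congr 1
  refine sum_congr rfl fun i _ => ?_
  congr 1
  · congr 1
    · congr 1; ring
    · congr 1; ring
  · congr 1; ring

/-- Positivity of the one-sided coefficient. -/
theorem Sc_pos (hq : Generic q) {c H N T e : ℤ} (hHN : N ≤ H - c) (he : 0 ≤ e)
    (heM : 0 ≤ e + (H + N + T + 2 - c))
    (heF : ∀ j, -T - 1 ≤ j → j < c → okF H j → 0 ≤ e + (N + T + 1 + j))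
    (heN : ∀ j, -T - 1 ≤ j → j < c → ¬ okF H j → 0 ≤ e + (N + T + 1 + H - j))
    (heE : ∀ r, 0 ≤ r → r < c → r < c + T + 1 → ¬ okE H N T c r → 0 ≤ e + (c + N + T - r)) :
    IsPos q (q ^ e * Sc q c H N T) := by
  classical
  have negF : ∀ s : Finset ℤ, (∀ j ∈ s, (-T - 1 ≤ j ∧ j < c) ∧ ¬ okF H j) →
      IsPos q (q ^ e * ∑ j ∈ s, -tF q c H N T j) := fun s hs => by
    rw [mul_sum]
    exact IsPos.sum _ fun j hj =>
      IsPos.neg_tF hq hHN (hs j hj).1.2 (hs j hj).2 (heN j (hs j hj).1.1 (hs j hj).1.2 (hs j hj).2)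
  have negE : ∀ s : Finset ℤ, (∀ r ∈ s, (0 ≤ r ∧ r < c ∧ r ≤ H + T + 1 ∧ r < c + T + 1) ∧ ¬ okE H N T c r) →
      IsPos q (q ^ e * ∑ r ∈ s, -tE q c H N T r) := fun s hs => by
    rw [mul_sum]
    exact IsPos.sum _ fun r hr => IsPos.neg_tE hq (hs r hr).1.1 (hs r hr).1.2.2.1 (hs r hr).2
      (heE r (hs r hr).1.1 (hs r hr).1.2.1 (hs r hr).1.2.2.2 (hs r hr).2)
  have posE : ∀ s : Finset ℤ, (∀ r ∈ s, 0 ≤ r ∧ okE H N T c r) →
      IsPos q (q ^ e * ∑ r ∈ s, tE q c H N T r) := fun s hs => by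
    rw [mul_sum]
    exact IsPos.sum _ fun r hr => IsPos.tE' hq (hs r hr).1 he (hs r hr).2
  have posF : ∀ s : Finset ℤ, (∀ j ∈ s, ((-T - 1 ≤ j ∧ j < c) ∧ N ≤ j) ∧ okF H j) →
      IsPos q (q ^ e * ∑ j ∈ s, tF q c H N T j) := fun s hs => by
    rw [mul_sum]
    exact IsPos.sum _ fun j hj => IsPos.tF' hq (hs j hj).1.1.2 (hs j hj).1.2 (hs j hj).2
      (heF j (hs j hj).1.1.1 (hs j hj).1.1.2 (hs j hj).2)
  unfold Overlap2.Sc
  set Fs := Ico (-T - 1) c
  set Es := Ico (0 : ℤ) c
  have mF : ∀ j, j ∈ Fs ↔ -T - 1 ≤ j ∧ j < c := fun j => mem_Ico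
  have mE : ∀ j, j ∈ Es ↔ 0 ≤ j ∧ j < c := fun j => mem_Ico
  have sF := sum_filter_add_sum_filter_not Fs (okF H) (tF q c H N T)
  have sE := sum_filter_add_sum_filter_not Es (okE H N T c) (tE q c H N T)
  by_cases hT : 0 ≤ T
  · rw [if_pos hT]
    by_cases hcM : c ≤ H + T + 1
    · have e1 : qz q (H + N + T + 2 - c) * (qz q (T + 1) * Cp q (c + 1)) =
          ∑ r ∈ Es, tE q c H N T r + ∑ j ∈ Ico 0 c, tF q c H N T j := by
        by_cases hc : 0 ≤ c
        · have := pair_sum_Ico hq c H N T 0 hc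
          have e' := sum_flip (tE q c H N T) (-1) c
          norm_num at e'
          rw [sum_add_distrib, e'] at this
          simpa [Es] using this.symm
        · simp [Es, Finset.Ico_eq_empty_of_le (by omega : c ≤ 0), Overlap2.Cp,
            show c + 1 ≤ 1 by omega]
      have e2 : Fs.filter (fun j => ¬ j < 0) = Ico 0 c := by
        ext j; simp only [mem_filter, mF, mem_Ico]; omega
      have e3 := sum_filter_add_sum_filter_not Fs (fun j => j < 0) (tF q c H N T)
      rw [e2] at e3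
      have p1 := negF (Fs.filter fun j => ¬ okF H j) fun j hj => by
        simpa only [mem_filter, mF] using hj
      have p2 := negE (Es.filter fun r => ¬ okE H N T c r) fun r hr => by
        simp only [mem_filter, mE] at hr
        exact ⟨⟨hr.1.1, hr.1.2, by omega, by omega⟩, hr.2⟩
      convert p1.add p2 using 1
      simp only [sum_neg_distrib]
      linear_combination (q ^ e) * (e3.symm + sF + sE - e1)
    · have hM : IsPos q (q ^ e *
          -(qz q (H + N + T + 2 - c) * (qz q (T + 1) * Cp q (c + 1)))) := by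
        rw [show q ^ e * -(Overlap2.qz q (H + N + T + 2 - c) *
          (Overlap2.qz q (T + 1) * Overlap2.Cp q (c + 1))) =
          -(q ^ e * Overlap2.qz q (H + N + T + 2 - c)) *
          (Overlap2.qz q (T + 1) * Overlap2.Cp q (c + 1)) by ring]
        exact (IsPos.neg_qz_mul hq (by omega) heM).mul
          ((IsPos.qz hq (by omega)).mul (IsPos.Cp hq _))
      have p1 := negF (Fs.filter fun j => j < 0 ∧ ¬ okF H j) fun j hj => by
        simp only [mem_filter, mF] at hj
        exact ⟨hj.1, hj.2.2⟩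
      have p2 := posF (Fs.filter fun j => ¬ j < 0 ∧ okF H j) fun j hj => by
        simp only [mem_filter, mF] at hj
        exact ⟨⟨hj.1, by omega⟩, hj.2.2⟩
      have p3 := posE (Es.filter (okE H N T c)) fun r hr => by
        simp only [mem_filter, mE] at hr
        exact ⟨hr.1.1, hr.2⟩
      convert ((hM.add p1).add p2).add p3 using 1
      have a1 := sum_filter_add_sum_filter_not (Fs.filter fun j => j < 0) (okF H)
        (tF q c H N T)
      have a2 := sum_filter_add_sum_filter_not (Fs.filter (okF H)) (fun j => j < 0)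
        (tF q c H N T)
      simp only [filter_filter] at a1 a2
      rw [filter_congr (q := fun j => j < 0 ∧ okF H j) fun j _ => and_comm] at a2
      rw [filter_congr (q := fun j => ¬ j < 0 ∧ okF H j) fun j _ => and_comm] at a2
      simp only [sum_neg_distrib]
      linear_combination (q ^ e) * (a1 - a2)
  · rw [if_neg hT, zero_add]
    by_cases hj0 : ∀ j ∈ Fs, okF H j → N ≤ j
    · rw [mul_add]
      refine (posF _ fun j hj => ?_).add (posE _ fun r hr => ?_)
      · simp only [mem_filter] at hj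
        exact ⟨⟨(mF j).1 hj.1, hj0 j hj.1 hj.2⟩, hj.2⟩
      · simp only [mem_filter, mE] at hr
        exact ⟨hr.1.1, hr.2⟩
    · push Not at hj0
      obtain ⟨j, hj, -, hjN⟩ := hj0
      rw [mF] at hj
      have e1 := pair_sum_Ico hq c H N T (-T - 1) (by omega)
      rw [sum_add_distrib, sum_flip] at e1
      have e2 : Es.filter (fun r => r < c + T + 1) = Ico 0 (c + T + 1) := by
        ext r; simp only [mem_filter, mE, mem_Ico]; omega
      rw [← e2] at e1
      have a1 := sum_filter_add_sum_filter_not (Es.filter fun r => r < c + T + 1)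
        (okE H N T c) (tE q c H N T)
      have a2 := sum_filter_add_sum_filter_not (Es.filter (okE H N T c))
        (fun r => r < c + T + 1) (tE q c H N T)
      simp only [filter_filter] at a1 a2
      rw [filter_congr (q := fun r => r < c + T + 1 ∧ okE H N T c r) fun r _ => and_comm] at a2
      rw [filter_congr (q := fun r => ¬ r < c + T + 1 ∧ okE H N T c r) fun r _ => and_comm] at a2
      have p1 := negF (Fs.filter fun j => ¬ okF H j) fun j hj => by
        simpa only [mem_filter, mF] using hj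
      have p2 := negE (Es.filter fun r => r < c + T + 1 ∧ ¬ okE H N T c r) fun r hr => by
        simp only [mem_filter, mE] at hr
        exact ⟨⟨hr.1.1, hr.1.2, by omega, hr.2.1⟩, hr.2.2⟩
      have p3 := posE (Es.filter fun r => ¬ r < c + T + 1 ∧ okE H N T c r) fun r hr => by
        simp only [mem_filter, mE] at hr
        exact ⟨hr.1.1, hr.2.2⟩
      have hM : IsPos q (q ^ e * (qz q (H + N + T + 2 - c) *
          (qz q (T + 1 + 2 * (-T - 1)) * Cp q (c - (-T - 1) + 1)))) := by
        have h2 : T + 1 + 2 * (-T - 1) = -T - 1 := by ring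
        rw [h2]
        exact (IsPos.zpow he).mul ((IsPos.qz hq (by omega)).mul
          ((IsPos.qz hq (by omega)).mul (IsPos.Cp hq _)))
      convert ((hM.add p1).add p2).add p3 using 1
      simp only [sum_neg_distrib]
      linear_combination (q ^ e) * (e1 + sF + a1 - a2)

end Vale.Agent.P066.Overlap2
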