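import Vale.Agent.P066.Overlap2.Extract
import Vale.Agent.P066.Overlap2.Scalar

/-! Finite index sets and elementary identities of rows. -/

open Finset

noncomputable section

namespace Vale.Agent.P066.Overlap2

open Vale.Agent.P066.Small

variable {K : Type*} [Field K] {N : ℕ}

/-- The pairs of natural numbers with sum at most `k`, as integers. -/
def tri (k : ℕ) : Finset (ℤ × ℤ) :=
  (Ico (0 : ℤ) (k + 1) ×ˢ Ico (0 : ℤ) (k + 1)).filter fun p => p.1 + p.2 ≤ k

lemma mem_tri {k : ℕ} {p : ℤ × ℤ} : p ∈ tri k ↔ 0 ≤ p.1 ∧ 0 ≤ p.2 ∧ p.1 + p.2 ≤ k := by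
  simp only [tri, mem_filter, mem_product, mem_Ico]
  omega

lemma range_int {M : Type*} [AddCommMonoid M] (n : ℕ) (f : ℤ → M) :
    ∑ r ∈ range n, f r = ∑ r ∈ Ico (0 : ℤ) n, f r := by
  refine sum_bij' (fun r _ => (r : ℤ)) (fun r _ => r.toNat) ?_ ?_ ?_ ?_ ?_
  all_goals intro r hr; simp only [mem_range, mem_Ico] at hr ⊢
  all_goals omega

lemma tri_sum {M : Type*} [AddCommMonoid M] (k : ℕ) (f : ℤ → ℤ → M) :
    ∑ r ∈ range (k + 1), ∑ s ∈ range (k - r + 1), f r s = ∑ p ∈ tri k, f p.1 p.2 := by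
  rw [sum_sigma']
  refine sum_bij' (fun a _ => ((a.1 : ℤ), (a.2 : ℤ))) (fun p _ => ⟨p.1.toNat, p.2.toNat⟩)
    ?_ ?_ ?_ ?_ ?_
  all_goals intro a ha; simp only [mem_sigma, mem_range, mem_tri] at ha ⊢
  · omega
  · omega
  · simp
  · ext <;> simp <;> omega

lemma tri_swap {M : Type*} [AddCommMonoid M] (k : ℕ) (f : ℤ × ℤ → M) :
    ∑ p ∈ tri k, f p.swap = ∑ p ∈ tri k, f p := by
  refine sum_bij' (fun p _ => p.swap) (fun p _ => p.swap) ?_ ?_ ?_ ?_ ?_
  all_goals intro p hp; simp only [mem_tri, Prod.fst_swap, Prod.snd_swap, Prod.swap_swap] at hp ⊢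
  all_goals omega

variable {q : K}

lemma qn_eq_qz (hq : Generic q) (m : ℕ) : qn q m = qz q (m : ℤ) := by
  rw [qz, zpow_natCast, eq_div_iff hq.sub_ne, mul_comm, one_sub_mul_qn]

/-- The weights of the expansion of a generator over the kernel. -/
def uu (q : K) (A j : ℤ) : K := q ^ j * Cp q (A + 1 - j)

lemma uu_of_le {A j : ℤ} (h : A ≤ j) : uu q A j = 0 := by
  rw [uu, Cp, if_pos (by omega), mul_zero]

lemma Cp_diff (hq : Generic q) (n : ℤ) :
    Cp q (n + 1) - Cp q n = if 0 < n then q ^ (n - 1) * qz q n else 0 := by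
  split_ifs with h
  · rw [Cp_succ hq (by omega)]; ring
  · simp only [Cp, if_pos (show n + 1 ≤ 1 by omega), if_pos (show n ≤ 1 by omega), sub_zero]

lemma Cp_succ' (hq : Generic q) {n : ℤ} (hn : 1 ≤ n) :
    Cp q (n + 1) = qz q n + q ^ 2 * Cp q n := by
  have h1 := hq.sub_ne
  have h2 := hq.add_ne
  rcases eq_or_lt_of_le hn with rfl | hn
  · simp only [Cp, qz]
    norm_num
    field_simp
    ring
  simp only [Cp, qz, if_neg (show ¬ n + 1 ≤ 1 by omega), if_neg (show ¬ n ≤ 1 by omega),
    add_sub_cancel_right, zpow_add₀ hq.ne, zpow_sub₀ hq.ne, zpow_one]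
  field_simp [hq.ne]
  ring

lemma uu_sub_q (hq : Generic q) {A l : ℤ} (hl : l < A) :
    uu q A l - q * uu q A (l + 1) = q ^ l * qz q (A - l) := by
  rw [uu, uu, show A + 1 - l = A - l + 1 by ring, show A + 1 - (l + 1) = A - l by ring,
    Cp_succ' hq (by omega), zpow_add_one₀ hq.ne]
  ring

lemma q_uu_sub (hq : Generic q) {A l : ℤ} (hl : l < A) :
    q * uu q A l - uu q A (l + 1) = q ^ A * qz q (A - l) := by
  rw [uu, uu, show A + 1 - l = A - l + 1 by ring, show A + 1 - (l + 1) = A - l by ring,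
    Cp_succ hq (by omega), zpow_add_one₀ hq.ne, show q ^ A = q ^ l * q * q ^ (A - l - 1) by
      rw [← zpow_add_one₀ hq.ne, ← zpow_add₀ hq.ne]; congr 1; ring]
  ring

lemma sum_pred (f : ℤ → K) {a b : ℤ} (hab : a ≤ b) :
    ∑ j ∈ Ico a b, f (j - 1) = ∑ j ∈ Ico a b, f j + f (a - 1) - f (b - 1) := by
  obtain ⟨m, rfl⟩ : ∃ m : ℕ, b = a + m := ⟨(b - a).toNat, by omega⟩
  clear hab
  induction m with
  | zero => simp
  | succ m ih =>
    have h : Ico a (a + ((m + 1 : ℕ) : ℤ)) = insert (a + (m : ℤ)) (Ico a (a + (m : ℤ))) := by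
      ext x; simp only [mem_Ico, mem_insert]; omega
    rw [h, sum_insert (by simp), sum_insert (by simp), ih,
      show a + ((m + 1 : ℕ) : ℤ) - 1 = a + (m : ℤ) by push_cast; ring]
    ring

/-- A weighted sum telescopes against the weights `uu`. -/
lemma tele_uu (g : ℤ → K) (α β : K) {A a : ℤ} (ha : a ≤ A) (h0 : g (a - 1) = 0) :
    ∑ j ∈ Ico a A, uu q A j * (α * g j - β * g (j - 1)) =
      ∑ l ∈ Ico a A, (α * uu q A l - β * uu q A (l + 1)) * g l := by
  have h := sum_pred (fun j => uu q A (j + 1) * g j) ha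
  simp only [sub_add_cancel, h0, mul_zero, add_zero, uu_of_le le_rfl, zero_mul, sub_zero] at h
  calc _ = α * ∑ j ∈ Ico a A, uu q A j * g j - β * ∑ j ∈ Ico a A, uu q A j * g (j - 1) := by
        rw [mul_sum, mul_sum, ← sum_sub_distrib]
        exact sum_congr rfl fun j _ => by ring
    _ = _ := by
        rw [h, mul_sum, mul_sum, ← sum_sub_distrib]
        exact sum_congr rfl fun j _ => by ring

variable {x : Fin N → K} {d e : Fin N}

lemma esZ_neg {u : Fin N → K} {n : ℤ} (h : n < 0) : esZ u n = 0 := if_pos h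

lemma pp_neg {a : Fin N} {n : ℤ} (h : n < 0) : pp q x a n = 0 := esZ_neg h

lemma ee_neg {n : ℤ} (h : n < 0) : ee x n = 0 := esZ_neg h

lemma aa_neg {n : ℤ} (h : n < 0) : aa q x d e n = 0 := esZ_neg h

lemma Sy_nonpos {A D : ℤ} (h : A ≤ 0) : Sy q x d e A D = 0 := by
  rw [Sy, Finset.Ico_eq_empty_of_le h, sum_empty]

lemma Sy_neg {A D : ℤ} (h : D < 0) : Sy q x d e A D = 0 :=
  sum_eq_zero fun l hl => by
    have := (mem_Ico.1 hl).1
    rw [pp_neg (n := D - l) (by omega), pp_neg (n := D - l) (by omega)]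
    ring

lemma Sy_eq_qz {A D : ℤ} : Sy q x d e A D = ∑ l ∈ Ico 0 A, qz q (A - l) *
    (q ^ l * (pp q x e (D - l) * pp q x d l) + q ^ A * (pp q x e l * pp q x d (D - l))) := rfl

/-- A shifted generator. -/
lemma Sy_shift (A D : ℤ) {sh a : ℤ} (ha : a + sh ≤ 0) :
    ∑ l ∈ Ico a A, qz q (A - l) * (q ^ (l + sh) * (pp q x e (D - sh - l) * pp q x d (l + sh)) +
      q ^ (A + sh) * (pp q x e (l + sh) * pp q x d (D - sh - l))) =
      Sy q x d e (A + sh) D := by
  rw [Sy_eq_qz, sum_subset (show Ico (0 : ℤ) (A + sh) ⊆ Ico (a + sh) (A + sh) from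
    Ico_subset_Ico_left ha)]
  · refine sum_bij' (fun l _ => l + sh) (fun l _ => l - sh) ?_ ?_ ?_ ?_ ?_
    all_goals intro l hl; simp only [mem_Ico] at hl ⊢
    all_goals try omega
    rw [show A + sh - (l + sh) = A - l by ring, show D - (l + sh) = D - sh - l by ring]
  · intro l hl hl'
    simp only [mem_Ico] at hl hl'
    rw [pp_neg (n := l) (by omega), pp_neg (n := l) (by omega)]
    ring

/-- The one-row sum in the reflection. -/
def II (q : K) (x : Fin N → K) (d e : Fin N) (D : ℤ) : K :=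
  ∑ l ∈ Ico 0 (D + 1), q ^ l * (pp q x e (D - l) * pp q x d l)

/-- Reflection of a symmetric generator. -/
theorem Sy_refl (hq : Generic q) (A D : ℤ) :
    Sy q x d e A D = q ^ (2 * A - D) * Sy q x d e (D - A) D + qz q (2 * A - D) * II q x d e D := by
  have hw : ∀ B : ℤ, Sy q x d e B D = ∑ l ∈ Ico 0 (D + 1),
      ((if l < B then q ^ l * qz q (B - l) else 0) +
        (if D - l < B then q ^ B * qz q (B - (D - l)) else 0)) *
        (pp q x e (D - l) * pp q x d l) := by
    intro B
    simp only [Sy_eq_qz, mul_add, add_mul, sum_add_distrib, ite_mul, zero_mul]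
    congr 1
    · rw [← sum_filter]
      symm
      refine sum_bij_ne_zero (fun l _ _ => l) ?_ ?_ ?_ ?_
      · intro l hl _; simp only [mem_filter, mem_Ico] at hl ⊢; omega
      · intro a _ _ b _ _ h; exact h
      · intro l hl hne
        refine ⟨l, ?_, ?_, rfl⟩
        · simp only [mem_filter, mem_Ico] at hl ⊢
          refine ⟨⟨hl.1, ?_⟩, hl.2⟩
          by_contra h
          exact hne (by rw [pp_neg (n := D - l) (by omega)]; ring)
        · intro h; exact hne (by rw [← h]; ring)
      · intro l _ _; ring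
    · rw [← sum_filter]
      symm
      refine sum_bij_ne_zero (fun l _ _ => D - l) ?_ ?_ ?_ ?_
      · intro l hl _; simp only [mem_filter, mem_Ico] at hl ⊢; omega
      · intro a _ _ b _ _ h; omega
      · intro l hl hne
        have hl' : l ≤ D := by
          by_contra h
          exact hne (by rw [pp_neg (n := D - l) (by omega)]; ring)
        refine ⟨D - l, ?_, ?_, by ring⟩
        · simp only [mem_filter, mem_Ico] at hl ⊢; omega
        · intro h; apply hne; rw [← h, show D - (D - l) = l by ring]; ring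
      · intro l _ _; rw [show D - (D - l) = l by ring]; ring
  rw [hw A, hw (D - A), II, mul_sum, mul_sum, ← sum_add_distrib]
  refine sum_congr rfl fun l _ => ?_
  have h := hq.sub_ne
  have hb := hq.ne
  have e1 : (if l < A then q ^ l * qz q (A - l) else 0) -
      q ^ (2 * A - D) * (if D - l < D - A then q ^ (D - A) * qz q (D - A - (D - l)) else 0) =
      q ^ l * qz q (A - l) := by
    rcases lt_trichotomy l A with h' | rfl | h'
    · rw [if_pos h', if_neg (by omega), mul_zero, sub_zero]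
    · simp [qz_zero]
    · rw [if_neg (by omega), if_pos (by omega), show A - l = -(l - A) by ring, qz_neg hq,
        show D - A - (D - l) = l - A by ring, ← mul_assoc, ← zpow_add₀ hb,
        show 2 * A - D + (D - A) = A by ring,
        show q ^ A = q ^ l * q ^ (-(l - A)) by rw [← zpow_add₀ hb]; congr 1; ring]
      ring
  have e2 : (if D - l < A then q ^ A * qz q (A - (D - l)) else 0) -
      q ^ (2 * A - D) * (if l < D - A then q ^ l * qz q (D - A - l) else 0) =
      q ^ A * qz q (A - (D - l)) := by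
    rcases lt_trichotomy (D - l) A with h' | h' | h'
    · rw [if_pos h', if_neg (by omega), mul_zero, sub_zero]
    · rw [h', if_neg (lt_irrefl _), if_neg (by omega), sub_self, qz_zero]; ring
    · rw [if_neg (by omega), if_pos (by omega), show A - (D - l) = -(D - A - l) by ring, qz_neg hq,
        ← mul_assoc, ← zpow_add₀ hb,
        show q ^ (2 * A - D + l) = q ^ A * q ^ (-(D - A - l)) by
          rw [← zpow_add₀ hb]; congr 1; ring]
      ring
  have e3 : q ^ l * qz q (A - l) + q ^ A * qz q (A - (D - l)) = q ^ l * qz q (2 * A - D) := by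
    rw [show 2 * A - D = A - l + (A - (D - l)) by ring, qz_add hq (A - l),
      show q ^ A = q ^ l * q ^ (A - l) by rw [← zpow_add₀ hb]; congr 1; ring]
    ring
  linear_combination (pp q x e (D - l) * pp q x d l) * (e1 + e2 + e3)

end Vale.Agent.P066.Overlap2
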