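import Vale.Agent.P066.Overlap2.Regroup
import Vale.Agent.P066.Overlap2.HPos
import Vale.Agent.P066.Small.Cones

/-! Sums over two marks of the generators, in a field. -/

open Finset

noncomputable section

namespace Vale.Agent.P066.Overlap2

open Vale.Agent.P066.Small

variable {K : Type*} [Field K] {N : ℕ} {q : K} {x : Fin N → K} {d e : Fin N} {k : ℕ}

lemma sum_marks (F W : Fin N → Fin N → K) (h0 : ∀ a, F a a = 0) (hW : ∀ a b, W a b = W b a) :
    ∑ a, ∑ b, F a b * W a b = ∑ l, ∑ h, (if l < h then (F h l + F l h) * W h l else 0) := by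
  have e : ∀ a b : Fin N, F a b * W a b =
      (if a < b then F a b * W b a else 0) + (if b < a then F a b * W a b else 0) := by
    intro a b
    rcases lt_trichotomy a b with h | rfl | h
    · rw [if_pos h, if_neg (lt_asymm h), add_zero, hW]
    · simp [h0]
    · rw [if_neg (lt_asymm h), if_pos h, zero_add]
  simp only [sum_congr rfl fun a _ => sum_congr rfl fun b _ => e a b, sum_add_distrib]
  rw [add_comm, sum_comm (f := fun a b => if b < a then F a b * W a b else 0), ← sum_add_distrib]
  refine sum_congr rfl fun l _ => ?_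
  rw [← sum_add_distrib]
  refine sum_congr rfl fun h _ => ?_
  split_ifs <;> ring

lemma al_swap (s : Fin N) : al q d e s = al q e d s := mul_comm _ _

lemma Att_swap (f : Fin N → Fin N → K) : Att q x d e k f = Att q x e d k f := by
  simp only [Att, be, al_swap (d := d)]

lemma Att_congr {f f' : Fin N → Fin N → K} (h : ∀ a b, b < a → f a b = f' a b) :
    Att q x d e k f = Att q x d e k f' := by
  refine sum_congr rfl fun l _ => sum_congr rfl fun a _ => ?_
  by_cases hl : l < a
  · rw [if_pos hl, if_pos hl, h a l hl]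
  · rw [if_neg hl, if_neg hl]

lemma Att_add (f f' : Fin N → Fin N → K) :
    Att q x d e k (fun a b => f a b + f' a b) = Att q x d e k f + Att q x d e k f' := by
  simp only [Att, ← sum_add_distrib]
  refine sum_congr rfl fun l _ => sum_congr rfl fun a _ => ?_
  split_ifs <;> ring

lemma Att_smul (c : K) (f : Fin N → Fin N → K) :
    Att q x d e k (fun a b => c * f a b) = c * Att q x d e k f := by
  simp only [Att, mul_sum]
  refine sum_congr rfl fun l _ => sum_congr rfl fun a _ => ?_
  split_ifs <;> ring

/-- Sum over two marks of a kernel vanishing on the diagonal. -/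
lemma Att_eq (F : Fin N → Fin N → K) (f : Fin N → Fin N → K) (h0 : ∀ a, F a a = 0)
    (hF : ∀ h l, l < h → F h l + F l h = x h * x l * f h l) :
    ∑ a, ∑ b, F a b * (al q d e a * al q d e b * es (fun s => be q d e a b s * x s) k) =
      Att q x d e k f := by
  rw [sum_marks F _ h0 fun a b => by
    rw [mul_comm (al q d e a), show (fun s => be q d e a b s * x s) = fun s => be q d e b a s * x s
      from funext fun s => by simp only [be]; ring]]
  refine sum_congr rfl fun l _ => sum_congr rfl fun h _ => ?_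
  by_cases hl : l < h
  · rw [if_pos hl, if_pos hl, hF h l hl]; ring
  · rw [if_neg hl, if_neg hl]

lemma p1_eq_pp (m : ℕ) (a : Fin N) : p1 q x m a = pp q x a m := by
  rw [pp, esZ_natCast, p1]

lemma GG_pos (hq : Generic q) {A B D : ℕ} (hA : A ≤ D + 1) (hB : B ≤ D + 1) (a b : Fin N)
    (hab : a ≠ b) : GG q x A B D a b = x a * x b *
      (∑ l ∈ Ico (0 : ℤ) A, qz q ((A : ℤ) - l) *
          ((if a < b then q ^ ((B : ℤ) + 1) else q ^ l) * (pp q x a (D - l) * pp q x b l)) +
        ∑ l ∈ Ico (0 : ℤ) B, qz q ((B : ℤ) - l) *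
          ((if a < b then q ^ (l + 1) else q ^ (A : ℤ)) * (pp q x a l * pp q x b (D - l)))) := by
  rw [GG, ← range_int, ← range_int]
  congr 2
  all_goals refine sum_congr rfl fun l hl => ?_
  all_goals have := mem_range.1 hl
  · simp only [wo, sel, if_neg hab]
    rw [p1_eq_pp, p1_eq_pp, qn_eq_qz hq, show ((A - l : ℕ) : ℤ) = A - l by omega,
      show ((D - l : ℕ) : ℤ) = D - l by omega]
    split_ifs <;> simp only [← zpow_natCast, Nat.cast_add, Nat.cast_one] <;> ring
  · simp only [wy, sel, if_neg hab]
    rw [p1_eq_pp, p1_eq_pp, qn_eq_qz hq, show ((B - l : ℕ) : ℤ) = B - l by omega,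
      show ((D - l : ℕ) : ℤ) = D - l by omega]
    split_ifs <;> simp only [← zpow_natCast, Nat.cast_add, Nat.cast_one] <;> ring

lemma GG_sym (hq : Generic q) {A B D : ℕ} (hAB : A = B ∨ A = B + 1) (hA : A ≤ D + 1)
    {h l : Fin N} (hl : l < h) :
    GG q x A B D h l + GG q x A B D l h =
      x h * x l * (Sy q x l h A D + q * Sy q x l h B D) := by
  rw [GG_pos hq hA (by omega) h l hl.ne', GG_pos hq hA (by omega) l h hl.ne]
  simp only [if_pos hl, if_neg (lt_asymm hl), Sy_eq_qz, mul_sum, mul_add, ← sum_add_distrib,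
    zpow_add_one₀ hq.ne]
  rcases hAB with rfl | rfl
  · simp only [← sum_add_distrib]
    exact sum_congr rfl fun l _ => by ring
  · have hc : ((B + 1 : ℕ) : ℤ) = (B : ℤ) + 1 := by push_cast; ring
    simp only [hc, zpow_add_one₀ hq.ne, sum_add_distrib]
    rw [add_add_add_comm]
    refine congrArg₂ (· + ·) ?_ ?_
    all_goals rw [← sum_add_distrib, ← sum_add_distrib]
    all_goals exact sum_congr rfl fun l _ => by ring

lemma GG_Sy (hq : Generic q) {A D : ℕ} (hA : A ≤ D + 1) (a b : Fin N) :
    GG q x A A D a b = cw q a b * (x a * x b * Sy q x (min a b) (max a b) A D) := by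
  rcases lt_trichotomy a b with h | rfl | h
  · rw [GG_pos hq hA hA a b h.ne, cw_lt q h, min_eq_left h.le, max_eq_right h.le, Sy_eq_qz]
    simp only [if_pos h, mul_sum, mul_add, ← sum_add_distrib, zpow_add_one₀ hq.ne]
    exact sum_congr rfl fun l _ => by ring
  · simp [GG, cw_self, wo, wy, sel]
  · rw [GG_pos hq hA hA a b h.ne', cw_gt q h, min_eq_right h.le, max_eq_left h.le, Sy_eq_qz]
    simp only [if_neg (lt_asymm h), mul_sum, mul_add, ← sum_add_distrib]
    exact sum_congr rfl fun l _ => by ring

lemma HH_aa (D : ℕ) (a b : Fin N) :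
    HH q x D a b = cw q a b * (x a * x b * aa q x (min a b) (max a b) D) := by
  rw [HH, aa, esZ_natCast]
  congr 3
  funext s
  rcases le_total a b with h | h
  · rw [min_eq_left h, max_eq_right h, al]; ring
  · rw [min_eq_right h, max_eq_left h, al]; ring

lemma HH_sym (D : ℕ) {h l : Fin N} (hl : l < h) :
    HH q x D h l + HH q x D l h = x h * x l * ((1 + q) * aa q x l h D) := by
  rw [HH_aa, HH_aa, cw_gt q hl, cw_lt q hl, min_eq_right hl.le, max_eq_left hl.le,
    min_eq_left hl.le, max_eq_right hl.le]
  ring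

end Vale.Agent.P066.Overlap2
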