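import Vale.Agent.P066.Overlap2.Steps

/-! The sum over two marks attached to a clique with two new marks, in product form. -/

open Finset

noncomputable section

namespace Vale.Agent.P066.Overlap2

open Vale.Agent.P066.Small

variable {S : Type*} [CommRing S] {N : ℕ} (q : S) (x : Fin N → S)

/-- The row of a colour. -/
def pr (a : Fin N) (z : S) : S := Pz x (fun s => cw q s a) z

/-- The elementary generating product. -/
def pE (z : S) : S := Pz x (fun _ => 1) z

/-- The jump product at the mark `m` with the boundary row `m'`. -/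
def Jv (z v : S) (m m' : Fin N) : S := pr q x m z * pr q x m' v

variable {q} {x} {w : S} {d e : Fin N}

lemma Pcut_one_mul (u : Fin N → S) (L H z : S) :
    Pcut x u L H z 0 = Pz x u (H * z) := by rw [Pcut_zero, Pz_mul]

/-- The sum over the smaller colour below the smaller mark. -/
lemma sumC_low {z η : S} {j : S → S} (hj : ∀ c, (η * z - c * w) * j c = 1) {u : Fin N → S}
    (hde : d < e) (hu : ∀ l, l < d → u l = η) :
    (1 - q) * ∑ l, (if l < d then al q d e l * x l * Pz x (fun s => cw q s l * u s) z *
        Pz x (fun s => q * cw q s e * cw q l s) w else 0) =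
      q * q * j (q * q) * (Pz x u z * pr q x e (q * q * w) - T3 q x z w u e d) := by
  rw [mul_sum]
  have h : ∀ l : Fin N, (1 - q) * (if l < d then al q d e l * x l *
      Pz x (fun s => cw q s l * u s) z * Pz x (fun s => q * cw q s e * cw q l s) w else 0) =
      q * q * j (q * q) * (if 0 ≤ (l : ℕ) ∧ (l : ℕ) < d then
        T3 q x z w u e l - T3 q x z w u e ((l : ℕ) + 1) else 0) := by
    intro l
    by_cases hl : l < d
    · rw [if_pos hl, if_pos ⟨Nat.zero_le _, hl⟩, sumC hj (fun s => rfl) hu l hl, al_low q hde hl]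
    · rw [if_neg hl, if_neg fun a => hl a.2, mul_zero, mul_zero]
  rw [sum_congr rfl fun l _ => h l, ← mul_sum, tel (T3 q x z w u e) 0 d (Nat.zero_le _) d.isLt.le]
  simp only [T3, Pcut_one_mul, one_mul, Pz_mul, pr, mul_assoc]

/-- The sum over the smaller colour below the larger mark. -/
lemma sumC_high {z η : S} {j : S → S} (hj : ∀ c, (η * z - c * w) * j c = 1) {u : Fin N → S}
    (hde : d < e) (hu : ∀ l, l < e → u l = η) :
    (1 - q) * ∑ l, (if l < e then al q d e l * x l * Pz x (fun s => cw q s l * u s) z *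
        Pz x (fun s => q * cw q s d * cw q l s) w else 0) =
      q * q * j (q * q) * (Pz x u z * pr q x d (q * q * w)) +
        (1 - q) * (q * (η * z) * j q * j (q * q) * Pz x (fun s => cw q s d * u s) z *
          pE x (q * q * w)) -
        q * j q * T3 q x z w u d e := by
  rw [mul_sum]
  have hd : (d : ℕ) < e := hde
  have h : ∀ l : Fin N, (1 - q) * (if l < e then al q d e l * x l *
      Pz x (fun s => cw q s l * u s) z * Pz x (fun s => q * cw q s d * cw q l s) w else 0) =
      q * q * j (q * q) * (if 0 ≤ (l : ℕ) ∧ (l : ℕ) < d then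
        T3 q x z w u d l - T3 q x z w u d ((l : ℕ) + 1) else 0) +
      q * j q * (if (d : ℕ) + 1 ≤ (l : ℕ) ∧ (l : ℕ) < e then
        T3 q x z w u d l - T3 q x z w u d ((l : ℕ) + 1) else 0) := by
    intro l
    by_cases hl : l < e
    · have hl' : (l : ℕ) < e := hl
      rw [if_pos hl, sumC hj (fun s => mul_comm _ _) hu l hl]
      rcases lt_trichotomy l d with a | a | a
      · rw [al_low q hde a, if_pos ⟨Nat.zero_le _, a⟩, if_neg (fun b => ?_), mul_zero, add_zero]
        have : (l : ℕ) < d := a
        omega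
      · subst a
        rw [al_self_left, if_neg (fun b => lt_irrefl _ b.2), if_neg (fun b => ?_)]
        · ring
        · omega
      · have : (d : ℕ) < l := a
        rw [al_mid q a hl, if_neg (fun b => ?_), if_pos ⟨this, hl'⟩, mul_zero, zero_add]
        omega
    · have hl' : ¬ (l : ℕ) < e := hl
      rw [if_neg hl, if_neg (fun b => ?_), if_neg (fun b => hl' b.2)]
      · ring
      · omega
  rw [sum_congr rfl fun l _ => h l, sum_add_distrib, ← mul_sum, ← mul_sum,
    tel (T3 q x z w u d) 0 d (Nat.zero_le _) d.isLt.le,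
    tel (T3 q x z w u d) ((d : ℕ) + 1) e hd e.isLt.le]
  have hP := Pcut_self x u (fun s => cw q s d * u s) q 1 z d (by simp [cw_self])
    (fun s a => by simp [cw_lt q a]) (fun s a => by simp [cw_gt q a])
  have hQ := Pcut_self x (fun s => q * cw q s d) (fun s => q * cw q s d * cw q d s) 1 q w d
    (by simp [cw_self]) (fun s a => by simp [cw_gt q a]) (fun s a => by simp [cw_lt q a]; ring)
  have hsp : pE x (q * q * w) =
      (1 + q * q * x d * w) * Pz x (fun s => q * cw q s d * cw q d s) w := by
    rw [pE, ← Pz_mul, Pz_split x _ (fun s => q * cw q s d * cw q d s) w d (by simp [cw_self])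
      fun s hs => ?_]
    · ring
    · linear_combination q * cw_mul_rev q hs
  have h0 : T3 q x z w u d 0 = Pz x u z * pr q x d (q * q * w) := by
    simp only [T3, Pcut_one_mul, one_mul, Pz_mul, pr, mul_assoc]
  rw [← h0]
  simp only [T3, hP.1, hP.2, hQ.1, hQ.2, hsp, hu d hde, cw_self]
  linear_combination
    (-(q * j q * (1 + q * η * x d * z) * Pz x (fun s => cw q s d * u s) z *
        Pz x (fun s => q * cw q s d * cw q d s) w)) * hj (q * q) +
      (q * q * j (q * q) * (1 + η * x d * z) * Pz x (fun s => cw q s d * u s) z *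
        Pz x (fun s => q * cw q s d * cw q d s) w) * hj q

/-- The kernel of a two-row generator. -/
def NN (q : S) (x : Fin N → S) (z1 z2 : S) (h l : Fin N) : S :=
  (z1 - q * z2) * (pr q x h z1 * pr q x l z2) + (q * z1 - z2) * (pr q x h z2 * pr q x l z1)

variable (q x) in
/-- The jumps of the end terms. -/
def Bj (z : S) (j : S → S) (w : S) (d e : Fin N) : S :=
  q * z * j q * j (q * q) * Jv q x z (q * w) d e + z * j 1 * j q * Jv q x z (q * w) e d

variable (q x) in
/-- The jumps of the larger colour against the end of the smaller one. -/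
def Cj (z : S) (i : S → S) (w : S) (d e : Fin N) : S :=
  q * z * i (q * q) * i (q * q * q) * Jv q x z (q * q * w) d e +
    z * i q * i (q * q) * Jv q x z (q * q * w) e d

variable {z1 z2 : S} {i1 i2 : S → S}

/-- The closed form of the attachment of a clique to a two-row generator. -/
theorem master (h1 : ∀ c, (z1 - c * w) * i1 c = 1) (h2 : ∀ c, (z2 - c * w) * i2 c = 1)
    (hde : d < e) :
    (1 - q) ^ 2 * ∑ l, ∑ h, (if l < h then x h * x l * al q d e h * al q d e l *
        NN q x z1 z2 h l * Pz x (be q d e h l) w else 0) =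
      q * (z1 - z2) * (q ^ 4 * i1 (q * q * q) * i2 (q * q * q) *
          (pE x z1 * pE x z2 * Pz x (al q d e) (q * q * w)) -
        i1 q * i2 q * (pE x (q * z1) * pE x (q * z2) * Pz x (al q d e) w)) -
      (z1 - q * z2) * (i1 q * pE x (q * z1)) *
        (q * q * i2 (q * q) * (pE x z2 * Pz x (al q d e) (q * w)) -
          i2 1 * (pE x (q * z2) * Pz x (al q d e) w) + (1 - q) * Bj q x z2 i2 w d e) -
      (q * z1 - z2) * (i2 q * pE x (q * z2)) *
        (q * q * i1 (q * q) * (pE x z1 * Pz x (al q d e) (q * w)) -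
          i1 1 * (pE x (q * z1) * Pz x (al q d e) w) + (1 - q) * Bj q x z1 i1 w d e) +
      (1 - q) * (z1 - q * z2) * (q * q * i2 (q * q) * pE x z2 * Cj q x z1 i1 w d e +
        (1 - q) * (q * z1 * z2 * i1 q * i1 (q * q) * i2 q * i2 (q * q) *
          (pr q x e z1 * pr q x d z2 * pE x (q * q * w)))) +
      (1 - q) * (q * z1 - z2) * (q * q * i1 (q * q) * pE x z1 * Cj q x z2 i2 w d e +
        (1 - q) * (q * z1 * z2 * i1 q * i1 (q * q) * i2 q * i2 (q * q) *
          (pr q x e z2 * pr q x d z1 * pE x (q * q * w)))) := by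
  set c1 := z1 - q * z2 with hc1
  set c2 := q * z1 - z2 with hc2
  set f : S → S := fun a => a * a * i1 (q * a) * i2 (q * a) with hf
  set T : ℕ → S := fun t => Pcut x (fun _ => 1) q 1 z1 t * Pcut x (fun _ => 1) q 1 z2 t *
    Pcut x (al q d e) 1 (q * q) w t with hT
  set Jc : S → (S → S) → Fin N → Fin N → S → S := fun z i m m' g =>
    g * z * i (q * g) * i (q * q * g) * pr q x m z with hJc
  set Lc : S → Fin N → Fin N → Fin N → S := fun z m m' l =>
    if l < m then al q d e l * x l * pr q x l z *
      Pz x (fun s => q * cw q s m' * cw q l s) w else 0 with hLc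
  set Bl : S → Fin N → S := fun z l => al q d e l * x l * pr q x l z *
    Pz x (fun s => al q d e s * cw q l s) w with hBl
  have key : ∀ l : Fin N, (1 - q) ^ 2 * ∑ h, (if l < h then x h * x l * al q d e h * al q d e l *
      NN q x z1 z2 h l * Pz x (be q d e h l) w else 0) =
      q * (z1 - z2) * (if 0 ≤ (l : ℕ) then piece q T d e f l else 0) -
        (1 - q) * (c1 * (i1 q * pE x (q * z1)) * Bl z2 l +
          c2 * (i2 q * pE x (q * z2)) * Bl z1 l) +
        (1 - q) * (1 - q) * (c1 * (Jc z1 i1 d e q * Lc z2 d e l + Jc z1 i1 e d 1 * Lc z2 e d l) +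
          c2 * (Jc z2 i2 d e q * Lc z1 d e l + Jc z2 i2 e d 1 * Lc z1 e d l)) := by
    intro l
    rw [if_pos (Nat.zero_le _), piece]
    by_cases hm : l = d ∨ l = e
    · have h0 : al q d e l = 0 := by
        rcases hm with rfl | rfl
        · exact al_self_left q _ _
        · exact al_self_right q _ _
      simp [hm, hBl, hLc, h0]
    obtain ⟨hld, hle⟩ := not_or.1 hm
    rw [if_neg hm]
    have H := fun z i hi => hsum (q := q) (x := x) (w := w) (z := z) (i := i) hi
      (y := fun _ => 1) (l := l) hde hld hle fun _ _ => rfl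
    simp only [mul_one] at H
    have split : ∀ h : Fin N, (if l < h then x h * x l * al q d e h * al q d e l *
        NN q x z1 z2 h l * Pz x (be q d e h l) w else 0) =
        c1 * (al q d e l * x l * pr q x l z2) * (if l < h then al q d e h * x h *
          Pz x (fun s => cw q s h) z1 * Pz x (be q d e h l) w else 0) +
        c2 * (al q d e l * x l * pr q x l z1) * (if l < h then al q d e h * x h *
          Pz x (fun s => cw q s h) z2 * Pz x (be q d e h l) w else 0) := by
      intro h
      split_ifs
      · simp only [NN, pr, hc1, hc2]; ring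
      · ring
    rw [sum_congr rfl fun h _ => split h, sum_add_distrib, ← mul_sum, ← mul_sum]
    have hP : ∀ z : S, _ := fun z => Pcut_self x (fun _ => 1) (fun s => cw q s l) q 1 z l
      (cw_self q l) (fun s a => by simp [cw_lt q a]) (fun s a => by simp [cw_gt q a])
    have hQ := Pcut_self x (al q d e) (be q d e l l) 1 (q * q) w l (by simp [be, cw_self])
      (fun s a => by simp [be, cw_gt q a]) (fun s a => by simp [be, cw_lt q a]; ring)
    simp only [hT, hf, (hP z1).1, (hP z1).2, (hP z2).1, (hP z2).2, hQ.1, hQ.2, hBl, hJc, hLc,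
      mul_one, one_mul, pE]
    have H1 := H z1 i1 h1
    have H2 := H z2 i2 h2
    set p1 := pr q x l z1 with hp1
    set p2 := pr q x l z2 with hp2
    simp only [pr] at hp1 hp2 ⊢
    simp only [← hp1, ← hp2] at H1 H2 ⊢
    split_ifs at H1 H2 ⊢ with a b b <;>
    · try simp only [J1, mul_one] at H1 H2
      linear_combination (c1 * (al q d e l * x l * p2) * (1 - q)) * H1 +
        (c2 * (al q d e l * x l * p1) * (1 - q)) * H2 +
        ((1 - q) * al q d e l * al q d e l * x l * p1 * p2 * Pz x (be q d e l l) w) *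
          (c1 * i1 (q * al q d e l) * (1 + q * x l * z1) * (-1) * h2 (q * al q d e l) +
          c2 * i2 (q * al q d e l) * (1 + q * x l * z2) * (-1) * h1 (q * al q d e l))
  rw [mul_sum, sum_congr rfl fun l _ => key l]
  simp only [sum_add_distrib, sum_sub_distrib, mul_add, ← mul_sum]
  rw [sum_piece q T hde f 0 (Nat.zero_le _), if_pos (Nat.zero_le _)]
  have B1 := sumB (q := q) (x := x) (z := z1) h1 hde
  have B2 := sumB (q := q) (x := x) (z := z2) h2 hde
  have C1d := sumC_low (q := q) (x := x) (η := 1) (z := z1) (j := i1)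
    (by simpa using h1) (u := fun _ => 1) hde fun _ _ => rfl
  have C2d := sumC_low (q := q) (x := x) (η := 1) (z := z2) (j := i2)
    (by simpa using h2) (u := fun _ => 1) hde fun _ _ => rfl
  have C1e := sumC_high (q := q) (x := x) (η := 1) (z := z1) (j := i1)
    (by simpa using h1) (u := fun _ => 1) hde fun _ _ => rfl
  have C2e := sumC_high (q := q) (x := x) (η := 1) (z := z2) (j := i2)
    (by simpa using h2) (u := fun _ => 1) hde fun _ _ => rfl
  have sq : ∀ m m' : Fin N, ∀ g : S, m ≠ m' → cw q m m' = g →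
      (∀ s, al q d e s = cw q s m * cw q s m') →
      q * (z1 - z2) * (f g * T ((m : ℕ) + 1) - f (q * g) * T m) -
        (1 - q) * (q * g) * (c1 * Jc z1 i1 m m' g * (i2 (q * g) * T3 q x z2 w (fun _ => 1) m' m) +
          c2 * Jc z2 i2 m m' g * (i1 (q * g) * T3 q x z1 w (fun _ => 1) m' m)) = 0 := by
    intro m m' g hmm hg hal
    have hP : ∀ z : S, _ := fun z => Pcut_self x (fun _ => 1) (fun s => cw q s m) q 1 z m
      (cw_self q m) (fun s a => by simp [cw_lt q a]) (fun s a => by simp [cw_gt q a])
    have hQ := Pcut_self x (al q d e) (be q d e m m) 1 (q * q) w m (by simp [be, cw_self])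
      (fun s a => by simp [be, cw_gt q a]) (fun s a => by simp [be, cw_lt q a]; ring)
    have hQ3 := Pcut_self x (fun s => q * cw q s m') (be q d e m m) 1 q w m
      (by simp [be, cw_self])
      (fun s a => by simp [be, hal, cw_gt q a, cw_lt q a])
      (fun s a => by simp [be, hal, cw_gt q a, cw_lt q a]; ring)
    have hm0 : al q d e m = 0 := by simp [hal, cw_self]
    simp only [hT, hf, hJc, hc1, hc2, T3, (hP z1).1, (hP z1).2, (hP z2).1, (hP z2).2, hQ.1, hQ.2,
      hQ3.1, hm0, hg, mul_one, one_mul, zero_mul, mul_zero, add_zero, pr, ← mul_assoc]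
    linear_combination
      (q * g ^ 2 * Pz x (fun s => cw q s m) z1 * Pz x (fun s => cw q s m) z2 *
        Pz x (be q d e m m) w) *
      (((1 + q * x m * z1) * (1 + q * x m * z2) * i1 (q * g) * i2 (q * g) * (z1 - z2) *
          (z2 - q * q * g * w) * i2 (q * q * g)) * (-1) * (h1 (q * q * g)) +
        ((1 + q * x m * z1) * (1 + q * x m * z2) * i1 (q * g) * i2 (q * g) * (z1 - z2)) *
          (-1) * (h2 (q * q * g)) +
        (q * q * (1 + x m * z1) * (1 + x m * z2) * i1 (q * q * g) * i2 (q * q * g) * (z1 - z2) *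
          (z2 - q * g * w) * i2 (q * g)) * h1 (q * g) +
        (q * q * (1 + x m * z1) * (1 + x m * z2) * i1 (q * q * g) * i2 (q * q * g) *
          (z1 - z2)) * h2 (q * g) +
        ((1 - q) * (1 + q * q * g * x m * w) * i1 (q * g) * i2 (q * g) * (z1 - q * z2) * z1 *
          (1 + x m * z2) * i1 (q * q * g)) * h2 (q * q * g) +
        ((1 - q) * (1 + q * q * g * x m * w) * i1 (q * g) * i2 (q * g) * (q * z1 - z2) * z2 *
          (1 + x m * z1) * i2 (q * q * g)) * h1 (q * q * g))
  have s1 := sq d e q hde.ne (cw_lt q hde) fun s => rfl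
  have s2 := sq e d 1 hde.ne' (cw_gt q hde) fun s => mul_comm _ _
  have T0 : T 0 = pE x z1 * pE x z2 * Pz x (al q d e) (q * q * w) := by
    simp only [hT, Pcut_one_mul, one_mul, pE]
  have TN : T N = pE x (q * z1) * pE x (q * z2) * Pz x (al q d e) w := by
    simp only [hT, Pcut_top, one_mul, Pz_mul, pE]
  have f1 : f (q * q) = q ^ 4 * i1 (q * q * q) * i2 (q * q * q) := by
    simp only [hf, ← mul_assoc]; ring
  have f0 : f 1 = i1 q * i2 q := by simp [hf]
  rw [← T0, ← TN, ← f1, ← f0]
  simp only [hBl, hLc, hJc, Bj, Cj, Jv, pr, pE, mul_one, one_mul, ← mul_assoc] at *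
  linear_combination s1 + s2 - c1 * (i1 q * Pz x (fun _ => 1) (q * z1)) * B2 -
    c2 * (i2 q * Pz x (fun _ => 1) (q * z2)) * B1 +
    (1 - q) * c1 * (q * z1 * i1 (q * q) * i1 (q * q * q) * Pz x (fun s => cw q s d) z1) * C2d +
    (1 - q) * c1 * (z1 * i1 q * i1 (q * q) * Pz x (fun s => cw q s e) z1) * C2e +
    (1 - q) * c2 * (q * z2 * i2 (q * q) * i2 (q * q * q) * Pz x (fun s => cw q s d) z2) * C1d +
    (1 - q) * c2 * (z2 * i2 q * i2 (q * q) * Pz x (fun s => cw q s e) z2) * C1e

end Vale.Agent.P066.Overlap2
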