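import Vale.Agent.P066.Overlap2.Master

/-! The sum over two marks of a one-row state attached to a clique, in product form. -/

open Finset

noncomputable section

namespace Vale.Agent.P066.Overlap2

open Vale.Agent.P066.Small

variable {S : Type*} [CommRing S] {N : ℕ} {q : S} {x : Fin N → S} {w z : S} {d e : Fin N}
  {i j : S → S}

/-- The closed form of the attachment of a clique to a one-row generator. -/
theorem masterH (hi : ∀ c, (z - c * w) * i c = 1) (hj : ∀ c, (q * z - c * w) * j c = 1)
    (hde : d < e) :
    (1 - q) ^ 2 * (1 + q) * ∑ l, ∑ h, (if l < h then x h * x l * al q d e h * al q d e l *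
        Pz x (fun s => cw q s h * cw q s l) z * Pz x (be q d e h l) w else 0) =
      q ^ 4 * i (q * q * q) * i (q * q) * (pE x z * Pz x (al q d e) (q * q * w)) -
        i q * i 1 * (pE x (q * q * z) * Pz x (al q d e) w) -
      (1 + q) * i q *
        (q * q * j (q * q) * (pE x (q * z) * Pz x (al q d e) (q * w)) -
          j 1 * (pE x (q * (q * z)) * Pz x (al q d e) w) + (1 - q) * Bj q x (q * z) j w d e) +
      (1 - q) * (1 + q) * (q * i q * Cj q x z i w d e +
        (1 - q) * (z * z * i q * i q * i 1 * i (q * q) *
          (Pz x (al q d e) z * pE x (q * q * w)))) := by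
  set f : S → S := fun a => a * a * i (q * a) * i a with hf
  set T : ℕ → S := fun t => Pcut x (fun _ => 1) (q * q) 1 z t *
    Pcut x (al q d e) 1 (q * q) w t with hT
  set Jc : Fin N → Fin N → S → S := fun m m' g => g * z * i (q * g) * i (q * q * g) with hJc
  set Lc : Fin N → Fin N → Fin N → S := fun m m' l =>
    if l < m then al q d e l * x l * Pz x (fun s => cw q s l * cw q s m) z *
      Pz x (fun s => q * cw q s m' * cw q l s) w else 0 with hLc
  set Bl : Fin N → S := fun l => al q d e l * x l * pr q x l (q * z) *
    Pz x (fun s => al q d e s * cw q l s) w with hBl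
  have key : ∀ l : Fin N, (1 - q) ^ 2 * (1 + q) * ∑ h, (if l < h then x h * x l * al q d e h *
      al q d e l * Pz x (fun s => cw q s h * cw q s l) z * Pz x (be q d e h l) w else 0) =
      (if 0 ≤ (l : ℕ) then piece q T d e f l else 0) -
        (1 - q) * (1 + q) * (i q * Bl l) +
        (1 - q) * (1 - q) * (1 + q) * (Jc d e q * Lc d e l + Jc e d 1 * Lc e d l) := by
    intro l
    rw [if_pos (Nat.zero_le _), piece]
    by_cases hm : l = d ∨ l = e
    · have h0 : al q d e l = 0 := by
        rcases hm with rfl | rfl
        · exact al_self_left q _ _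
        · exact al_self_right q _ _
      simp [hm, hBl, hLc, h0]
    obtain ⟨hld, hle⟩ := not_or.1 hm
    rw [if_neg hm]
    have H := hsum (q := q) (x := x) (w := w) (z := z) (i := i) hi (y := fun s => cw q s l)
      (l := l) hde hld hle fun h hh => cw_gt q hh
    have split : ∀ h : Fin N, (if l < h then x h * x l * al q d e h * al q d e l *
        Pz x (fun s => cw q s h * cw q s l) z * Pz x (be q d e h l) w else 0) =
        al q d e l * x l * (if l < h then al q d e h * x h *
          Pz x (fun s => cw q s h * cw q s l) z * Pz x (be q d e h l) w else 0) := by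
      intro h
      split_ifs <;> ring
    rw [sum_congr rfl fun h _ => split h, ← mul_sum]
    have hP := Pcut_self x (fun _ => 1) (fun s => cw q s l * cw q s l) (q * q) 1 z l
      (by simp [cw_self]) (fun s a => by simp [cw_lt q a]) (fun s a => by simp [cw_gt q a])
    have hQ := Pcut_self x (al q d e) (be q d e l l) 1 (q * q) w l (by simp [be, cw_self])
      (fun s a => by simp [be, cw_gt q a]) (fun s a => by simp [be, cw_lt q a]; ring)
    simp only [cw_self, mul_zero, zero_mul, add_zero, one_mul] at H
    simp only [hT, hf, hP.1, hP.2, hQ.1, hQ.2, hBl, hJc, hLc, pr, mul_one, one_mul]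
    have sym : ∀ m, Pz x (fun s => cw q s m * cw q s l) z = Pz x (fun s => cw q s l * cw q s m) z :=
      fun m => prod_congr rfl fun s _ => by ring
    split_ifs at H ⊢ with a b b <;>
    · try simp only [J1, sym d, sym e, mul_one, one_mul] at H
      linear_combination ((1 - q) * (1 + q) * al q d e l * x l) * H +
        (-((1 - q) * (1 + q) * al q d e l * al q d e l * x l * i (q * al q d e l) *
          Pz x (fun s => cw q s l * cw q s l) z * Pz x (be q d e l l) w)) * hi (al q d e l)
  rw [mul_sum, sum_congr rfl fun l _ => key l]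
  simp only [sum_add_distrib, sum_sub_distrib, mul_add, ← mul_sum]
  rw [sum_piece q T hde f 0 (Nat.zero_le _), if_pos (Nat.zero_le _)]
  have B := sumB (q := q) (x := x) (z := q * z) hj hde
  have Cd := sumC_low (q := q) (x := x) (η := q) (z := z) (j := j) hj
    (u := fun s => cw q s d) hde fun _ h => cw_lt q h
  have Ce := sumC_high (q := q) (x := x) (η := q) (z := z) (j := j) hj
    (u := fun s => cw q s e) hde fun _ h => cw_lt q h
  have hjq : q * j (q * q) = i q * 1 := by
    linear_combination (i q) * hj (q * q) + (-(q * j (q * q))) * hi q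
  have hj1 : q * j q = i 1 * 1 := by
    linear_combination (i 1) * hj q + (-(q * j q)) * hi 1
  have sq : ∀ m m' : Fin N, ∀ g : S, m ≠ m' → cw q m m' = g →
      (∀ s, al q d e s = cw q s m * cw q s m') →
      f g * T ((m : ℕ) + 1) - f (q * g) * T m -
        (1 - q) * (1 + q) * (g * Jc m m' g *
          (i g * T3 q x z w (fun s => cw q s m) m' m)) = 0 := by
    intro m m' g hmm hg hal
    have hP := Pcut_self x (fun _ => 1) (fun s => cw q s m * cw q s m) (q * q) 1 z m
      (by simp [cw_self]) (fun s a => by simp [cw_lt q a]) (fun s a => by simp [cw_gt q a])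
    have hP3 := Pcut_self x (fun s => cw q s m) (fun s => cw q s m * cw q s m) q 1 z m
      (by simp [cw_self]) (fun s a => by simp [cw_lt q a]) (fun s a => by simp [cw_gt q a])
    have hQ := Pcut_self x (al q d e) (be q d e m m) 1 (q * q) w m (by simp [be, cw_self])
      (fun s a => by simp [be, cw_gt q a]) (fun s a => by simp [be, cw_lt q a]; ring)
    have hQ3 := Pcut_self x (fun s => q * cw q s m') (be q d e m m) 1 q w m
      (by simp [be, cw_self])
      (fun s a => by simp [be, hal, cw_gt q a, cw_lt q a])
      (fun s a => by simp [be, hal, cw_gt q a, cw_lt q a]; ring)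
    have hm0 : al q d e m = 0 := by simp [hal, cw_self]
    simp only [hT, hf, hJc, T3, hP.1, hP.2, hP3.1, hQ.1, hQ.2, hQ3.1, hm0, hg, cw_self, mul_one,
      one_mul, zero_mul, mul_zero, add_zero, ← mul_assoc]
    linear_combination
      (g ^ 2 * Pz x (fun s => cw q s m * cw q s m) z * Pz x (be q d e m m) w) *
      ((-((1 + q * q * x m * z) * i (q * g) * i g)) * hi (q * q * g) +
        (q * q * (1 + x m * z) * i (q * q * g) * i (q * g)) * hi g)
  have s1 := sq d e q hde.ne (cw_lt q hde) fun s => rfl
  have s2 := sq e d 1 hde.ne' (cw_gt q hde) fun s => mul_comm _ _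
  have T0 : T 0 = pE x z * Pz x (al q d e) (q * q * w) := by
    simp only [hT, Pcut_one_mul, one_mul, pE]
  have TN : T N = pE x (q * q * z) * Pz x (al q d e) w := by
    simp only [hT, Pcut_top, one_mul, Pz_mul, pE]
  have f1 : f (q * q) = q ^ 4 * i (q * q * q) * i (q * q) := by
    simp only [hf, ← mul_assoc]; ring
  have f0 : f 1 = i q * i 1 := by simp [hf]
  have hal : Pz x (fun s => cw q s d * cw q s e) z = Pz x (al q d e) z := rfl
  rw [← T0, ← TN, ← f1, ← f0]
  simp only [hBl, hLc, hJc, Bj, Cj, Jv, pr, pE, T3, mul_one, one_mul, hal, ← mul_assoc] at *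
  linear_combination s1 + s2 - (1 + q) * i q * B +
    (1 - q) * (1 + q) * (q * z * i (q * q) * i (q * q * q)) * Cd +
    (1 - q) * (1 + q) * (z * i q * i (q * q)) * Ce +
    ((1 - q) * (1 + q) * q * (q * z * i (q * q) * i (q * q * q)) *
        (Pz x (fun s => cw q s d) z * Pz x (fun s => cw q s e) (q * q * w) -
          Pcut x (fun s => cw q s d) q 1 z d * Pcut x (fun s => q * cw q s e) 1 q w d) +
      (1 - q) * (1 + q) * q * (z * i q * i (q * q)) *
        (Pz x (fun s => cw q s e) z * Pz x (fun s => cw q s d) (q * q * w)) +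
      (1 - q) * (1 - q) * (1 + q) * (z * i q * i (q * q)) * z * (q * j q) *
        (Pz x (al q d e) z * Pz x (fun _ => 1) (q * q * w))) * hjq +
    ((1 - q) * (1 - q) * (1 + q) * (z * i q * i (q * q)) * z * i q *
        (Pz x (al q d e) z * Pz x (fun _ => 1) (q * q * w)) -
      (1 - q) * (1 + q) * (z * i q * i (q * q)) *
        (Pcut x (fun s => cw q s e) q 1 z e * Pcut x (fun s => q * cw q s d) 1 q w e)) * hj1

end Vale.Agent.P066.Overlap2
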