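import Vale.Agent.P066.Overlap2.Ends

/-! Cancellation and reflection in the attachment of a clique to a symmetric generator. -/

open Finset
open scoped Classical

noncomputable section

namespace Vale.Agent.P066.Overlap2

open Vale.Agent.P066.Small

variable {K : Type*} [Field K] {N : ℕ} (q : K) (x : Fin N → K) (d e : Fin N) (k : ℕ) (A D : ℤ)

/-- Surviving main indices. -/
def mainSet : Finset (ℤ × ℤ) := (tri k).filter fun p => (k : ℤ) < p.2 + A

/-- Surviving main terms, reflected where necessary. -/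
def gMain (p : ℤ × ℤ) : K :=
  if 2 * (A + 1 + p.2) ≤ D + 2 + p.1 + p.2 then cM q k p * fM q x d e k A D p
  else cM q k p * q ^ (2 * (A + 1 + p.2) - (D + 2 + p.1 + p.2)) *
    (ee x ((k : ℤ) - p.1 - p.2) * Sy q x d e (D + 1 + p.1 - A) (D + 2 + p.1 + p.2))

/-- Surviving small end indices. -/
def smallSet : Finset (ℤ × ℤ) :=
  (rect k A).filter fun p => (k : ℤ) - p.1 + 2 ≤ A ∧ p.2 < D - k - 1

/-- Big end indices needing no reflection. -/
def bigSet : Finset (ℤ × ℤ) := (rect k A).filter fun p => (k : ℤ) - p.1 < p.2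

/-- Surviving reflected big end indices. -/
def bigRefl : Finset (ℤ × ℤ) :=
  (rect k A).filter fun p => 1 ≤ p.2 ∧ p.2 ≤ (k : ℤ) - p.1 ∧ (k : ℤ) - p.1 < D - A

/-- A reflected big end term. -/
def gBig (p : ℤ × ℤ) : K :=
  cB q k A D p * q ^ ((k : ℤ) - p.1 + 1 - p.2) *
    (ee x (D - p.2 + 1 + p.1) * Sy q x d e p.2 (p.2 + 1 + ((k : ℤ) - p.1)))

variable {q x d e k A D}

lemma small_cancel (hq : Generic q) (hA : 0 ≤ A) :
    ∑ p ∈ (rect k A).filter (fun p => ¬ (k : ℤ) - p.1 + 2 ≤ A), cS q k A p * fS q x d e k D p =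
      -∑ p ∈ (tri k).filter (fun p => ¬ (k : ℤ) < p.2 + A), cM q k p * fM q x d e k A D p := by
  rw [← sum_neg_distrib]
  have key : ∀ t l : ℤ, cS q k A (t, l) * fS q x d e k D (t, l) =
      -(cM q k (A - 1 - l, (k : ℤ) - t - A) *
        fM q x d e k A D (A - 1 - l, (k : ℤ) - t - A)) := by
    intro t l
    have hn := qz_neg hq (((k : ℤ) - t) - A + 1)
    rw [show -(((k : ℤ) - t) - A + 1) = A - 1 - ((k : ℤ) - t) by ring] at hn
    simp only [cS, fS, cM, fM, hn]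
    rw [show A + 1 + ((k : ℤ) - t - A) = (k : ℤ) - t + 1 by ring,
      show D + 2 + (A - 1 - l) + ((k : ℤ) - t - A) = D - l + 1 + ((k : ℤ) - t) by ring,
      show (k : ℤ) - (A - 1 - l) - ((k : ℤ) - t - A) = l + 1 + t by ring,
      show A - 1 - l + 1 = A - l by ring]
    have : q ^ (l + 2 + 2 * t + ((k : ℤ) - t)) * q ^ (A - 1 - ((k : ℤ) - t)) =
        q ^ (A - 1 - l) * q ^ (2 * (l + 1 + t)) := by
      rw [← zpow_add₀ hq.ne, ← zpow_add₀ hq.ne]; congr 1; ring
    linear_combination (-(qz q (A - l) * qz q ((k : ℤ) - t - A + 1) *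
      (ee x (l + 1 + t) * Sy q x d e ((k : ℤ) - t + 1) (D - l + 1 + ((k : ℤ) - t))))) * this
  refine sum_bij_ne_zero (fun p _ _ => (A - 1 - p.2, (k : ℤ) - p.1 - A)) ?_ ?_ ?_ ?_
  · rintro ⟨t, l⟩ hp hne
    simp only [mem_filter, rect, mem_product, mem_Ico] at hp
    have h1 : ¬ l + 1 + t < 0 := fun c => hne (by simp [fS, ee_neg c])
    have h2 : A - 1 - ((k : ℤ) - t) ≠ 0 := fun c => hne (by simp [cS, c, qz_zero])
    simp only [mem_filter, mem_tri]
    omega
  · intro a _ _ b _ _ h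
    simp only [Prod.mk.injEq] at h
    ext <;> omega
  · rintro ⟨r, s⟩ hp hne
    simp only [mem_filter, mem_tri] at hp
    refine ⟨((k : ℤ) - A - s, A - 1 - r), ?_, ?_, ?_⟩
    · simp only [mem_filter, rect, mem_product, mem_Ico]; omega
    · rw [key]
      simpa only [show A - 1 - (A - 1 - r) = r by ring,
        show (k : ℤ) - ((k : ℤ) - A - s) - A = s by ring] using hne
    · simp only [Prod.mk.injEq]; omega
  · rintro ⟨t, l⟩ _ _
    exact key t l

lemma big_cancel (hq : Generic q) (hD : 2 * A ≤ D) (hA : 0 ≤ A) :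
    ∑ p ∈ (rect k A).filter (fun p => 1 ≤ p.2 ∧ p.2 ≤ (k : ℤ) - p.1 ∧
        ¬ (k : ℤ) - p.1 < D - A), gBig q x d e k A D p =
      -∑ p ∈ (rect k A).filter (fun p => (k : ℤ) - p.1 + 2 ≤ A ∧ ¬ p.2 < D - k - 1),
        cS q k A p * fS q x d e k D p := by
  rw [← sum_neg_distrib]
  refine sum_bij' (fun p _ => ((k : ℤ) - p.2 + 1, D - ((k : ℤ) - p.1) - 1))
    (fun p _ => ((k : ℤ) - (D - 1 - p.2), (k : ℤ) - p.1 + 1)) ?_ ?_ ?_ ?_ ?_
  · rintro ⟨t, l⟩ hp
    simp only [mem_filter, rect, mem_product, mem_Ico] at hp ⊢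
    omega
  · rintro ⟨t, l⟩ hp
    simp only [mem_filter, rect, mem_product, mem_Ico] at hp ⊢
    omega
  · rintro ⟨t, l⟩ hp
    simp only [Prod.mk.injEq]; omega
  · rintro ⟨t, l⟩ hp
    simp only [Prod.mk.injEq]; omega
  · rintro ⟨t, l⟩ hp
    have hn := qz_neg hq (((k : ℤ) - t) + A + 1 - D)
    rw [show -(((k : ℤ) - t) + A + 1 - D) = D - A - 1 - ((k : ℤ) - t) by ring] at hn
    simp only [gBig, cB, cS, fS, hn]
    rw [show (k : ℤ) - ((k : ℤ) - l + 1) + 1 = l by ring,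
      show D - (D - ((k : ℤ) - t) - 1) + 1 + ((k : ℤ) - ((k : ℤ) - l + 1)) =
        l + 1 + ((k : ℤ) - t) by ring,
      show D - ((k : ℤ) - t) - 1 + 1 + ((k : ℤ) - l + 1) = D - l + 1 + t by ring,
      show A - (D - ((k : ℤ) - t) - 1) = (k : ℤ) - t + A + 1 - D by ring,
      show A - 1 - ((k : ℤ) - ((k : ℤ) - l + 1)) = A - l by ring]
    have : q ^ (A + 2 + 2 * t + ((k : ℤ) - t)) * q ^ (D - A - 1 - ((k : ℤ) - t)) *
        q ^ ((k : ℤ) - t + 1 - l) = q ^ (D - ((k : ℤ) - t) - 1 + 2 + 2 * ((k : ℤ) - l + 1) +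
          ((k : ℤ) - ((k : ℤ) - l + 1))) := by
      rw [← zpow_add₀ hq.ne, ← zpow_add₀ hq.ne]; congr 1; ring
    linear_combination (-(qz q ((k : ℤ) - t + A + 1 - D) * qz q (A - l) *
      (ee x (D - l + 1 + t) * Sy q x d e l (l + 1 + ((k : ℤ) - t))))) * this

lemma endF (hq : Generic q) (hde : d < e) :
    ∑ p ∈ (rect k A).filter (fun p => p.2 ≤ (k : ℤ) - p.1), cB q k A D p *
        qz q ((k : ℤ) - p.1 + 1 - p.2) *
        (ee x (D - p.2 + 1 + p.1) * II q x d e (p.2 + 1 + ((k : ℤ) - p.1))) =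
      ∑ bx ∈ Box k D, q ^ (D + 2 + bx.1 + bx.2) *
        (∑ j ∈ (Ico (-bx.1 - 1) (A - bx.2)).filter (okF ((k : ℤ) - bx.1 - bx.2)),
          tF q (A - bx.2) ((k : ℤ) - bx.1 - bx.2) ((k : ℤ) - bx.1 + A - D) bx.1 j) *
          ww' q x d e k D bx := by
  simp only [II_eq hde, mul_sum, sum_mul]
  rw [sum_sigma', sum_sigma']
  have key : ∀ t l i : ℤ, cB q k A D (t, l) * qz q ((k : ℤ) - t + 1 - l) *
      (ee x (D - l + 1 + t) * (q ^ i * (ee x i * aa q x d e (l + 1 + ((k : ℤ) - t) - i)))) =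
      q ^ (D + 2 + (t + i - l - 1) + i) *
        tF q (A - i) ((k : ℤ) - (t + i - l - 1) - i) ((k : ℤ) - (t + i - l - 1) + A - D)
          (t + i - l - 1) (l - i) * ww' q x d e k D (t + i - l - 1, i) := by
    intro t l i
    simp only [cB, tF, ww']
    rw [show D + 2 + (t + i - l - 1) - i = D - l + 1 + t by ring,
      show (k : ℤ) - (t + i - l - 1) - i - 2 * (l - i) = (k : ℤ) - t + 1 - l by ring,
      show (k : ℤ) - (t + i - l - 1) = l + 1 + ((k : ℤ) - t) - i by ring,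
      show A - i - (l - i) = A - l by ring,
      show l - i - (l + 1 + ((k : ℤ) - t) - i + A - D) = D - A - 1 - ((k : ℤ) - t) by ring]
    have : q ^ (A + 2 + 2 * t + ((k : ℤ) - t)) * q ^ i = q ^ (D + 2 + (t + i - l - 1) + i) *
        q ^ (l + 1 + ((k : ℤ) - t) - i + A - D + (t + i - l - 1) + 1 + (l - i)) := by
      rw [← zpow_add₀ hq.ne, ← zpow_add₀ hq.ne]; congr 1; ring
    linear_combination (qz q (A - l) * qz q (D - A - 1 - ((k : ℤ) - t)) *
      qz q ((k : ℤ) - t + 1 - l) * (ee x (D - l + 1 + t) *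
        (ee x i * aa q x d e (l + 1 + ((k : ℤ) - t) - i)))) * this
  refine sum_bij_ne_zero
    (fun a _ _ => ⟨(a.1.1 + a.2 - a.1.2 - 1, a.2), a.1.2 - a.2⟩) ?_ ?_ ?_ ?_
  · rintro ⟨⟨t, l⟩, i⟩ ha hne
    simp only [mem_sigma, mem_filter, rect, mem_product, mem_Ico] at ha
    rw [key] at hne
    have := (ww'_ne (right_ne_zero_of_mul hne)).1
    simp only [mem_sigma, mem_filter, mem_Ico, okF]
    exact ⟨this, by omega⟩
  · rintro ⟨⟨t, l⟩, i⟩ _ _ ⟨⟨t', l'⟩, i'⟩ _ _ h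
    simp only [Sigma.mk.injEq, Prod.mk.injEq, heq_eq_eq] at h
    obtain ⟨⟨h1, h2⟩, h3⟩ := h
    obtain ⟨rfl, rfl, rfl⟩ : t = t' ∧ l = l' ∧ i = i' := by omega
    rfl
  · rintro ⟨⟨T, b⟩, j⟩ hm hne
    simp only [mem_sigma, mem_filter, mem_Ico, okF] at hm
    have hw := ww'_ne (right_ne_zero_of_mul hne)
    simp only [Box, mem_product, mem_Ico] at hw
    refine ⟨⟨(T + 1 + j, b + j), b⟩, ?_, ?_, ?_⟩
    · simp only [mem_sigma, mem_filter, rect, mem_product, mem_Ico]; omega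
    · rw [key]
      simpa only [show T + 1 + j + b - (b + j) - 1 = T by ring,
        show b + j - b = j by ring] using hne
    · simp only [show T + 1 + j + b - (b + j) - 1 = T by ring, show b + j - b = j by ring]
  · rintro ⟨⟨t, l⟩, i⟩ _ _
    exact key t l i

lemma endE (hq : Generic q) (hde : d < e) :
    ∑ p ∈ (tri k).filter (fun p => (k : ℤ) < p.2 + A ∧
        ¬ 2 * (A + 1 + p.2) ≤ D + 2 + p.1 + p.2), cM q k p *
        qz q (2 * (A + 1 + p.2) - (D + 2 + p.1 + p.2)) *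
        (ee x ((k : ℤ) - p.1 - p.2) * II q x d e (D + 2 + p.1 + p.2)) =
      ∑ bx ∈ Box k D, q ^ (D + 2 + bx.1 + bx.2) *
        (∑ r ∈ (Ico 0 (A - bx.2)).filter
            (okE ((k : ℤ) - bx.1 - bx.2) ((k : ℤ) - bx.1 + A - D) bx.1 (A - bx.2)),
          tE q (A - bx.2) ((k : ℤ) - bx.1 - bx.2) ((k : ℤ) - bx.1 + A - D) bx.1 r) *
          ww' q x d e k D bx := by
  simp only [II_eq hde, mul_sum, sum_mul]
  rw [sum_sigma', sum_sigma']
  have key : ∀ r s i : ℤ, cM q k (r, s) * qz q (2 * (A + 1 + s) - (D + 2 + r + s)) *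
      (ee x ((k : ℤ) - r - s) * (q ^ i * (ee x i * aa q x d e (D + 2 + r + s - i)))) =
      q ^ (D + 2 + (i + ((k : ℤ) - r - s) - D - 2) + ((k : ℤ) - r - s)) *
        tE q (A - ((k : ℤ) - r - s))
          ((k : ℤ) - (i + ((k : ℤ) - r - s) - D - 2) - ((k : ℤ) - r - s))
          ((k : ℤ) - (i + ((k : ℤ) - r - s) - D - 2) + A - D)
          (i + ((k : ℤ) - r - s) - D - 2) r *
        ww' q x d e k D (i + ((k : ℤ) - r - s) - D - 2, (k : ℤ) - r - s) := by
    intro r s i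
    simp only [cM, tE, ww']
    set τ := (k : ℤ) - r - s with hτ
    rw [show D + 2 + (i + τ - D - 2) - τ = i by ring,
      show (k : ℤ) - (i + τ - D - 2) - τ + (i + τ - D - 2) + 1 - r = s + 1 by rw [hτ]; ring,
      show A - τ + ((k : ℤ) - (i + τ - D - 2) + A - D) + (i + τ - D - 2) - 2 * r =
        2 * (A + 1 + s) - (D + 2 + r + s) by rw [hτ]; ring,
      show (k : ℤ) - (i + τ - D - 2) = D + 2 + r + s - i by rw [hτ]; ring]
    have : q ^ r * q ^ (2 * τ) * q ^ i = q ^ (D + 2 + (i + τ - D - 2) + τ) * q ^ r := by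
      rw [← zpow_add₀ hq.ne, ← zpow_add₀ hq.ne, ← zpow_add₀ hq.ne]; congr 1; ring
    linear_combination (qz q (r + 1) * qz q (s + 1) *
      qz q (2 * (A + 1 + s) - (D + 2 + r + s)) *
        (ee x τ * ee x i * aa q x d e (D + 2 + r + s - i))) * this
  refine sum_bij_ne_zero (fun a _ _ => ⟨(a.2 + ((k : ℤ) - a.1.1 - a.1.2) - D - 2,
    (k : ℤ) - a.1.1 - a.1.2), a.1.1⟩) ?_ ?_ ?_ ?_
  · rintro ⟨⟨r, s⟩, i⟩ ha hne
    simp only [mem_sigma, mem_filter, mem_tri, mem_Ico] at ha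
    rw [key] at hne
    have := (ww'_ne (right_ne_zero_of_mul hne)).1
    simp only [mem_sigma, mem_filter, mem_Ico, okE]
    exact ⟨this, by omega⟩
  · rintro ⟨⟨r, s⟩, i⟩ _ _ ⟨⟨r', s'⟩, i'⟩ _ _ h
    simp only [Sigma.mk.injEq, Prod.mk.injEq, heq_eq_eq] at h
    obtain ⟨⟨h1, h2⟩, h3⟩ := h
    obtain ⟨rfl, rfl, rfl⟩ : r = r' ∧ s = s' ∧ i = i' := by omega
    rfl
  · rintro ⟨⟨T, b⟩, r⟩ hm hne
    simp only [mem_sigma, mem_filter, mem_Ico, okE] at hm
    have hw := ww'_ne (right_ne_zero_of_mul hne)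
    simp only [Box, mem_product, mem_Ico] at hw
    refine ⟨⟨(r, (k : ℤ) - b - r), D + 2 + T - b⟩, ?_, ?_, ?_⟩
    · simp only [mem_sigma, mem_filter, mem_tri, mem_Ico]; omega
    · rw [key]
      simpa only [show (k : ℤ) - r - ((k : ℤ) - b - r) = b by ring,
        show D + 2 + T - b + b - D - 2 = T by ring] using hne
    · simp only [show (k : ℤ) - r - ((k : ℤ) - b - r) = b by ring,
        show D + 2 + T - b + b - D - 2 = T by ring]
  · rintro ⟨⟨r, s⟩, i⟩ _ _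
    exact key r s i

/-- The attachment of a clique to a symmetric generator, with all negative terms cancelled. -/
theorem att_Sy_pos (hq : Generic q) (hde : d < e) (hA : 0 ≤ A) (hD : 2 * A ≤ D) :
    Att q x d e k (fun h l => Sy q x l h A D) =
      ∑ p ∈ mainSet k A, gMain q x d e k A D p +
      ∑ p ∈ smallSet k A D, cS q k A p * fS q x d e k D p +
      ∑ p ∈ bigSet k A, cB q k A D p * fB q x d e k D p +
      ∑ p ∈ bigRefl k A D, gBig q x d e k A D p +
      ∑ bx ∈ Box k D, q ^ (D + 2 + bx.1 + bx.2) *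
        Sc q (A - bx.2) ((k : ℤ) - bx.1 - bx.2) ((k : ℤ) - bx.1 + A - D) bx.1 *
          ww' q x d e k D bx := by
  have h0 : (1 - q) ^ 2 ≠ 0 := pow_ne_zero _ hq.sub_ne
  have H := att_Sy (x := x) (k := k) hq hde (A := A) (D := D) hA
  rw [EEs_eq hq, ← mul_add] at H
  rw [mul_left_cancel₀ h0 H, sum_add_distrib]
  -- the main terms
  have m1 := (sum_filter_add_sum_filter_not (tri k) (fun p => (k : ℤ) < p.2 + A)
    (fun p => cM q k p * fM q x d e k A D p)).symm
  have m2 : ∑ p ∈ mainSet k A, cM q k p * fM q x d e k A D p =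
      ∑ p ∈ mainSet k A, gMain q x d e k A D p +
        ∑ p ∈ (tri k).filter (fun p => (k : ℤ) < p.2 + A ∧
          ¬ 2 * (A + 1 + p.2) ≤ D + 2 + p.1 + p.2), cM q k p *
          qz q (2 * (A + 1 + p.2) - (D + 2 + p.1 + p.2)) *
          (ee x ((k : ℤ) - p.1 - p.2) * II q x d e (D + 2 + p.1 + p.2)) := by
    rw [← filter_filter, sum_filter (s := (tri k).filter _), mainSet, ← sum_add_distrib]
    refine sum_congr rfl fun p _ => ?_
    rw [gMain]
    by_cases hp : 2 * (A + 1 + p.2) ≤ D + 2 + p.1 + p.2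
    · rw [if_pos hp, if_neg (not_not.2 hp), add_zero]
    · rw [if_neg hp, if_pos hp, fM, Sy_refl hq,
        show D + 2 + p.1 + p.2 - (A + 1 + p.2) = D + 1 + p.1 - A by ring]
      ring
  -- the small end terms
  have s1 := (sum_filter_add_sum_filter_not (rect k A) (fun p => (k : ℤ) - p.1 + 2 ≤ A)
    (fun p => cS q k A p * fS q x d e k D p)).symm
  have s2 := (sum_filter_add_sum_filter_not ((rect k A).filter fun p => (k : ℤ) - p.1 + 2 ≤ A)
    (fun p => p.2 < D - k - 1) (fun p => cS q k A p * fS q x d e k D p)).symm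
  simp only [filter_filter] at s2
  -- the big end terms
  have b1 := (sum_filter_add_sum_filter_not (rect k A) (fun p => (k : ℤ) - p.1 < p.2)
    (fun p => cB q k A D p * fB q x d e k D p)).symm
  have b2 : ∑ p ∈ (rect k A).filter (fun p => ¬ (k : ℤ) - p.1 < p.2),
      cB q k A D p * fB q x d e k D p =
      ∑ p ∈ (rect k A).filter (fun p => 1 ≤ p.2 ∧ p.2 ≤ (k : ℤ) - p.1), gBig q x d e k A D p +
        ∑ p ∈ (rect k A).filter (fun p => p.2 ≤ (k : ℤ) - p.1), cB q k A D p *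
          qz q ((k : ℤ) - p.1 + 1 - p.2) *
          (ee x (D - p.2 + 1 + p.1) * II q x d e (p.2 + 1 + ((k : ℤ) - p.1))) := by
    simp only [not_lt]
    rw [show (rect k A).filter (fun p => 1 ≤ p.2 ∧ p.2 ≤ (k : ℤ) - p.1) =
      ((rect k A).filter fun p => p.2 ≤ (k : ℤ) - p.1).filter (fun p => 1 ≤ p.2) by
        rw [filter_filter]; simp only [and_comm],
      sum_filter (s := (rect k A).filter _) (fun p => 1 ≤ p.2), ← sum_add_distrib]
    refine sum_congr rfl fun p _ => ?_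
    rw [fB, Sy_refl hq, gBig,
      show p.2 + 1 + ((k : ℤ) - p.1) - ((k : ℤ) - p.1 + 1) = p.2 by ring,
      show 2 * ((k : ℤ) - p.1 + 1) - (p.2 + 1 + ((k : ℤ) - p.1)) = (k : ℤ) - p.1 + 1 - p.2 by ring]
    split_ifs with h
    · ring
    · rw [Sy_nonpos (show p.2 ≤ 0 by omega)]; ring
  have b3 := (sum_filter_add_sum_filter_not
    ((rect k A).filter fun p => 1 ≤ p.2 ∧ p.2 ≤ (k : ℤ) - p.1)
    (fun p => (k : ℤ) - p.1 < D - A) (gBig q x d e k A D)).symm
  simp only [filter_filter, and_assoc] at b3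
  rw [endE hq hde] at m2
  rw [endF hq hde] at b2
  have hS : ∀ bx : ℤ × ℤ,
      q ^ (D + 2 + bx.1 + bx.2) *
          Sc q (A - bx.2) ((k : ℤ) - bx.1 - bx.2) ((k : ℤ) - bx.1 + A - D) bx.1 *
            ww' q x d e k D bx =
        q ^ (D + 2 + bx.1 + bx.2) *
            P0 q (A - bx.2) ((k : ℤ) - bx.1 - bx.2) ((k : ℤ) - bx.1 + A - D) bx.1 *
            ww' q x d e k D bx +
          q ^ (D + 2 + bx.1 + bx.2) *
            (∑ j ∈ (Ico (-bx.1 - 1) (A - bx.2)).filter (okF ((k : ℤ) - bx.1 - bx.2)),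
              tF q (A - bx.2) ((k : ℤ) - bx.1 - bx.2) ((k : ℤ) - bx.1 + A - D) bx.1 j) *
            ww' q x d e k D bx +
          q ^ (D + 2 + bx.1 + bx.2) *
            (∑ r ∈ (Ico 0 (A - bx.2)).filter
                (okE ((k : ℤ) - bx.1 - bx.2) ((k : ℤ) - bx.1 + A - D) bx.1 (A - bx.2)),
              tE q (A - bx.2) ((k : ℤ) - bx.1 - bx.2) ((k : ℤ) - bx.1 + A - D) bx.1 r) *
            ww' q x d e k D bx := fun bx => by
    simp only [Sc, P0]; ring
  simp only [hS, sum_add_distrib]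
  have c1 := small_cancel (x := x) (d := d) (e := e) (k := k) (D := D) hq hA
  have c2 := big_cancel (x := x) (d := d) (e := e) (k := k) hq hD hA
  simp only [mainSet, smallSet, bigSet, bigRefl] at *
  linear_combination m1 + m2 + s1 + s2 + c1 + b1 + b2 + b3 + c2

end Vale.Agent.P066.Overlap2
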