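import Vale.Agent.P066.Overlap2.MasterH

/-! Coefficient extraction from the product form. -/

open Finset

noncomputable section

namespace Vale.Agent.P066.Overlap2

open Vale.Agent.P066.Small

variable (K : Type*) [Field K]

/-- Laurent polynomials in two variables. -/
abbrev LK := AddMonoidAlgebra K (ℤ × ℤ)

/-- Power series over them. -/
abbrev SK := PowerSeries (LK K)

variable {K} {N : ℕ}

/-- A monomial. -/
def sg (s t : ℤ) (c : K) : LK K := AddMonoidAlgebra.single (s, t) c

lemma sg_mul (s t s' t' : ℤ) (c c' : K) : sg s t c * sg s' t' c' = sg (s + s') (t + t') (c * c') :=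
  AddMonoidAlgebra.single_mul_single _ _ _ _

lemma sg_one : sg (0 : ℤ) 0 (1 : K) = 1 := rfl

/-- The scalars. -/
def emb : K →+* SK K := PowerSeries.C.comp AddMonoidAlgebra.singleZeroRingHom

lemma emb_eq (c : K) : emb c = PowerSeries.C (sg 0 0 c) := rfl

/-- The monomial `z₁^s z₂^t`. -/
def mon (s t : ℤ) : SK K := PowerSeries.C (sg s t 1)

variable (K) in
/-- The first row variable. -/
def z1 : SK K := mon 1 0

variable (K) in
/-- The second row variable. -/
def z2 : SK K := mon 0 1

variable (K) in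
/-- The series variable. -/
def ww : SK K := PowerSeries.X

lemma mon_mul (s t s' t' : ℤ) : (mon s t : SK K) * mon s' t' = mon (s + s') (t + t') := by
  rw [mon, mon, ← map_mul, sg_mul, mul_one]; rfl

/-- The coefficient of `z₁^i z₂^j w^k`. -/
def ext (i j : ℤ) (k : ℕ) : SK K →+ K where
  toFun f := (PowerSeries.coeff k f).coeff (i, j)
  map_zero' := by simp
  map_add' f g := by simp [AddMonoidAlgebra.coeff_add]

/-- Geometric series in the first variable. -/
def G1 (a : ℕ → K) : SK K := PowerSeries.mk fun r => sg (-1 - (r : ℤ)) 0 (a r)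

/-- Geometric series in the second variable. -/
def G2 (a : ℕ → K) : SK K := PowerSeries.mk fun r => sg 0 (-1 - (r : ℤ)) (a r)

/-- Elementary symmetric functions with an integer index. -/
def esZ (u : Fin N → K) (n : ℤ) : K := if n < 0 then 0 else es u n.toNat

/-- A row in the first variable. -/
def R1 (u : Fin N → K) : SK K :=
  PowerSeries.C (∑ t : Finset (Fin N), sg (#t : ℤ) 0 (∏ s ∈ t, u s))

/-- A row in the second variable. -/
def R2 (u : Fin N → K) : SK K :=
  PowerSeries.C (∑ t : Finset (Fin N), sg 0 (#t : ℤ) (∏ s ∈ t, u s))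

/-- A row in the series variable. -/
def WR (u : Fin N → K) : SK K := PowerSeries.mk fun n => sg 0 0 (es u n)

lemma sum_card_eq (u : Fin N → K) (n : ℤ) :
    ∑ t : Finset (Fin N), (if (#t : ℤ) = n then ∏ s ∈ t, u s else 0) = esZ u n := by
  rw [esZ]
  split_ifs with h
  · exact sum_eq_zero fun t _ => if_neg (by omega)
  · rw [es_eq_sum, powersetCard_eq_filter, powerset_univ, sum_filter]
    exact sum_congr rfl fun t _ => by
      congr 1
      exact propext ⟨fun e => by omega, fun e => by omega⟩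

lemma coeff_sg (s t s' t' : ℤ) (c : K) :
    (sg s t c).coeff (s', t') = if s = s' ∧ t = t' then c else 0 := by
  simp [sg, AddMonoidAlgebra.coeff_single, Finsupp.single_apply]

lemma rows_coeff (u v : Fin N → K) (s t i j : ℤ) (c : K) :
    (sg s t c * ((∑ a : Finset (Fin N), sg (#a : ℤ) 0 (∏ r ∈ a, u r)) *
      ∑ b : Finset (Fin N), sg 0 (#b : ℤ) (∏ r ∈ b, v r))).coeff (i, j) =
      c * (esZ u (i - s) * esZ v (j - t)) := by
  rw [← sum_card_eq, ← sum_card_eq, sum_mul_sum, mul_sum, sum_mul_sum, mul_sum]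
  simp only [mul_sum, sg_mul, AddMonoidAlgebra.coeff_sum, Finsupp.coe_finsetSum, Finset.sum_apply,
    coeff_sg, add_zero, zero_add]
  refine sum_congr rfl fun a _ => sum_congr rfl fun b _ => ?_
  have ea : (s + (#a : ℤ) = i) = ((#a : ℤ) = i - s) := by
    exact propext ⟨fun h => by omega, fun h => by omega⟩
  have eb : (t + (#b : ℤ) = j) = ((#b : ℤ) = j - t) := by
    exact propext ⟨fun h => by omega, fun h => by omega⟩
  simp only [ea, eb]
  split_ifs <;> simp_all <;> ring

lemma row_coeff (u : Fin N → K) (s i : ℤ) (c : K) :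
    (sg s 0 c * ∑ a : Finset (Fin N), sg (#a : ℤ) 0 (∏ r ∈ a, u r)).coeff (i, 0) =
      c * esZ u (i - s) := by
  rw [← sum_card_eq, mul_sum, mul_sum]
  simp only [sg_mul, AddMonoidAlgebra.coeff_sum, Finsupp.coe_finsetSum, Finset.sum_apply,
    coeff_sg, add_zero, and_true]
  refine sum_congr rfl fun a _ => ?_
  have ea : (s + (#a : ℤ) = i) = ((#a : ℤ) = i - s) := by
    exact propext ⟨fun h => by omega, fun h => by omega⟩
  simp only [ea]
  split_ifs <;> ring

/-- Extraction from a product of two geometric series, two rows and a row in the series variable. -/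
lemma ext_two (a b : ℕ → K) (u v y : Fin N → K) (i j : ℤ) (k : ℕ) :
    ext i j k (G1 a * G2 b * WR y * (R1 u * R2 v)) =
      ∑ r ∈ range (k + 1), ∑ s ∈ range (k - r + 1),
        a r * b s * (esZ u (i + 1 + r) * esZ v (j + 1 + s)) * es y (k - r - s) := by
  unfold ext; simp only [AddMonoidHom.coe_mk, ZeroHom.coe_mk]
  rw [R1, R2, ← map_mul, PowerSeries.coeff_mul_C, mul_assoc (G1 a), PowerSeries.coeff_mul,
    Nat.sum_antidiagonal_eq_sum_range_succ_mk, sum_mul, AddMonoidAlgebra.coeff_sum,
    Finsupp.coe_finsetSum, Finset.sum_apply]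
  refine sum_congr rfl fun r _ => ?_
  rw [PowerSeries.coeff_mul, Nat.sum_antidiagonal_eq_sum_range_succ_mk, mul_sum, sum_mul,
    AddMonoidAlgebra.coeff_sum, Finsupp.coe_finsetSum, Finset.sum_apply]
  refine sum_congr rfl fun s _ => ?_
  simp only [G1, G2, WR, PowerSeries.coeff_mk]
  rw [sg_mul, sg_mul, rows_coeff, show i - (-1 - (r : ℤ) + (0 + 0)) = i + 1 + r by ring,
    show j - (0 + (-1 - (s : ℤ) + 0)) = j + 1 + s by ring]
  ring

/-- Extraction in one row variable. -/
lemma ext_one (a : ℕ → K) (u y : Fin N → K) (i : ℤ) (k : ℕ) :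
    ext i 0 k (G1 a * WR y * R1 u) =
      ∑ r ∈ range (k + 1), a r * esZ u (i + 1 + r) * es y (k - r) := by
  unfold ext; simp only [AddMonoidHom.coe_mk, ZeroHom.coe_mk]
  rw [R1, PowerSeries.coeff_mul_C, PowerSeries.coeff_mul,
    Nat.sum_antidiagonal_eq_sum_range_succ_mk, sum_mul, AddMonoidAlgebra.coeff_sum,
    Finsupp.coe_finsetSum, Finset.sum_apply]
  refine sum_congr rfl fun r _ => ?_
  simp only [G1, WR, PowerSeries.coeff_mk]
  rw [sg_mul, show (0 : ℤ) + 0 = 0 from rfl, row_coeff,
    show i - (-1 - (r : ℤ) + 0) = i + 1 + r by ring]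
  ring

lemma ext_mon (s t : ℤ) (f : SK K) (i j : ℤ) (k : ℕ) :
    ext i j k (mon s t * f) = ext (i - s) (j - t) k f := by
  unfold ext; simp only [AddMonoidHom.coe_mk, ZeroHom.coe_mk]
  rw [mon, PowerSeries.coeff_C_mul, sg,
    AddMonoidAlgebra.coeff_single_mul_eq_mul_coeff (i - s, j - t) fun m _ => ?_, one_mul]
  constructor
  · intro h; simp only [Prod.ext_iff, Prod.fst_add, Prod.snd_add] at h ⊢; omega
  · rintro rfl; ext <;> simp

lemma ext_emb (c : K) (f : SK K) (i j : ℤ) (k : ℕ) : ext i j k (emb c * f) = c * ext i j k f := by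
  unfold ext; simp only [AddMonoidHom.coe_mk, ZeroHom.coe_mk]
  rw [emb_eq, PowerSeries.coeff_C_mul, sg,
    AddMonoidAlgebra.coeff_single_mul_eq_mul_coeff (i, j) fun m _ => ?_]
  constructor
  · intro h; simp only [Prod.ext_iff, Prod.fst_add, Prod.snd_add] at h ⊢; omega
  · rintro rfl; ext <;> simp

lemma Pz_R1 (x u : Fin N → K) (c : K) :
    Pz (fun s => emb (x s)) (fun s => emb (u s)) (emb c * z1 K) = R1 fun s => c * (u s * x s) := by
  have h : ∀ s, emb (u s) * emb (x s) * (emb c * z1 K) =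
      PowerSeries.C (sg 1 0 (c * (u s * x s))) := by
    intro s
    simp only [emb_eq, z1, mon, ← map_mul, sg_mul, add_zero, zero_add, mul_one]
    congr 2; ring
  rw [Pz, R1, prod_one_add, map_sum, powerset_univ]
  refine sum_congr rfl fun t _ => ?_
  simp only [h, ← map_prod]
  congr 1
  induction t using Finset.induction_on with
  | empty => simp [sg_one]
  | insert s t hs ih =>
    rw [prod_insert hs, prod_insert hs, ih (mem_univ _), sg_mul, card_insert_of_notMem hs]
    congr 1
    push_cast; ring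

lemma Pz_R2 (x u : Fin N → K) (c : K) :
    Pz (fun s => emb (x s)) (fun s => emb (u s)) (emb c * z2 K) = R2 fun s => c * (u s * x s) := by
  have h : ∀ s, emb (u s) * emb (x s) * (emb c * z2 K) =
      PowerSeries.C (sg 0 1 (c * (u s * x s))) := by
    intro s
    simp only [emb_eq, z2, mon, ← map_mul, sg_mul, add_zero, zero_add, mul_one]
    congr 2; ring
  rw [Pz, R2, prod_one_add, map_sum, powerset_univ]
  refine sum_congr rfl fun t _ => ?_
  simp only [h, ← map_prod]
  congr 1
  induction t using Finset.induction_on with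
  | empty => simp [sg_one]
  | insert s t hs ih =>
    rw [prod_insert hs, prod_insert hs, ih (mem_univ _), sg_mul, card_insert_of_notMem hs]
    congr 1
    push_cast; ring

lemma Pz_WR (x u : Fin N → K) (c : K) :
    Pz (fun s => emb (x s)) (fun s => emb (u s)) (emb c * ww K) = WR fun s => c * (u s * x s) := by
  have h : ∀ s, emb (u s) * emb (x s) * (emb c * ww K) = emb (c * (u s * x s)) * ww K := by
    intro s; simp only [map_mul]; ring
  ext n : 1
  rw [Pz, prod_one_add, powerset_univ, map_sum, WR, PowerSeries.coeff_mk, es_eq_sum,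
    powersetCard_eq_filter, powerset_univ, sum_filter]
  have hs : ∀ t : Finset (Fin N), PowerSeries.coeff n (∏ s ∈ t, (emb (u s) * emb (x s) *
      (emb c * ww K))) = if #t = n then sg 0 0 (∏ s ∈ t, c * (u s * x s)) else 0 := by
    intro t
    simp only [h, prod_mul_distrib, prod_const, ← map_prod]
    rw [emb_eq, ww, PowerSeries.coeff_C_mul, PowerSeries.coeff_X_pow, mul_ite, mul_one, mul_zero]
    exact if_congr eq_comm rfl rfl
  simp only [hs]
  have hz : (sg 0 0 : K → LK K) = fun c => AddMonoidAlgebra.singleZeroRingHom c := rfl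
  rw [hz]
  simp only
  rw [map_sum]
  exact sum_congr rfl fun t _ => by split_ifs <;> simp

/-- The inverse of `z - c w`. -/
def iv (z : SK K) (c : SK K) : SK K := Ring.inverse (z - c * ww K)

lemma iv_spec {z : SK K} (hz : IsUnit (PowerSeries.constantCoeff z)) (c : SK K) :
    (z - c * ww K) * iv z c = 1 :=
  Ring.mul_inverse_cancel _ (PowerSeries.isUnit_iff_constantCoeff.2 (by simpa [ww] using hz))

lemma unit_sg (s t : ℤ) {c : K} (hc : c ≠ 0) : IsUnit (sg s t c) :=
  IsUnit.of_mul_eq_one (sg (-s) (-t) c⁻¹)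
    (by rw [sg_mul, add_neg_cancel, add_neg_cancel, mul_inv_cancel₀ hc, sg_one])

lemma z1_unit : IsUnit (PowerSeries.constantCoeff (z1 K)) := by
  simpa [z1, mon] using unit_sg (K := K) 1 0 one_ne_zero

lemma z2_unit : IsUnit (PowerSeries.constantCoeff (z2 K)) := by
  simpa [z2, mon] using unit_sg (K := K) 0 1 one_ne_zero

lemma lin_G1 (a : ℕ → K) (g c : K) :
    (emb g * z1 K - emb c * ww K) * G1 a =
      PowerSeries.mk fun r => sg (-(r : ℤ)) 0 (g * a r - if r = 0 then 0 else c * a (r - 1)) := by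
  ext n : 1
  rw [sub_mul, map_sub, z1, mon, ww, emb_eq, emb_eq, ← map_mul, mul_assoc,
    PowerSeries.coeff_C_mul, PowerSeries.coeff_C_mul, PowerSeries.coeff_mk, sg_mul]
  simp only [G1, PowerSeries.coeff_mk, sg_mul]
  have hz : ∀ a b : ℤ, ∀ x y : K, sg a b (x - y) = sg a b x - sg a b y := fun a b x y => by
    rw [eq_sub_iff_add_eq, sg, sg, sg, ← AddMonoidAlgebra.single_add, sub_add_cancel]
  rw [hz]
  congr 1
  · congr 1 <;> ring
  · rcases n with _ | n
    · simp [sg]
    · rw [PowerSeries.coeff_succ_X_mul, PowerSeries.coeff_mk, sg_mul]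
      simp only [Nat.add_sub_cancel, if_neg (Nat.succ_ne_zero n)]
      congr 1; push_cast; ring

lemma lin_G2 (a : ℕ → K) (g c : K) :
    (emb g * z2 K - emb c * ww K) * G2 a =
      PowerSeries.mk fun r => sg 0 (-(r : ℤ)) (g * a r - if r = 0 then 0 else c * a (r - 1)) := by
  ext n : 1
  rw [sub_mul, map_sub, z2, mon, ww, emb_eq, emb_eq, ← map_mul, mul_assoc,
    PowerSeries.coeff_C_mul, PowerSeries.coeff_C_mul, PowerSeries.coeff_mk, sg_mul]
  simp only [G2, PowerSeries.coeff_mk, sg_mul]
  have hz : ∀ a b : ℤ, ∀ x y : K, sg a b (x - y) = sg a b x - sg a b y := fun a b x y => by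
    rw [eq_sub_iff_add_eq, sg, sg, sg, ← AddMonoidAlgebra.single_add, sub_add_cancel]
  rw [hz]
  congr 1
  · congr 1 <;> ring
  · rcases n with _ | n
    · simp [sg]
    · rw [PowerSeries.coeff_succ_X_mul, PowerSeries.coeff_mk, sg_mul]
      simp only [Nat.add_sub_cancel, if_neg (Nat.succ_ne_zero n)]
      congr 1; push_cast; ring

lemma iv_G1 (g c : K) (hg : g ≠ 0) :
    iv (emb g * z1 K) (emb c) = G1 fun r => c ^ r / g ^ (r + 1) := by
  have hu : IsUnit (PowerSeries.constantCoeff (emb g * z1 K)) := by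
    simpa [emb_eq, z1, mon, sg_mul] using unit_sg (K := K) 1 0 hg
  have h1 : (emb g * z1 K - emb c * ww K) * G1 (fun r => c ^ r / g ^ (r + 1)) = 1 := by
    rw [lin_G1]
    ext n : 1
    rw [PowerSeries.coeff_mk, PowerSeries.coeff_one]
    rcases n with _ | n
    · simp [mul_inv_cancel₀ hg, sg_one]
    · simp only [if_neg (Nat.succ_ne_zero n), Nat.add_sub_cancel]
      rw [show g * (c ^ (n + 1) / g ^ (n + 1 + 1)) - c * (c ^ n / g ^ (n + 1)) = 0 by
        field_simp; ring]
      simp [sg]
  calc iv (emb g * z1 K) (emb c)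
      = iv (emb g * z1 K) (emb c) * ((emb g * z1 K - emb c * ww K) *
          G1 fun r => c ^ r / g ^ (r + 1)) := by rw [h1, mul_one]
    _ = _ := by rw [← mul_assoc, mul_comm (iv _ _), iv_spec hu, one_mul]

lemma iv_G2 (g c : K) (hg : g ≠ 0) :
    iv (emb g * z2 K) (emb c) = G2 fun r => c ^ r / g ^ (r + 1) := by
  have hu : IsUnit (PowerSeries.constantCoeff (emb g * z2 K)) := by
    simpa [emb_eq, z2, mon, sg_mul] using unit_sg (K := K) 0 1 hg
  have h1 : (emb g * z2 K - emb c * ww K) * G2 (fun r => c ^ r / g ^ (r + 1)) = 1 := by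
    rw [lin_G2]
    ext n : 1
    rw [PowerSeries.coeff_mk, PowerSeries.coeff_one]
    rcases n with _ | n
    · simp [mul_inv_cancel₀ hg, sg_one]
    · simp only [if_neg (Nat.succ_ne_zero n), Nat.add_sub_cancel]
      rw [show g * (c ^ (n + 1) / g ^ (n + 1 + 1)) - c * (c ^ n / g ^ (n + 1)) = 0 by
        field_simp; ring]
      simp [sg]
  calc iv (emb g * z2 K) (emb c)
      = iv (emb g * z2 K) (emb c) * ((emb g * z2 K - emb c * ww K) *
          G2 fun r => c ^ r / g ^ (r + 1)) := by rw [h1, mul_one]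
    _ = _ := by rw [← mul_assoc, mul_comm (iv _ _), iv_spec hu, one_mul]

lemma G1_mul (a b : ℕ → K) :
    G1 a * G1 b = mon (-1) 0 * G1 fun r => ∑ p ∈ range (r + 1), a p * b (r - p) := by
  ext n : 1
  rw [PowerSeries.coeff_mul, Nat.sum_antidiagonal_eq_sum_range_succ_mk, mon,
    PowerSeries.coeff_C_mul]
  simp only [G1, PowerSeries.coeff_mk, sg_mul, one_mul]
  have hz : ∀ a b : ℤ, ∀ f : ℕ → K, ∀ m, sg a b (∑ p ∈ range m, f p) =
      ∑ p ∈ range m, sg a b (f p) := fun a b f m =>
    map_sum (AddMonoidHom.mk' (fun c => sg a b c) fun c c' => by simp only [sg]; exact AddMonoidAlgebra.single_add _ _ _) f _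
  rw [hz]
  refine sum_congr rfl fun p hp => ?_
  have := mem_range.1 hp
  congr 1
  · rw [Nat.cast_sub (by omega)]; ring

lemma G2_mul (a b : ℕ → K) :
    G2 a * G2 b = mon 0 (-1) * G2 fun r => ∑ p ∈ range (r + 1), a p * b (r - p) := by
  ext n : 1
  rw [PowerSeries.coeff_mul, Nat.sum_antidiagonal_eq_sum_range_succ_mk, mon,
    PowerSeries.coeff_C_mul]
  simp only [G2, PowerSeries.coeff_mk, sg_mul, one_mul]
  have hz : ∀ a b : ℤ, ∀ f : ℕ → K, ∀ m, sg a b (∑ p ∈ range m, f p) =
      ∑ p ∈ range m, sg a b (f p) := fun a b f m =>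
    map_sum (AddMonoidHom.mk' (fun c => sg a b c) fun c c' => by simp only [sg]; exact AddMonoidAlgebra.single_add _ _ _) f _
  rw [hz]
  refine sum_congr rfl fun p hp => ?_
  have := mem_range.1 hp
  congr 1
  · rw [Nat.cast_sub (by omega)]; ring

end Vale.Agent.P066.Overlap2
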