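import Vale.Agent.P066.Overlap2.Sums

/-! The one-variable sums used when a clique is attached to two marks. -/

open Finset

noncomputable section

namespace Vale.Agent.P066.Overlap2

open Vale.Agent.P066.Small

variable {S : Type*} [CommRing S] {N : ℕ} (q : S) (x : Fin N → S)

lemma Pz_mul (u : Fin N → S) (L z : S) : Pz x (fun s => L * u s) z = Pz x u (L * z) :=
  prod_congr rfl fun s _ => by ring

lemma cw_lt {a b : Fin N} (h : a < b) : cw q a b = q := by simp [cw, h, h.ne]

lemma cw_gt {a b : Fin N} (h : b < a) : cw q a b = 1 := by simp [cw, h.not_gt, h.ne']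

lemma cw_mul_rev {a b : Fin N} (h : a ≠ b) : cw q a b * cw q b a = q := by
  rcases h.lt_or_gt with h | h <;> simp [cw_lt q h, cw_gt q h]

variable {q} {x} {w : S} {d e : Fin N}

/-- The weights of the privates when the two summed colours are `h` and `l`. -/
def be (q : S) (d e h l s : Fin N) : S := al q d e s * cw q h s * cw q l s

/-- The jump at a mark of the sum over the larger colour. -/
def J1 (q : S) (x : Fin N → S) (z w : S) (i : S → S) (y : Fin N → S) (l m m' : Fin N) (g : S) : S :=
  g * z * i (q * g) * i (q * q * g) * Pz x (fun s => cw q s m * y s) z *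
    Pz x (fun s => q * cw q s m' * cw q l s) w

lemma jump1 {z : S} {i : S → S} (hi : ∀ c, (z - c * w) * i c = 1) {y : Fin N → S} {l m m' : Fin N}
    {g : S} (hy : y m = 1) (hlm : l < m) (_hm : m ≠ m') (hg : cw q m m' = g)
    (hal : ∀ s, al q d e s = cw q s m * cw q s m') :
    g * i (q * g) * (Pcut x y q 1 z ((m : ℕ) + 1) *
        Pcut x (fun s => al q d e s * cw q l s) 1 q w ((m : ℕ) + 1)) -
      q * g * i (q * (q * g)) * (Pcut x y q 1 z (m : ℕ) *
        Pcut x (fun s => al q d e s * cw q l s) 1 q w (m : ℕ)) =
      (1 - q) * J1 q x z w i y l m m' g := by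
  have hP := Pcut_self x y (fun s => cw q s m * y s) q 1 z m (by simp [cw_self])
    (fun s h => by simp [cw_lt q h]) (fun s h => by simp [cw_gt q h])
  have hQ := Pcut_self x (fun s => al q d e s * cw q l s) (be q d e m l) 1 q w m
    (by simp [be, cw_self]) (fun s h => by simp [be, cw_gt q h])
    (fun s h => by simp [be, cw_lt q h]; ring)
  have hm0 : al q d e m = 0 := by simp [hal, cw_self]
  have hsp : Pz x (fun s => q * cw q s m' * cw q l s) w =
      (1 + q * g * q * x m * w) * Pz x (be q d e m l) w := by
    rw [Pz_split x _ (be q d e m l) w m (by simp [be, cw_self]) fun s hs => ?_, hg, cw_lt q hlm]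
    simp only [be]
    linear_combination (cw q s m' * cw q l s) * cw_mul_rev q hs +
      (cw q m s * cw q l s) * hal s
  simp only [J1, hP.1, hP.2, hQ.1, hQ.2, hm0, hy, hsp, zero_mul, mul_zero, add_zero, ← mul_assoc]
  linear_combination
    (-(g * i (q * g) * (1 + q * x m * z) * Pz x (fun s => cw q s m * y s) z *
        Pz x (be q d e m l) w)) * hi (q * q * g) +
      (q * g * i (q * q * g) * (1 + x m * z) * Pz x (fun s => cw q s m * y s) z *
        Pz x (be q d e m l) w) * hi (q * g)

/-- Sum over the larger colour. -/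
lemma hsum {z : S} {i : S → S} (hi : ∀ c, (z - c * w) * i c = 1) {y : Fin N → S} {l : Fin N}
    (hde : d < e) (hld : l ≠ d) (hle : l ≠ e) (hy : ∀ h, l < h → y h = 1) :
    (1 - q) * ∑ h, (if l < h then al q d e h * x h * Pz x (fun s => cw q s h * y s) z *
        Pz x (be q d e h l) w else 0) =
      al q d e l * i (q * al q d e l) * ((1 + q * y l * x l * z) *
          Pz x (fun s => cw q s l * y s) z * Pz x (be q d e l l) w) -
        i q * (Pz x y (q * z) * Pz x (fun s => al q d e s * cw q l s) w) +
        (1 - q) * ((if l < d then J1 q x z w i y l d e q else 0) +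
          (if l < e then J1 q x z w i y l e d 1 else 0)) := by
  set g : ℕ → S := fun t => Pcut x y q 1 z t * Pcut x (fun s => al q d e s * cw q l s) 1 q w t
    with hg
  set f : S → S := fun a => a * i (q * a) with hf
  have hterm : ∀ h : Fin N, (1 - q) * (if l < h then al q d e h * x h *
      Pz x (fun s => cw q s h * y s) z * Pz x (be q d e h l) w else 0) =
      if (l : ℕ) + 1 ≤ (h : ℕ) then piece q g d e f h else 0 := by
    intro h
    by_cases hlh : l < h
    · rw [if_pos hlh, if_pos (show (l : ℕ) + 1 ≤ h from hlh), piece]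
      by_cases hm : h = d ∨ h = e
      · rcases hm with rfl | rfl <;> simp [al_self_left, al_self_right]
      rw [if_neg hm]
      have hP := Pcut_self x y (fun s => cw q s h * y s) q 1 z h (by simp [cw_self])
        (fun s a => by simp [cw_lt q a]) (fun s a => by simp [cw_gt q a])
      have hQ := Pcut_self x (fun s => al q d e s * cw q l s) (be q d e h l) 1 q w h
        (by simp [be, cw_self]) (fun s a => by simp [be, cw_gt q a])
        (fun s a => by simp [be, cw_lt q a]; ring)
      simp only [hg, hf, hP.1, hP.2, hQ.1, hQ.2, hy h hlh, cw_lt q hlh]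
      linear_combination (-((1 - q) * al q d e h * x h * Pz x (fun s => cw q s h * y s) z *
        Pz x (be q d e h l) w)) * hi (q * al q d e h)
    · rw [if_neg hlh, if_neg (show ¬ (l : ℕ) + 1 ≤ h from hlh), mul_zero]
  rw [mul_sum, sum_congr rfl fun h _ => hterm h, sum_piece q g hde f _ l.isLt]
  have hP := Pcut_self x y (fun s => cw q s l * y s) q 1 z l (by simp [cw_self])
    (fun s a => by simp [cw_lt q a]) (fun s a => by simp [cw_gt q a])
  have hQ := Pcut_self x (fun s => al q d e s * cw q l s) (be q d e l l) 1 q w l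
    (by simp [be, cw_self]) (fun s a => by simp [be, cw_gt q a])
    (fun s a => by simp [be, cw_lt q a]; ring)
  have gl : g ((l : ℕ) + 1) = (1 + q * y l * x l * z) *
      Pz x (fun s => cw q s l * y s) z * Pz x (be q d e l l) w := by
    simp only [hg, hP.2, hQ.2, cw_self, mul_zero, zero_mul, add_zero]
    ring
  have gN : g N = Pz x y (q * z) * Pz x (fun s => al q d e s * cw q l s) w := by
    simp only [hg, Pcut_top, one_mul, Pz_mul]
  have je : l < e → f 1 * g ((e : ℕ) + 1) - f q * g e = (1 - q) * J1 q x z w i y l e d 1 :=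
    fun h => by
      have := jump1 (x := x) (d := d) (e := e) hi (hy e h) h hde.ne' (cw_gt q hde) fun s => mul_comm _ _
      simp only [hf, hg, mul_one] at this ⊢
      linear_combination this
  have jd : l < d → f q * g ((d : ℕ) + 1) - f (q * q) * g d = (1 - q) * J1 q x z w i y l d e q :=
    fun h => by
      have := jump1 (x := x) (d := d) (e := e) hi (hy d h) h hde.ne (cw_lt q hde) fun s => rfl
      simp only [hf, hg] at this ⊢
      linear_combination this
  have hf1 : f 1 = i q := by simp [hf]
  rw [← gl, ← gN]
  rcases lt_or_gt_of_ne hld with a | a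
  · have b : l < e := a.trans hde
    rw [if_pos (show (l : ℕ) + 1 ≤ d from a), if_pos a, if_pos b, al_low q hde a]
    linear_combination jd a + je b - g N * hf1
  rw [if_neg (show ¬ (l : ℕ) + 1 ≤ d from a.not_gt), if_neg a.not_gt]
  rcases lt_or_gt_of_ne hle with b | b
  · rw [if_pos (show (l : ℕ) + 1 ≤ e from b), if_pos b, al_mid q a b]
    linear_combination je b - g N * hf1
  · rw [if_neg (show ¬ (l : ℕ) + 1 ≤ e from b.not_gt), if_neg b.not_gt, al_high q hde b]
    rw [hf1]
    simp only [mul_one, one_mul, Nat.succ_eq_add_one]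
    ring

/-- Sum of the end terms over the smaller colour. -/
lemma sumB {z : S} {j : S → S} (hj : ∀ c, (z - c * w) * j c = 1) (hde : d < e) :
    (1 - q) * ∑ l, al q d e l * x l * Pz x (fun s => cw q s l) z *
        Pz x (fun s => al q d e s * cw q l s) w =
      q * q * j (q * q) * (Pz x (fun _ => 1) z * Pz x (al q d e) (q * w)) -
        j 1 * (Pz x (fun _ => 1) (q * z) * Pz x (al q d e) w) +
        (1 - q) * (q * z * j q * j (q * q) * Pz x (fun s => cw q s d) z *
            Pz x (fun s => cw q s e) (q * w) +
          z * j 1 * j q * Pz x (fun s => cw q s e) z * Pz x (fun s => cw q s d) (q * w)) := by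
  set g : ℕ → S := fun t => Pcut x (fun _ => 1) q 1 z t * Pcut x (al q d e) 1 q w t with hg
  set f : S → S := fun a => a * j a with hf
  have hterm : ∀ l : Fin N, (1 - q) * (al q d e l * x l * Pz x (fun s => cw q s l) z *
      Pz x (fun s => al q d e s * cw q l s) w) = if 0 ≤ (l : ℕ) then piece q g d e f l else 0 := by
    intro l
    rw [if_pos (Nat.zero_le _), piece]
    by_cases hm : l = d ∨ l = e
    · rcases hm with rfl | rfl <;> simp [al_self_left, al_self_right]
    rw [if_neg hm]
    have hP := Pcut_self x (fun _ => 1) (fun s => cw q s l) q 1 z l (cw_self q l)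
      (fun s a => by simp [cw_lt q a]) (fun s a => by simp [cw_gt q a])
    have hQ := Pcut_self x (al q d e) (fun s => al q d e s * cw q l s) 1 q w l
      (by simp [cw_self]) (fun s a => by simp [cw_gt q a]) (fun s a => by simp [cw_lt q a]; ring)
    simp only [hg, hf, hP.1, hP.2, hQ.1, hQ.2]
    linear_combination (-((1 - q) * al q d e l * x l * Pz x (fun s => cw q s l) z *
      Pz x (fun s => al q d e s * cw q l s) w)) * hj (al q d e l)
  have jump : ∀ m m' : Fin N, ∀ gg : S, m ≠ m' → cw q m m' = gg →
      (∀ s, al q d e s = cw q s m * cw q s m') →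
      f gg * g ((m : ℕ) + 1) - f (q * gg) * g m = (1 - q) * (gg * z * j gg * j (q * gg) *
        Pz x (fun s => cw q s m) z * Pz x (fun s => cw q s m') (q * w)) := by
    intro m m' gg hmm hgg hal
    have hP := Pcut_self x (fun _ => 1) (fun s => cw q s m) q 1 z m (cw_self q m)
      (fun s a => by simp [cw_lt q a]) (fun s a => by simp [cw_gt q a])
    have hQ := Pcut_self x (al q d e) (fun s => al q d e s * cw q m s) 1 q w m
      (by simp [cw_self]) (fun s a => by simp [cw_gt q a]) (fun s a => by simp [cw_lt q a]; ring)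
    have hm0 : al q d e m = 0 := by simp [hal, cw_self]
    have hsp : Pz x (fun s => cw q s m') (q * w) =
        (1 + q * gg * x m * w) * Pz x (fun s => al q d e s * cw q m s) w := by
      rw [← Pz_mul, Pz_split x _ (fun s => al q d e s * cw q m s) w m (by simp [cw_self])
        fun s hs => ?_, hgg]
      linear_combination (cw q s m') * cw_mul_rev q hs + cw q m s * hal s
    simp only [hg, hf, hP.1, hP.2, hQ.1, hQ.2, hm0, hsp, mul_one, one_mul, zero_mul, mul_zero,
      add_zero]
    linear_combination (-(gg * j gg * (1 + q * x m * z) * Pz x (fun s => cw q s m) z *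
        Pz x (fun s => al q d e s * cw q m s) w)) * hj (q * gg) +
      (q * gg * j (q * gg) * (1 + x m * z) * Pz x (fun s => cw q s m) z *
        Pz x (fun s => al q d e s * cw q m s) w) * hj gg
  have j1 := jump d e q hde.ne (cw_lt q hde) fun s => rfl
  have j2 := jump e d 1 hde.ne' (cw_gt q hde) fun s => mul_comm _ _
  rw [mul_sum, sum_congr rfl fun l _ => hterm l, sum_piece q g hde f 0 (Nat.zero_le _),
    if_pos (Nat.zero_le _)]
  have g0 : g 0 = Pz x (fun _ => 1) z * Pz x (al q d e) (q * w) := by
    simp only [hg, Pcut_zero, one_mul, Pz_mul]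
  have gN : g N = Pz x (fun _ => 1) (q * z) * Pz x (al q d e) w := by
    simp only [hg, Pcut_top, one_mul, Pz_mul]
  rw [← g0, ← gN]
  simp only [hf, mul_one, one_mul] at j1 j2 ⊢
  linear_combination j1 + j2

/-- The cut product of the sum below a mark. -/
def T3 (q : S) (x : Fin N → S) (z w : S) (u : Fin N → S) (m' : Fin N) (t : ℕ) : S :=
  Pcut x u q 1 z t * Pcut x (fun s => q * cw q s m') 1 q w t

/-- Sum over the smaller colour below a mark. -/
lemma sumC {z η : S} {j : S → S} (hj : ∀ c, (η * z - c * w) * j c = 1) {u : Fin N → S}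
    {m m' : Fin N} (hal : ∀ s, al q d e s = cw q s m * cw q s m')
    (hu : ∀ l, l < m → u l = η) (l : Fin N) (hl : l < m) :
    (1 - q) * (al q d e l * x l * Pz x (fun s => cw q s l * u s) z *
        Pz x (fun s => q * cw q s m' * cw q l s) w) =
      al q d e l * j (al q d e l) *
        (T3 q x z w u m' l - T3 q x z w u m' ((l : ℕ) + 1)) := by
  have hP := Pcut_self x u (fun s => cw q s l * u s) q 1 z l (by simp [cw_self])
    (fun s a => by simp [cw_lt q a]) (fun s a => by simp [cw_gt q a])
  have hQ := Pcut_self x (fun s => q * cw q s m') (fun s => q * cw q s m' * cw q l s) 1 q w l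
    (by simp [cw_self]) (fun s a => by simp [cw_gt q a]) (fun s a => by simp [cw_lt q a]; ring)
  have hy : q * cw q l m' = al q d e l := by rw [hal, cw_lt q hl]
  simp only [T3, hP.1, hP.2, hQ.1, hQ.2, hu l hl]
  linear_combination (-((1 - q) * al q d e l * x l * Pz x (fun s => cw q s l * u s) z *
      Pz x (fun s => q * cw q s m' * cw q l s) w)) * hj (al q d e l) +
    (-((1 - q) * w * x l * al q d e l * j (al q d e l) * (-1) *
      Pz x (fun s => cw q s l * u s) z * Pz x (fun s => q * cw q s m' * cw q l s) w)) * hy

end Vale.Agent.P066.Overlap2
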