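import Vale.Agent.P066.Small.Tele

/-! Telescoping colour sums for a clique attached to two marked vertices, in product form. -/

open Finset

noncomputable section

namespace Vale.Agent.P066.Overlap2

open Vale.Agent.P066.Small

variable {S : Type*} [CommRing S] {N : ℕ} (q : S) (x : Fin N → S)

/-- The weight of a colour `s` towards the two new marks. -/
def al (d e s : Fin N) : S := cw q s d * cw q s e

/-- A product with weights `u`. -/
def Pz (u : Fin N → S) (z : S) : S := ∏ s, (1 + u s * x s * z)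

/-- A product with the weights `u`, multiplied by `L` below the cut and by `H` above it. -/
def Pcut (u : Fin N → S) (L H z : S) (t : ℕ) : S :=
  ∏ s : Fin N, (1 + (if (s : ℕ) < t then L else H) * u s * x s * z)

lemma Pcut_zero (u : Fin N → S) (L H z : S) : Pcut x u L H z 0 = Pz x (fun s => H * u s) z := by
  simp [Pcut, Pz]

lemma Pcut_top (u : Fin N → S) (L H z : S) : Pcut x u L H z N = Pz x (fun s => L * u s) z := by
  simp [Pcut, Pz]

lemma Pz_split (u v : Fin N → S) (z : S) (c : Fin N) (hv : v c = 0) (h : ∀ s, s ≠ c → v s = u s) :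
    Pz x u z = (1 + u c * x c * z) * Pz x v z := by
  unfold Pz
  rw [← mul_prod_erase univ _ (mem_univ c), ← mul_prod_erase univ (fun s => 1 + v s * x s * z)
    (mem_univ c), hv, zero_mul, zero_mul, add_zero, one_mul]
  exact congrArg _ (prod_congr rfl fun s hs => by rw [h s (ne_of_mem_erase hs)])

lemma Pcut_self (u v : Fin N → S) (L H z : S) (c : Fin N) (hv : v c = 0)
    (hlt : ∀ s, s < c → v s = L * u s) (hgt : ∀ s, c < s → v s = H * u s) :
    Pcut x u L H z (c : ℕ) = (1 + H * u c * x c * z) * Pz x v z ∧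
      Pcut x u L H z ((c : ℕ) + 1) = (1 + L * u c * x c * z) * Pz x v z := by
  constructor
  · show Pz x (fun s => (if (s : ℕ) < c then L else H) * u s) z = _
    rw [Pz_split x _ v z c hv fun s hs => ?_, if_neg (lt_irrefl _)]
    rcases hs.lt_or_gt with h | h
    · rw [hlt s h, if_pos (show (s : ℕ) < c from h)]
    · rw [hgt s h, if_neg (not_lt.2 (le_of_lt (show (c : ℕ) < s from h)))]
  · show Pz x (fun s => (if (s : ℕ) < (c : ℕ) + 1 then L else H) * u s) z = _
    rw [Pz_split x _ v z c hv fun s hs => ?_, if_pos (Nat.lt_succ_self _)]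
    rcases hs.lt_or_gt with h | h
    · rw [hlt s h, if_pos (Nat.lt_succ_of_lt (show (s : ℕ) < c from h))]
    · rw [hgt s h, if_neg (not_lt.2 (show (c : ℕ) + 1 ≤ s from h))]

variable (g : ℕ → S)

/-- Telescoping with weights constant between the two marks. -/
def piece (d e : Fin N) (f : S → S) (t : Fin N) : S :=
  if t = d ∨ t = e then 0 else f (al q d e t) * (g t - g ((t : ℕ) + 1))

lemma al_self_left (d e : Fin N) : al q d e d = 0 := by simp [al, cw_self]

lemma al_self_right (d e : Fin N) : al q d e e = 0 := by simp [al, cw_self]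

lemma al_low {d e t : Fin N} (hde : d < e) (h : t < d) : al q d e t = q * q := by
  simp [al, cw, h, h.trans hde, h.ne, (h.trans hde).ne]

lemma al_mid {d e t : Fin N} (h : d < t) (h' : t < e) : al q d e t = q := by
  simp [al, cw, h.not_gt, h', h.ne', h'.ne]

lemma al_high {d e t : Fin N} (hde : d < e) (h : e < t) : al q d e t = 1 := by
  simp [al, cw, h.not_gt, (hde.trans h).not_gt, h.ne', (hde.trans h).ne']

lemma sum_piece {d e : Fin N} (hde : d < e) (f : S → S) (st : ℕ) (hst : st ≤ N) :
    ∑ t : Fin N, (if st ≤ (t : ℕ) then piece q g d e f t else 0) =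
      if st ≤ (d : ℕ) then f (q * q) * (g st - g d) + f q * (g ((d : ℕ) + 1) - g e) +
          f 1 * (g ((e : ℕ) + 1) - g N)
      else if st ≤ (e : ℕ) then f q * (g st - g e) + f 1 * (g ((e : ℕ) + 1) - g N)
      else f 1 * (g st - g N) := by
  have hd := d.isLt
  have he := e.isLt
  have hde' : (d : ℕ) < e := hde
  have h : ∀ t : Fin N, (if st ≤ (t : ℕ) then piece q g d e f t else 0) =
      f (q * q) * (if st ≤ (t : ℕ) ∧ (t : ℕ) < d then g t - g ((t : ℕ) + 1) else 0) +
      f q * (if max st ((d : ℕ) + 1) ≤ (t : ℕ) ∧ (t : ℕ) < e then g t - g ((t : ℕ) + 1) else 0) +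
      f 1 * (if max st ((e : ℕ) + 1) ≤ (t : ℕ) ∧ (t : ℕ) < N then g t - g ((t : ℕ) + 1) else 0) := by
    intro t
    have ht := t.isLt
    have m1 : max st ((d : ℕ) + 1) ≤ (t : ℕ) ↔ st ≤ (t : ℕ) ∧ d < t := by
      rw [max_le_iff]; rfl
    have m2 : max st ((e : ℕ) + 1) ≤ (t : ℕ) ↔ st ≤ (t : ℕ) ∧ e < t := by
      rw [max_le_iff]; rfl
    simp only [m1, m2, ht, and_true, piece]
    by_cases hs : st ≤ (t : ℕ)
    swap
    · simp [hs]
    simp only [hs, true_and, if_true]
    rcases lt_trichotomy t d with a | a | a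
    · have : (t : ℕ) < d := a
      simp [this, a.ne, (a.trans hde).ne, a.not_gt, (a.trans hde).not_gt, al_low q hde a]
    · subst a; simp [hde.not_gt]
    rcases lt_trichotomy t e with b | b | b
    · have : ¬ (t : ℕ) < d := not_lt.2 (le_of_lt a)
      have h2 : (t : ℕ) < e := b
      simp [this, h2, a, a.ne', b.ne, b.not_gt, al_mid q a b]
    · subst b; simp [show ¬ (t : ℕ) < d from not_lt.2 (le_of_lt a), hde']
    · have : ¬ (t : ℕ) < d := not_lt.2 (le_of_lt a)
      have h2 : ¬ (t : ℕ) < e := not_lt.2 (le_of_lt b)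
      simp [this, h2, a, a.ne', b, b.ne', al_high q hde b]
  rw [sum_congr rfl fun t _ => h t]
  rw [sum_add_distrib, sum_add_distrib, ← mul_sum, ← mul_sum, ← mul_sum]
  split_ifs with h1 h2
  · rw [tel g st d h1 hd.le, max_eq_right (by omega), max_eq_right (by omega),
      tel g _ e (by omega) he.le, tel g _ N (by omega) le_rfl]
  · have e0 : ∀ t : Fin N, ¬ (st ≤ (t : ℕ) ∧ (t : ℕ) < d) := fun t => by omega
    rw [max_eq_left (show (d : ℕ) + 1 ≤ st by omega), max_eq_right (by omega), tel g _ e h2 he.le,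
      tel g _ N (by omega) le_rfl]
    rw [sum_eq_zero fun t _ => if_neg (e0 t), mul_zero, zero_add]
  · have e0 : ∀ t : Fin N, ¬ (st ≤ (t : ℕ) ∧ (t : ℕ) < d) := fun t => by omega
    have e1 : ∀ t : Fin N, ¬ (max st ((d : ℕ) + 1) ≤ (t : ℕ) ∧ (t : ℕ) < e) := fun t => by omega
    rw [max_eq_left (show (e : ℕ) + 1 ≤ st by omega), tel g st N hst le_rfl]
    rw [sum_eq_zero fun t _ => if_neg (e0 t), sum_eq_zero fun t _ => if_neg (e1 t)]
    simp only [mul_zero, zero_add]

end Vale.Agent.P066.Overlap2
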