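import Vale.Agent.P066.Overlap2.Marks

/-! From identities in the field of fractions to membership in the cone of two-vertex states. -/

open Finset Polynomial

noncomputable section

namespace Vale.Agent.P066.Overlap2

open Vale.Agent.P066.Small

/-- The field of fractions in `N` variables. -/
abbrev FK (N : ℕ) := FractionRing (MvPolynomial (Fin N) ℤ[X])

/-- The field of scalars. -/
abbrev F0 := FractionRing ℤ[X]

/-- The embedding of polynomials. -/
def phi (N : ℕ) : MvPolynomial (Fin N) ℤ[X] →+* FK N := algebraMap _ _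

lemma phi_inj (N : ℕ) : Function.Injective (phi N) :=
  IsFractionRing.injective (MvPolynomial (Fin N) ℤ[X]) (FK N)

/-- The parameter. -/
def qK (N : ℕ) : FK N := phi N (Q N)

/-- The variables. -/
def xK (N : ℕ) (i : Fin N) : FK N := phi N (xx N i)

/-- The universal parameter. -/
def q0 : F0 := algebraMap ℤ[X] F0 Polynomial.X

/-- The embedding of scalars. -/
def iota (N : ℕ) : F0 →+* FK N :=
  IsFractionRing.lift (g := (phi N).comp MvPolynomial.C)
    ((phi_inj N).comp (MvPolynomial.C_injective _ _))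

lemma iota_q0 (N : ℕ) : iota N q0 = qK N := by
  rw [iota, q0, IsFractionRing.lift_algebraMap]
  rfl

lemma iota_eval (N : ℕ) (p : ℕ[X]) :
    iota N (p.eval₂ (Nat.castRingHom F0) q0) = phi N (cq N p) := by
  have : (iota N).comp (Polynomial.eval₂RingHom (Nat.castRingHom F0) q0) =
      (phi N).comp (cq N) := by
    refine Polynomial.ringHom_ext (fun n => by simp) ?_
    simp [iota_q0, cq_X, qK]
  exact RingHom.congr_fun this p

lemma generic_q0 : Generic q0 := by
  have hinj := IsFractionRing.injective ℤ[X] F0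
  refine ⟨?_, fun n hn h => ?_⟩
  · rw [q0, ← map_zero (algebraMap ℤ[X] F0)]
    exact fun h => Polynomial.X_ne_zero (hinj h)
  · rw [q0, ← map_pow, ← map_one (algebraMap ℤ[X] F0)] at h
    have := congrArg Polynomial.natDegree (hinj h)
    simp at this
    omega

lemma generic_qK (N : ℕ) : Generic (qK N) := by
  rw [← iota_q0]
  refine ⟨(map_ne_zero (iota N)).2 generic_q0.ne, fun n hn h => generic_q0.root n hn ?_⟩
  exact (iota N).injective (by rw [map_pow, h, map_one])

section hom

variable {K L : Type*} [Field K] [Field L] (f : K →+* L) (q : K)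

lemma map_qz (n : ℤ) : f (qz q n) = qz (f q) n := by simp [qz, map_div₀, map_zpow₀]

lemma map_Cp (n : ℤ) : f (Cp q n) = Cp (f q) n := by
  simp [Cp, apply_ite f, map_div₀, map_qz]

lemma map_Sc (c H N T : ℤ) : f (Sc q c H N T) = Sc (f q) c H N T := by
  simp [Sc, tE, tF, apply_ite f, map_qz, map_Cp, map_zpow₀, map_sum]

lemma map_Gq (n : ℤ) : f (Gq q n) = Gq (f q) n := by
  simp [Gq, Fh, apply_ite f, map_div₀, map_zpow₀]

lemma map_Rh (k : ℕ) (D b : ℤ) : f (Rh q k D b) = Rh (f q) k D b := by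
  simp [Rh, acoef, apply_ite f, map_div₀, map_zpow₀, map_qz, map_Gq]

end hom

lemma map_es {R S : Type*} [CommRing R] [CommRing S] (f : R →+* S) {N : ℕ} (w : Fin N → R) (n : ℕ) :
    f (es w n) = es (fun s => f (w s)) n := by
  simp [es_eq_sum, map_sum, map_prod]

lemma map_cw {R S : Type*} [CommRing R] [CommRing S] (f : R →+* S) (q : R) {N : ℕ} (a b : Fin N) :
    f (cw q a b) = cw (f q) a b := by
  simp [cw, apply_ite f]

lemma phi_cw (N : ℕ) (a b : Fin N) : phi N (cw (Q N) a b) = cw (qK N) a b := map_cw _ _ _ _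

lemma phi_p1 (N m : ℕ) (a : Fin N) : phi N (p1 (Q N) (xx N) m a) = p1 (qK N) (xK N) m a := by
  rw [p1, p1, map_es]
  simp [phi_cw, xK]

lemma phi_qn (N m : ℕ) : phi N (qn (Q N) m) = qn (qK N) m := by simp [qn, map_sum, qK]

lemma phi_GG (N A B D : ℕ) (a b : Fin N) :
    phi N (GG (Q N) (xx N) A B D a b) = GG (qK N) (xK N) A B D a b := by
  simp [GG, wo, wy, sel, apply_ite (phi N), map_sum, phi_p1, phi_qn, qK, xK]

lemma phi_HH (N D : ℕ) (a b : Fin N) :
    phi N (HH (Q N) (xx N) D a b) = HH (qK N) (xK N) D a b := by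
  simp [HH, map_es, phi_cw, xK]

lemma phi_esymm (N i : ℕ) : phi N (MvPolynomial.esymm (Fin N) ℤ[X] i) = ee (xK N) (i : ℤ) := by
  rw [← es_xx, map_es, ee, esZ_natCast]; rfl

/-- Membership in the cone, read in the field of fractions. -/
def InC (n : ℕ) (F : ∀ N, Fin N → Fin N → FK N) : Prop :=
  ∃ G, C2 n G ∧ ∀ N a b, phi N (G N a b) = F N a b

/-- A family given by its symmetric part. -/
def Half (n : ℕ) (H : ∀ N, Fin N → Fin N → FK N) : Prop :=
  InC n fun N a b => cw (qK N) a b * (xK N a * xK N b * H N (min a b) (max a b))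

lemma Half.congr {n : ℕ} {H H' : ∀ N, Fin N → Fin N → FK N}
    (h : ∀ N d e, d < e → H N d e = H' N d e) (hH : Half n H') : Half n H := by
  obtain ⟨G, hG, hG'⟩ := hH
  refine ⟨G, hG, fun N a b => ?_⟩
  rw [hG']
  dsimp only
  rcases eq_or_ne a b with rfl | hab
  · simp [cw_self]
  · rw [h N _ _ (min_lt_max.2 hab)]

lemma Half.zero (n : ℕ) : Half n (fun _ _ _ => 0) :=
  ⟨_, C2.zero n, fun N a b => by simp⟩

lemma Half.add {n : ℕ} {H H' : ∀ N, Fin N → Fin N → FK N} (h : Half n H) (h' : Half n H') :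
    Half n (fun N d e => H N d e + H' N d e) := by
  obtain ⟨G, hG, hG1⟩ := h
  obtain ⟨G', hG', hG2⟩ := h'
  exact ⟨_, hG.add hG', fun N a b => by rw [map_add, hG1, hG2]; ring⟩

lemma Half.sum {n : ℕ} {ι : Type*} (I : Finset ι) {H : ι → ∀ N, Fin N → Fin N → FK N}
    (h : ∀ i ∈ I, Half n (H i)) : Half n (fun N d e => ∑ i ∈ I, H i N d e) := by
  classical
  induction I using Finset.induction_on with
  | empty => exact (Half.zero n).congr fun N d e _ => sum_empty
  | insert i I hi ih =>
    exact ((h i (mem_insert_self i I)).add (ih fun j hj => h j (mem_insert_of_mem hj))).congr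
      fun N d e _ => sum_insert hi

/-- A scalar factor, from a value in the universal field. -/
lemma exists_cq {v : F0} (h : IsPos q0 v) : ∃ p : ℕ[X], ∀ N, phi N (cq N p) = iota N v := by
  obtain ⟨p, rfl⟩ := h
  exact ⟨p, fun N => (iota_eval N p).symm⟩

/-- A term with a two-row generator. -/
lemma Half.termS {n d₀ : ℕ} {P : ∀ N : ℕ, MvPolynomial (Fin N) ℤ[X]} (hP : EPositive d₀ P)
    {v : F0} {i A D : ℤ} (hv : 0 ≤ i → IsPos q0 v) (hA : 2 * A ≤ D)
    (hn : (n : ℤ) = d₀ + i + D + 2) :
    Half n fun N d e =>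
      phi N (P N) * (iota N v * (ee (xK N) i * Sy (qK N) (xK N) d e A D)) := by
  rcases lt_or_ge i 0 with hi | hi
  · exact (Half.zero n).congr fun N d e _ => by rw [ee_neg hi]; ring
  rcases le_or_gt A 0 with h0 | h0
  · exact (Half.zero n).congr fun N d e _ => by rw [Sy_nonpos h0]; ring
  lift i to ℕ using hi
  lift A to ℕ using h0.le
  lift D to ℕ using (by omega)
  obtain ⟨p, hp⟩ := exists_cq (hv (by omega))
  refine ⟨_, C2.genG (n := n) A A D (EPositive.cmul p (hP.mulE (k := i) rfl)) (Or.inl rfl)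
    (by omega) (by omega) (by omega) (by omega), fun N a b => ?_⟩
  rw [map_mul, map_mul, map_mul, phi_GG, GG_Sy (generic_qK N) (by omega), hp, phi_esymm]
  ring

/-- A term with a one-row generator. -/
lemma Half.termH {n d₀ : ℕ} {P : ∀ N : ℕ, MvPolynomial (Fin N) ℤ[X]} (hP : EPositive d₀ P)
    {v : F0} {i j D : ℤ} (hv : 0 ≤ i → 0 ≤ j → 0 ≤ D → IsPos q0 v)
    (hn : (n : ℤ) = d₀ + i + j + D + 2) :
    Half n fun N d e =>
      phi N (P N) * (iota N v * (ee (xK N) i * ee (xK N) j * aa (qK N) (xK N) d e D)) := by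
  rcases lt_or_ge i 0 with hi | hi
  · exact (Half.zero n).congr fun N d e _ => by rw [ee_neg hi]; ring
  rcases lt_or_ge j 0 with hj | hj
  · exact (Half.zero n).congr fun N d e _ => by rw [ee_neg hj]; ring
  rcases lt_or_ge D 0 with hD | hD
  · exact (Half.zero n).congr fun N d e _ => by rw [aa_neg hD]; ring
  lift i to ℕ using hi
  lift j to ℕ using hj
  lift D to ℕ using hD
  obtain ⟨p, hp⟩ := exists_cq (hv (by omega) (by omega) (by omega))
  refine ⟨_, C2.genH (n := n) D
    (EPositive.cmul p ((hP.mulE (k := i) rfl).mulE (k := j) rfl)) (by omega), fun N a b => ?_⟩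
  rw [map_mul, map_mul, map_mul, map_mul, phi_HH, HH_aa, hp, phi_esymm, phi_esymm]
  ring

end Vale.Agent.P066.Overlap2
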